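import Vale.Agent.P352X.EG.Spec

/-!
# P352X, block EG, row BAS: parities, adjoints, twisted affiliation
-/

set_option linter.all false

open MeasureTheory Filter Topology
open scoped SchwartzMap ComplexConjugate ContDiff

namespace Vale.Agent.P352X.EG

open Vale.Agent.P352 Vale.Agent.P352.GF Vale.Agent.P352.BW Vale.Agent.P352.H246
open Vale.Agent.P352.H496 Vale.Agent.P352.H755 Vale.Agent.P352.H15
open Vale.Agent.P352.SubConf (IsAdj)
open Vale.Agent.P352X.EB
open UniformSpace (Completion)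

noncomputable section

namespace Bas

variable {D : Type*} [NormedAddCommGroup D] [InnerProductSpace ℂ D] {c : Cg D}

lemma bb (f : Fn) : bar (bar f) = f := funext fun _ => star_star _

lemma tb {f : Fn} (hf : IsTest f) : IsTest (bar f) := T.test_bar hf

lemma gadd (v w : D) : c.G (v + w) = c.G v + c.G w :=
  ext_inner_right ℂ fun u => by
    rw [c.hN.herm, inner_add_left, inner_add_left, c.hN.herm, c.hN.herm]

lemma gsmul (z : ℂ) (v : D) : c.G (z • v) = z • c.G v :=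
  ext_inner_right ℂ fun u => by
    rw [c.hN.herm, inner_smul_left, inner_smul_left, c.hN.herm]

lemma sg2 (e : Bool) : sg e * sg e = 1 := by cases e <;> simp [sg]

lemma sgc (e : Bool) : conj (sg e) = sg e := by cases e <;> simp [sg]

lemma pa' {e : Bool} {B : Fld D} (h : Pa c e B) {f : Fn} (hf : IsTest f) (v : D) :
    c.G (B f v) = sg e • B f (c.G v) := by
  rw [h f v hf, smul_smul, sg2, one_smul]

lemma padj (e : Bool) (B B' : Fld D) (ha : IsAdj B B') (h : Pa c e B) : Pa c e B' := by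
  intro f v hf
  refine ext_inner_left ℂ fun w => ?_
  rw [← bb f, ← ha _ _ _ (tb hf), ← c.hN.herm, pa' h (tb hf), inner_smul_left, inner_smul_right,
    ← c.hN.herm, ← ha _ _ _ (tb hf), sgc]

/-- an even field is a Bose field on test functions -/
lemma even {B : Fld D} (hB : c.Q.fld B) (h : Pa c false B) :
    ∃ C, c.Q.bose C ∧ ∀ f v, IsTest f → B f v = C f v := by
  obtain ⟨C, C', h1, h2, h3⟩ := c.hN.split B hB
  refine ⟨C, h1, fun f v hf => ?_⟩
  have a1 := h f v hf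
  rw [h3 f _ hf, h3 f _ hf, gadd, c.hN.bose C f v h1 hf, h2.2 f v hf] at a1
  simp only [sg, cond_false, one_smul, add_right_inj] at a1
  have a2 : (2 : ℂ) • c.G (C' f v) = 0 := by
    rw [two_smul]
    nth_rewrite 1 [← a1]
    exact neg_add_cancel _
  have a3 : c.G (C' f v) = 0 := (smul_eq_zero.1 a2).resolve_left two_ne_zero
  have a4 : C' f v = 0 := by
    have := gsmul (c := c) 0 0
    rw [zero_smul, zero_smul] at this
    rw [← c.hN.inv (C' f v), a3, this]
  rw [h3 f v hf, a4, add_zero]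

lemma odd {B : Fld D} (hB : c.Q.fld B) (h : Pa c true B) : Fer c.Q c.G B :=
  ⟨hB, fun f v hf => by rw [h f v hf]; simp [sg]⟩

lemma sep_symm {f g : Fn} (h : Sep f g) : Sep g f := by
  intro x hx y hy
  have := h y hy x hx
  have e : GF.mdot (fun m => x m - y m) (fun m => x m - y m) =
      GF.mdot (fun m => y m - x m) (fun m => y m - x m) := by
    simp only [GF.mdot]
    exact Finset.sum_congr rfl fun m _ => by ring
  rwa [e]

lemma comm (e e' : Bool) (B C : Fld D) (f g : Fn) (v : D) (hB : c.Q.fld B) (hC : c.Q.fld C)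
    (h : Pa c e B) (h' : Pa c e' C) (hf : IsTest f) (hg : IsTest g) (hs : Sep f g) :
    B f (C g v) = sg (e && e') • C g (B f v) := by
  cases e
  · obtain ⟨B₀, a1, a2⟩ := even hB h
    rw [a2 f _ hf, a2 f _ hf, c.Q.loc _ _ _ _ v a1 hC hf hg hs]
    simp [sg]
  · cases e'
    · obtain ⟨C₀, a1, a2⟩ := even hC h'
      rw [a2 g _ hg, a2 g _ hg, c.Q.loc _ _ _ _ v a1 hB hg hf (sep_symm hs)]
      simp [sg]
    · rw [c.hN.anti B C f g v (odd hB h) (odd hC h') hf hg hs]
      simp [sg]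

lemma surj (t : SG c) {s : ℝ} {L : Ix → V} (a : V) (hs : 0 < s) (hL : IsLor L) (z : D) :
    ∃ v, c.Q.U s L a v = z := by
  let g : Sh c := ⟨⟨s, L, a, hs, hL⟩, false⟩
  obtain ⟨v, hv⟩ := t.sur g.inv z
  refine ⟨v, Completion.coe_injective D ?_⟩
  rw [← t.coe _ _ _ _ hs hL, ← hv]
  show (g.U c * g.inv.U c) z = z
  rw [t.U_inv, (t.uni g).2]
  rfl

lemma sadj (t : SG c) (s : ℝ) (L : Ix → V) (a : V) (n : ℕ) (κ : Fin n → ℂ) (B B' : Fld D)
    (Φ Φ' : Fin n → Fld D) (hs : 0 < s) (hL : IsLor L) (h : IsAdj B B')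
    (h' : ∀ i, IsAdj (Φ i) (Φ' i)) (e : ∀ f v, IsTest f → B f (c.Q.U s L a v) =
      ∑ i, κ i • c.Q.U s L a (Φ i (fun x => f (sim s L a x)) v)) (f : Fn) (w : D) (hf : IsTest f) :
    B' f (c.Q.U s L a w) = ∑ i, conj (κ i) • c.Q.U s L a (Φ' i (fun x => f (sim s L a x)) w) := by
  refine ext_inner_left ℂ fun z => ?_
  obtain ⟨v, rfl⟩ := surj t a hs hL z
  have ht : IsTest fun x => bar f (sim s L a x) :=
    t.test ⟨⟨s, L, a, hs, hL⟩, false⟩ _ (tb hf)
  rw [← bb f, ← h _ _ _ (tb hf), e _ _ (tb hf), sum_inner, inner_sum, bb]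
  refine Finset.sum_congr rfl fun i _ => ?_
  rw [inner_smul_left, inner_smul_right, c.Q.U_inner _ _ _ _ _ hs hL,
    c.Q.U_inner _ _ _ _ _ hs hL, h' i _ _ _ ht]
  exact congrArg (fun k => conj (κ i) * inner ℂ v (Φ' i k w)) (bb fun x => f (sim s L a x))

lemma madj (t : SG c) (k : Rp) (Φ Φ' : Fin k.n → Fld D) (h : IsMf c.Q k Φ)
    (h' : ∀ a, c.Q.fld (Φ' a) ∧ IsAdj (Φ a) (Φ' a)) : IsMf c.Q (cj k) Φ' :=
  ⟨fun a => (h' a).1, fun a L f v hL hf =>
    sadj t 1 L 0 k.n (fun b => k.ρ L b a) (Φ a) (Φ' a) Φ Φ' one_pos hL (h' a).2 (fun b => (h' b).2)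
      (fun f v hf => h.2 a L f v hL hf) f v hf⟩

lemma cpow_conj {s : ℝ} (hs : 0 < s) (d : ℂ) :
    conj ((s : ℂ) ^ (4 - d)) = (s : ℂ) ^ (4 - conj d) := by
  have h := Complex.cpow_conj (s : ℂ) (4 - d) (by
    rw [Complex.arg_ofReal_of_nonneg hs.le]; exact Real.pi_ne_zero.symm)
  rw [Complex.conj_ofReal] at h
  rw [← h, map_sub, map_ofNat]

lemma padj' (t : SG c) (e : Bool) (k : Rp) (d : ℂ) (Φ : Fin k.n → Fld D) (h : Mp c e k d Φ) :
    ∃ Φ' : Fin k.n → Fld D, Mp c e (cj k) (conj d) Φ' ∧ ∀ a, IsAdj (Φ a) (Φ' a) := by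
  choose Φ' h1 h2 using fun a => c.Q.adj _ (h.mf.1 a)
  refine ⟨Φ', ⟨madj t k Φ Φ' h.mf fun a => ⟨h1 a, h2 a⟩, fun a s f v hs hf => ?_,
    fun a => padj e _ _ (h2 a) (h.par a)⟩, h2⟩
  have := sadj t s GF.one 0 1 (fun _ => (s : ℂ) ^ (4 - d)) (Φ a) (Φ' a) (fun _ => Φ a)
    (fun _ => Φ' a) hs H496.isLor_one (h2 a) (fun _ => h2 a)
    (fun f v hf => by rw [Fin.sum_univ_one]; exact h.dim a s f v hs hf) f v hf
  rwa [Fin.sum_univ_one, cpow_conj hs] at this

lemma aff (t : SG c) (e : Bool) (B B' : Fld D) (f : Fn) (hB : c.Q.fld B) (hB' : c.Q.fld B')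
    (ha : IsAdj B B') (h : Pa c e B) (hf : In W1 f) :
    T.Afs (M0 c).commutant (fun v => B f (cond e (c.G v) v))
      fun v => cond e (c.G (B' (bar f) v)) (B' (bar f) v) := by
  refine ⟨fun v w => ?_, fun Y hY v w => ?_⟩
  · cases e
    · exact ha f v w hf.1
    · exact (ha f _ w hf.1).trans (c.hN.herm _ _)
  rw [VonNeumannAlgebra.commutant_commutant] at hY
  obtain ⟨a1, a2⟩ := c.hN.loc vb va Y null_vb null_va al_va hY
  have a3 := (t.affa W1 _ _ (Al.fld B B' f _ _ hB hB' ha hf Al.one)).2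
  have g2 : ∀ z, c.Γ (c.Γ z) = z := fun z => congrArg (fun X : _ →L[ℂ] _ => X z) t.g2
  have gs : ∀ x y, inner ℂ (c.Γ x) y = inner ℂ x (c.Γ y) := fun x y => by
    conv_rhs => rw [← t.gs]
    exact (ContinuousLinearMap.adjoint_inner_right _ _ _).symm
  have h1 := fun v => a3 _ a1 v w
  have h2 := fun v => a3 _ a2 v w
  have h3 : ((B f (c.G v) : D) : Completion D) = sg e • c.Γ (B f v : D) := by
    rw [h f v hf.1, Completion.coe_smul, c.hN.ext]
  simp only [ContinuousLinearMap.add_apply, ContinuousLinearMap.sub_apply,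
    ContinuousLinearMap.mul_apply, inner_add_right, inner_sub_right, g2] at h1 h2
  cases e
  · have b1 := h1 v
    have b2 := h2 (c.G v)
    rw [h3, ← c.hN.ext] at b2
    simp only [sg, cond_false, one_smul, g2] at b2 ⊢
    linear_combination (1 / 2) * b1 + (1 / 2) * b2
  · have b1 := h1 (c.G v)
    have b2 := h2 v
    simp only [cond_true]
    rw [h3, ← c.hN.ext] at b1
    rw [h3, ← c.hN.ext, gs]
    simp only [sg, cond_true, neg_smul, one_smul, map_neg, inner_neg_right, g2] at b1 ⊢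
    linear_combination (1 / 2) * b1 - (1 / 2) * b2

end Bas

variable {D : Type*} [NormedAddCommGroup D] [InnerProductSpace ℂ D] {c : Cg D}

/-- row BAS -/
theorem bas_row (s : SG c) : BAS c where
  gadd := Bas.gadd
  gsmul := Bas.gsmul
  padj := Bas.padj
  pvac e B f h hf := by
    rw [c.hN.ext, Bas.pa' h hf, c.hN.vac, Completion.coe_smul]
  comm := Bas.comm
  sadj := Bas.sadj s
  madj := Bas.madj s
  padj' := Bas.padj' s
  aff := Bas.aff s

end

end Vale.Agent.P352X.EG
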