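import Vale.Agent.P352X.EG.Spec
import Vale.Agent.P352X.Api2d
import Vale.Agent.P352X.Api3a
import Vale.Agent.P352.BW.T.S
import Vale.Agent.P352.BW.T.W
import Vale.Agent.P352.BW.T.Net
import Vale.Agent.P352.BW.T.NAd
import Vale.Agent.P352.BW.A

/-!
# P352X, block EG, row BWS: the modular group on one-field vectors
-/

set_option linter.all false

open scoped ComplexConjugate

namespace Vale.Agent.P352X.EG

open Vale.Agent.P352 Vale.Agent.P352.GF Vale.Agent.P352.BW Vale.Agent.P352.H246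
open Vale.Agent.P352.H496 Vale.Agent.P352.H755 Vale.Agent.P352.H15
open Vale.Agent.P352.SubConf (IsAdj)
open Vale.Agent.P352X.EB
open Vale.Agent.P132 (ModData)
open UniformSpace (Completion)
open Complex (I)

noncomputable section

namespace Bws

variable {D : Type*} [NormedAddCommGroup D] [InnerProductSpace ℂ D] {c : Cg D}

theorem coe_sum {n : ℕ} (z : Fin n → ℂ) (w : Fin n → D) :
    ((∑ a, z a • w a : D) : Completion D) = ∑ a, z a • ((w a : D) : Completion D) := by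
  rw [show ((∑ a, z a • w a : D) : Completion D) = ∑ a, ((z a • w a : D) : Completion D) from
    map_sum (Completion.toComplL (𝕜 := ℂ) (E := D)) _ Finset.univ]
  simp only [Completion.coe_smul]

theorem ov_smul {n : ℕ} (Φ : Fin n → Fld D) (s : ℂ) (z : Fin n → ℂ) (f : Fn) :
    ov c Φ (s • z) f = s • ov c Φ z f := by
  simp only [ov, Finset.smul_sum, Pi.smul_apply, smul_eq_mul, mul_smul]

theorem afs_sum {n : ℕ} {M : VonNeumannAlgebra (Completion D)} {X X' : Fin n → D → D}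
    (h : ∀ i, T.Afs M (X i) (X' i)) (z : Fin n → ℂ) :
    T.Afs M (fun v => ∑ i, z i • X i v) fun w => ∑ i, conj (z i) • X' i w :=
  T.afs_of (fun v w => by
    rw [sum_inner, inner_sum]
    exact Finset.sum_congr rfl fun i _ => by rw [inner_smul_left, inner_smul_right, (h i).1])
    (T.H732W.aff_sum (fun i => ⟨_, (h i).1, (h i).2⟩) z)

theorem sg_sq (e : Bool) : sg e * sg e = 1 := by cases e <;> simp [sg]

theorem lor (t : ℝ) : IsLor (T.bq va vb t) := T.s_lor null_va null_vb md_ab t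

theorem bi_eq (a b : V) (t : ℝ) : O649.bi a b t = T.bq a b (-t) := by simp [O649.bi, T.bq]

theorem bq_bq (s t : ℝ) (x : V) : sim 1 (T.bq va vb s) 0 (sim 1 (T.bq va vb t) 0 x) =
    sim 1 (T.bq va vb (s + t)) 0 x := by
  rw [← T.s_bq_mul null_va null_vb md_ab, ← T.sim_cm]; rfl

theorem bq_inv {s t : ℝ} (h : s + t = 0) (x : V) :
    sim 1 (T.bq va vb s) 0 (sim 1 (T.bq va vb t) 0 x) = x := by
  rw [bq_bq, h, T.s_bq_zero]
  funext n
  simp [sim, GF.one, bas, Pi.single_apply]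

theorem rr (x : V) : sim 1 (T.rq va vb) 0 (sim 1 (T.rq va vb) 0 x) = x :=
  O649.rr null_va null_vb md_ab x

theorem in_bar {O : Set V} {f : Fn} (hf : In O f) : In O (bar f) :=
  ⟨T.test_bar hf.1, by unfold HasCompactSupport; rw [H246.tsupport_bar]; exact hf.2.1,
    by rw [H246.tsupport_bar]; exact hf.2.2⟩

theorem in_rq {f : Fn} (hf : In W0 f) : In W1 (T.cp (T.rq va vb) f) := by
  refine T.in_cp rr rr (fun x hx => ?_) hf
  have h2 : GF.mdot va (sim 1 (T.rq va vb) 0 x) = (1 + -2) * GF.mdot va x ∧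
    GF.mdot vb (sim 1 (T.rq va vb) 0 x) = (1 + -2) * GF.mdot vb x :=
    T.bst_sim null_va null_vb md_ab _ _ x
  simp only [Wdg, Set.mem_setOf_eq, sub_zero, h2.1, h2.2] at hx ⊢
  constructor <;> linarith [hx.1, hx.2]

variable {k : Rp} {W : ℂ → Matrix (Fin k.n) (Fin k.n) ℂ} {σ : Bool} {Φ : Fin k.n → Fld D}

theorem cov0 (t : SG c) (hΦ : IsMf c.Q k Φ) {L : Ix → V} (hL : IsLor L) (y : Fin k.n → ℂ) {g : Fn}
    (hg : IsTest g) : ov c Φ y g = Ug c.Q 1 L 0 (ov c Φ ((k.ρ L).mulVec y) (T.cp L g)) := by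
  have h1 : ∀ a, ((Φ a g c.Q.vac : D) : Completion D) =
      ∑ b, k.ρ L b a • Ug c.Q 1 L 0 (Φ b (T.cp L g) c.Q.vac : D) := fun a => by
    have h2 := hΦ.2 a L g c.Q.vac hL hg
    rw [c.Q.U_vac 1 L 0 one_pos hL] at h2
    rw [h2, coe_sum]
    exact Finset.sum_congr rfl fun b _ => by rw [t.coe 1 L 0 _ one_pos hL]; rfl
  simp only [ov, h1, map_sum, map_smul, Finset.smul_sum, Matrix.mulVec, dotProduct,
    Finset.sum_smul, smul_smul]
  rw [Finset.sum_comm]
  exact Finset.sum_congr rfl fun b _ => Finset.sum_congr rfl fun a _ => by rw [mul_comm]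

/-- the boosts with the signs `s` -/
def Vs (c : Cg D) (s : ℝ → Bool) (t : ℝ) (z : Completion D) : Completion D :=
  sg (s t) • Ug c.Q 1 (T.bq va vb t) 0 z

theorem cov (t : SG c) (hΦ : IsMf c.Q k Φ) (hW : OneP k W σ) {s : ℝ → Bool}
    (hs : ∀ τ : ℝ, k.ρ (T.bq va vb τ) = sg (s τ) • W τ) (τ : ℝ) (z : Fin k.n → ℂ) {f : Fn}
    (hf : IsTest f) :
    Vs c s τ (ov c Φ z f) = ov c Φ ((W (-τ)).mulVec z) (T.cp (T.bq va vb (-τ)) f) := by
  have e : T.cp (T.bq va vb τ) (T.cp (T.bq va vb (-τ)) f) = f :=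
    funext fun x => congrArg f (bq_inv (neg_add_cancel τ) x)
  rw [cov0 t hΦ (lor τ) _ (T.test_lor (lor (-τ)) hf), e, hs, Matrix.smul_mulVec,
    Matrix.mulVec_mulVec, ← hW.add, add_neg_cancel, hW.zero, Matrix.one_mulVec, ov_smul, map_smul]
  rfl

theorem nice (hW : OneP k W σ) (ε : Bool) (z : Fin k.n → ℂ) (i : Fin k.n) :
    O649.Nice fun ζ => (W (sg ε * ζ)).mulVec z i := by
  refine O649.Nice.sum Finset.univ fun j _ => O649.Nice.mul ?_ (O649.Nice.const (z j))
  have d : Differentiable ℂ fun ζ => W (sg ε * ζ) i j :=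
    (hW.diff i j).comp (differentiable_id.const_mul _)
  obtain ⟨C, r, hC, hr, h⟩ := hW.bd
  refine ⟨d.continuous.continuousOn, d.differentiableOn, C, r, hC, hr, fun ζ h1 h2 => ?_⟩
  have h3 := h (sg ε * ζ) i j (by cases ε <;> simp [sg, abs_le] <;> constructor <;> linarith)
  cases ε <;> simpa [sg] using h3

/-- the boost as an element of the group -/
def gb (c : Cg D) (t : ℝ) : Sh c := ⟨⟨1, T.bq va vb t, 0, one_pos, lor t⟩, false⟩

theorem img (t : ℝ) : (gb c t).act '' W0 = W0 :=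
  (T.H732W.bq_wdg null_va null_vb md_ab t).antisymm fun x hx =>
    ⟨_, T.H732W.bq_wdg null_va null_vb md_ab (-t) ⟨x, hx, rfl⟩, bq_inv (add_neg_cancel t) x⟩

theorem nat (t : SG c) (E : ModData (M0 c) c.Om) (s : ℝ → Bool) (τ : ℝ) :
    (∀ F z, Vs c s τ (E.Th F z) = E.Th F (Vs c s τ z)) ∧
      ∀ z, Vs c s τ (E.J z) = E.J (Vs c s τ z) := by
  have hu := t.uni (gb c τ)
  have e1 : ∀ z, star ((gb c τ).U c) ((gb c τ).U c z) = z := fun z =>
    congrArg (fun A : Completion D →L[ℂ] Completion D => A z) hu.1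
  have h := T.n (M0 c) c.Om E (Unitary.linearIsometryEquiv ⟨_, hu⟩) (t.vac (gb c τ)).1
    (fun X hX => ⟨_, by have := (t.alg (gb c τ) W0 X).1 hX; rwa [img] at this, fun z =>
      congrArg (fun w => (gb c τ).U c (X w)) (e1 z)⟩)
    fun Y hY => ⟨star ((gb c τ).U c) * Y * (gb c τ).U c, (t.alg (gb c τ) W0 _).2 (by
      rw [img, ← mul_assoc, ← mul_assoc, hu.2, one_mul, mul_assoc, hu.2, mul_one]; exact hY),
      fun z => (congrArg (fun A : Completion D →L[ℂ] Completion D =>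
        A (Y ((gb c τ).U c z))) hu.2).symm⟩
  refine ⟨fun F z => ?_, fun z => ?_⟩
  · rw [Vs, Vs, map_smul]
    exact congrArg _ (h.1 F z)
  · rw [Vs, Vs, E.J.map_smulₛₗ, show conj (sg (s τ)) = sg (s τ) by cases s τ <;> simp [sg]]
    exact congrArg _ (h.2 z)

theorem inn (t : SG c) (s : ℝ → Bool) (τ : ℝ) (u v : Completion D) :
    inner ℂ (Vs c s τ u) (Vs c s τ v) = inner ℂ u v := by
  rw [Vs, Vs, inner_smul_left, inner_smul_right, ← mul_assoc,
    show conj (sg (s τ)) * sg (s τ) = 1 by cases s τ <;> simp [sg], one_mul]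
  exact ContinuousLinearMap.inner_map_map_of_mem_unitary (t.uni (gb c τ)) u v

theorem nrm (t : SG c) (s : ℝ → Bool) (τ : ℝ) (u : Completion D) : ‖Vs c s τ u‖ = ‖u‖ := by
  rw [norm_eq_sqrt_re_inner (𝕜 := ℂ), inn t, ← norm_eq_sqrt_re_inner]

section

variable (t : SG c) (o : OG c) (hΦ : IsMf c.Q k Φ) (hW : OneP k W σ) {s : ℝ → Bool}
  (hs : ∀ τ : ℝ, k.ρ (T.bq va vb τ) = sg (s τ) • W τ) (z : Fin k.n → ℂ) {f : Fn}

include t o hΦ hW hs

theorem hol0 (hf : In W0 f) : Hol (Vs c s) (ov c Φ z f)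
    (ov c Φ ((W (I / 2)).mulVec z) (T.cp (T.rq va vb) f)) := by
  refine o va vb null_va null_vb md_ab _ Φ (fun ζ => (W (sg true * ζ)).mulVec z) f _ _ _ hΦ.1
    (nice hW true z) hf (nrm t s) fun τ => ?_
  rw [cov t hΦ hW hs τ z hf.1, cov t hΦ hW hs τ _ (in_rq hf).1, Matrix.mulVec_mulVec, ← hW.add,
    bi_eq, show sg true * (τ : ℂ) = -τ by simp [sg],
    show sg true * ((τ : ℂ) - I / 2) = -τ + I / 2 by simp [sg]; ring]
  exact ⟨rfl, rfl⟩

theorem hol1 (hf : In W0 f) : Hol (fun τ => Vs c s (-τ))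
    (ov c Φ ((W (I / 2)).mulVec z) (T.cp (T.rq va vb) f)) (ov c Φ z f) := by
  refine o vb va null_vb null_va (by rw [O649.md_comm]; exact md_ab) _ Φ
    (fun ζ => (W (sg false * ζ)).mulVec ((W (I / 2)).mulVec z)) _ _ _ _ hΦ.1
    (nice hW false _) (in_rq hf) (fun τ => nrm t s _) fun τ => ?_
  have e : T.cp (T.bq va vb (- -τ)) f = fun y => T.cp (T.rq va vb) f
      (sim 1 (T.rq vb va) 0 (sim 1 (T.bq va vb (- -τ)) 0 y)) := by
    funext y
    rw [T.s_rq_swap va vb]
    exact congrArg f (rr _).symm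
  rw [cov t hΦ hW hs _ z hf.1, cov t hΦ hW hs _ _ (in_rq hf).1, bi_eq, T.s_bq_swap va vb, ← e,
    Matrix.mulVec_mulVec z (W (sg false * (τ - I / 2))), ← hW.add,
    show sg false * (τ : ℂ) = -((-τ : ℝ) : ℂ) by simp [sg],
    show sg false * ((τ : ℂ) - I / 2) + I / 2 = -((-τ : ℝ) : ℂ) by simp [sg]]
  exact ⟨rfl, rfl⟩

end

end Bws

open Bws in
theorem bws_row {D : Type*} [NormedAddCommGroup D] [InnerProductSpace ℂ D] {c : Cg D} (t : E0 c)
    (r : RPX) (o : OG c) (s : SST (Completion D)) : BWS c := by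
  intro E e k W σ Φ Φ' hW hΦ hP hA τ z f hf
  classical
  obtain ⟨u, hu⟩ : ∃ u : ℝ → Bool, u = fun τ : ℝ => decide (k.ρ (T.bq va vb τ) ≠ W τ) := ⟨_, rfl⟩
  have hs : ∀ τ : ℝ, k.ρ (T.bq va vb τ) = sg (u τ) • W τ := fun τ => by
    by_cases h : k.ρ (T.bq va vb τ) = W τ
    · simp [hu, h, sg]
    · rw [show u τ = true by simp [hu, h], (hW.rho τ).resolve_left h]
      simp [sg]
  have hW' := r.cj k W σ hW
  have hΦ' := t.bas.madj k Φ Φ' hΦ hA
  have hs' : ∀ τ : ℝ, (cj k).ρ (T.bq va vb τ) = sg (u τ) • (W (conj (τ : ℂ))).map conj :=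
    fun τ => by
      show (k.ρ _).map conj = _
      rw [hs, Complex.conj_ofReal]
      ext a b
      cases u τ <;> simp [sg]
  have v0 : ∀ x, Vs c u 0 x = x := fun x => by
    have h0 : u 0 = false := by simp [hu, T.s_bq_zero, k.id, hW.zero]
    rw [Vs, h0, T.s_bq_zero]
    exact (one_smul ℂ _).trans
      (congrArg (fun A : Completion D →L[ℂ] Completion D => A x) t.sg.ut0)
  have f1 := in_rq hf
  have aj : ∀ a g v w, IsTest g → inner ℂ (Φ' a (bar g) v) w = inner ℂ v (Φ a g w) :=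
    fun a g v w hg => by rw [← inner_conj_symm, ← (hA a).2 g w v hg, inner_conj_symm]
  -- the vector on the other side
  have e1 : ∀ z : Fin k.n → ℂ, ov c Φ' (((W (conj (I / 2))).map conj).mulVec fun a => conj (z a))
      (T.cp (T.rq va vb) (bar f)) = sg σ • ov c Φ' (fun a => conj ((W (I / 2)).mulVec z a))
        (bar (T.cp (T.rq va vb) f)) := fun z => by
    have h1 : W (conj (I / 2)) = sg σ • W (I / 2) := by
      rw [show W (I / 2) = W I * W (conj (I / 2)) by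
        rw [← hW.add, map_div₀, Complex.conj_I, map_ofNat]; congr 1; ring, hW.per, Matrix.smul_mul, Matrix.one_mul,
        smul_smul, sg_sq, one_smul]
    rw [← ov_smul, h1]
    congr 1
    funext a
    cases σ <;> simp [sg, Matrix.mulVec, dotProduct]
  have k1 := fun z => hol0 t.sg o hΦ hW hs z hf
  by_cases hσ : σ = e
  · obtain ⟨φ, g1, g2, g3, g4⟩ := k1 z
    obtain ⟨ψ, g1', g2', g3', g4'⟩ := hol1 t.sg o hΦ' hW' hs' (fun a => conj (z a)) (in_bar hf)
    have m1 := (T.m (M0 c) c.Q.vac E _ _).1 (afs_sum (fun a => T.afs_of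
      (fun v w => aj a f v w hf.1) (c.hN.fld W0 _ _ (hA a).1 (in_bar hf))) fun a => conj (z a))
    have m2 := (T.m (M0 c) c.Q.vac E _ _).2 (afs_sum (fun a =>
      t.bas.aff e _ _ _ (hΦ.1 a) (hA a).1 (hA a).2 (hP a) f1) ((W (I / 2)).mulVec z))
    have e2 : cond e (c.G c.Q.vac) c.Q.vac = c.Q.vac := by cases e <;> simp [c.hN.vac]
    have e3 : ∀ a g, IsTest g → ((cond e (c.G (Φ' a g c.Q.vac)) (Φ' a g c.Q.vac) : D) :
        Completion D) = sg e • ((Φ' a g c.Q.vac : D) : Completion D) := fun a g hg => by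
      have h1 := t.bas.pvac e _ g (t.bas.padj e _ _ (hA a).2 (hP a)) hg
      rw [c.hN.ext] at h1
      cases e
      · exact (one_smul ℂ _).symm
      · exact h1
    simp only [coe_sum, Complex.conj_conj, e2, e3 _ _ (in_bar f1).1] at m1 m2
    have e4 : ∑ a, conj ((W (I / 2)).mulVec z a) • sg e •
        ((Φ' a (bar (T.cp (T.rq va vb) f)) c.Q.vac : D) : Completion D) = _ :=
      Eq.trans (by simp only [ov, Finset.smul_sum, hσ, smul_comm (sg e)]) (e1 z).symm
    rw [e4] at m2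
    have key := H23.sblock E ablock (Vs c u) v0 (fun F τ x => (nat t.sg E u τ).1 F x)
      (fun τ x => (nat t.sg E u τ).2 x) _ _ _ _ (T.ct_of g1 g2 g3 g4) (T.ct_of g1' g2' g3' g4')
      (fun F G hFG => m2 G F fun h => by
        rw [hFG h, ← mul_assoc, ← Complex.ofReal_mul, ← Real.exp_add, add_neg_cancel,
          Real.exp_zero, Complex.ofReal_one, one_mul]) (fun F G hFG => m1 F G hFG) τ
    have h7 := congrArg (Vs c u τ) key
    rw [ModData.U, (nat t.sg E u τ).1, cov t.sg hΦ hW hs τ z hf.1, cov t.sg hΦ hW hs _ z hf.1,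
      cov t.sg hΦ hW hs τ _ (T.test_lor (lor _) hf.1), Matrix.mulVec_mulVec, ← hW.add,
      show -(τ : ℂ) + -((-τ : ℝ) : ℂ) = 0 by simp, hW.zero, Matrix.one_mulVec,
      show T.cp (T.bq va vb (-τ)) (T.cp (T.bq va vb (- -τ)) f) = f from
        funext fun x => congrArg f (bq_inv (by ring) x)] at h7
    rw [bi_eq]
    exact h7
  · have h0 : ∀ z, ov c Φ z f = 0 := fun z => by
      refine s _ _ _ _ _ (inn t.sg u) (k1 z)
        (hol0 t.sg o hΦ' hW' hs' (fun a => conj (z a)) (in_bar hf)) ?_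
      refine Eq.trans ?_ (congrArg (fun y => -inner ℂ y _) (e1 z)).symm
      simp only [ov, inner_smul_left, inner_smul_right, sum_inner, inner_sum, Finset.mul_sum,
        Completion.inner_coe, Complex.conj_conj, ← Finset.sum_neg_distrib]
      rw [Finset.sum_comm]
      refine Finset.sum_congr rfl fun a _ => Finset.sum_congr rfl fun b _ => ?_
      rw [(hA a).2 f _ _ hf.1, aj b _ _ _ f1.1, t.bas.comm e e _ _ _ _ _ (hA a).1 (hΦ.1 b)
        (t.bas.padj e _ _ (hA a).2 (hP a)) (hP b) (in_bar hf).1 f1.1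
        (Ap.sep_wdg null_va null_vb (in_bar hf).2.2 f1.2.2), inner_smul_right]
      revert hσ
      cases σ <;> cases e <;> simp [sg] <;> ring
    rw [bi_eq, h0, map_zero]
    have h1 := cov t.sg hΦ hW hs τ z hf.1
    rw [h0, Vs, map_zero, smul_zero] at h1
    exact h1

end

end Vale.Agent.P352X.EG
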