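import Vale.Agent.P352X.CG.Pub
import Vale.Agent.P352X.EB.Pub

namespace Vale.Agent.P352X

open Vale.Agent.P352.GF Vale.Agent.P352.BW Vale.Agent.P352.H246 Vale.Agent.P352.SubConf
open Vale.Agent.P352.H15 (IsSim)
open Vale.Agent.P352.H496 (IsNull Wdg)
open UniformSpace (Completion)

variable {D : Type*} [NormedAddCommGroup D] [InnerProductSpace ℂ D]

/-- A multiplet of fields with spin `k`: covariance under the Lorentz group. -/
def IsMf (Q : Theory D) (k : Rp) (Φ : Fin k.n → Fld D) : Prop :=
  (∀ a, Q.fld (Φ a)) ∧ ∀ a L f v, IsLor L → IsTest f → Φ a f (Q.U 1 L 0 v) =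
    ∑ b, k.ρ L b a • Q.U 1 L 0 (Φ b (fun x => f (sim 1 L 0 x)) v)

/-- Every field is a finite sum of components of multiplets. -/
def MfAll (Q : Theory D) : Prop := ∀ A, Q.fld A → ∃ (n : ℕ) (B : Fin n → Fld D),
  (∀ i, ∃ k Φ a, IsMf Q k Φ ∧ B i = Φ a) ∧ ∀ f v, IsTest f → A f v = ∑ i, B i f v

/-- **Graded local nets of von Neumann algebras.** The vacuum is even, `A X` is the generator of the
similitudes with velocity field `X`, and `Γ` is the grading on the Hilbert space. The von Neumann
algebras `N O`, `O` a region, are isotonic, covariant and graded, the fields smeared in `O` are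
affiliated to `N O`, and the algebras of opposite wedges commute in the graded sense: the even part
of `X` and the odd part of `X` times `Γ` commute with the algebra of the opposite wedge. -/
structure LNg (Q : Theory D) (G : D → D) (A : (V → V) → D → D)
    (Γ : Completion D →L[ℂ] Completion D) (N : Set V → VonNeumannAlgebra (Completion D)) : Prop
    extends Gr Q G where
  vac : G Q.vac = Q.vac
  add : ∀ r r' (c : ℝ) X X' v, IsSim r X → IsSim r' X' →
    A (fun z => X z + c • X' z) v = A X v + (c : ℂ) • A X' v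
  der : ∀ (s : ℝ → ℝ) (L : ℝ → Ix → V) (a : ℝ → V) X v, s 0 = 1 → L 0 = one → a 0 = 0 →
    (∀ e, 0 < s e ∧ IsLor (L e)) →
    (∀ n x, HasDerivAt (fun e => sim (s e) (L e) (a e) x n) (X x n) 0) →
    HasDerivAt (fun e => Q.U (s e) (L e) (a e) v) (Complex.I • A X v) 0
  ext : ∀ v : D, Γ v = (G v : D)
  fld : ∀ O B f, Q.fld B → In O f → Aff (N O) (B f)
  mono : ∀ O O', O ⊆ O' → ∀ X ∈ N O, X ∈ N O'
  cov : ∀ s L y O, ∀ X ∈ N O, 0 < s → IsLor L →
    ∃ Y ∈ N (sim s L y '' O), ∀ z, Y (Ue Q s L y z) = Ue Q s L y (X z)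
  gam : ∀ O, ∀ X ∈ N O, Γ * X * Γ ∈ N O
  loc : ∀ a b X, IsNull a → IsNull b → mdot a b = 1 → X ∈ N (Wdg b a 0) →
    X + Γ * X * Γ ∈ (N (Wdg a b 0)).commutant ∧ (X - Γ * X * Γ) * Γ ∈ (N (Wdg a b 0)).commutant

/-- The theory `Q'` with the grading `G'` extends the theory `Q` in the same Hilbert space: its domain
`D'` is dense, the vacuum, the grading and the similitudes are those of `Q`, and every (Bose) field
`B` of `Q` gives a (Bose) field `e B` of `Q'`, which is a restriction of the adjoint of the formal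
adjoint of `B`, and agrees with `B` on the intersection of the domains. -/
structure ExtG (Q : Theory D) (Γ : Completion D →L[ℂ] Completion D)
    {D' : Submodule ℂ (Completion D)} (Q' : Theory D') (G' : D' → D') (e : Fld D → Fld D') :
    Prop extends Gr Q' G' where
  dense : Dense (D' : Set (Completion D))
  vac : (Q'.vac : Completion D) = om Q
  G : ∀ v, (G' v : Completion D) = Γ v
  U : ∀ s L a v, 0 < s → IsLor L → (Q'.U s L a v : Completion D) = Ue Q s L a v
  fld : ∀ B, Q.fld B → Q'.fld (e B)
  bos : ∀ B, Q.bose B → Q'.bose (e B)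
  adj : ∀ B B' f (v : D') (w : D), Q.fld B → IsAdj B B' → IsTest f →
    inner ℂ (e B f v : Completion D) (w : Completion D) =
      inner ℂ (v : Completion D) (B' (bar f) w : Completion D)
  agree : ∀ B f (v : D') (w : D), Q.fld B → IsTest f → (v : Completion D) = w →
    (e B f v : Completion D) = (B f w : D)

end Vale.Agent.P352X
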