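import Vale.Agent.P352X.EB.Spec
import Vale.Agent.P352X.EG.Pub
import Vale.Agent.P352X.TPD.Defs

/-!
# P352X, block EG: vocabulary (see notes/P352/eg.md)
-/

set_option linter.all false

open MeasureTheory Filter Topology
open scoped SchwartzMap ComplexConjugate ContDiff

namespace Vale.Agent.P352X.EG

open Vale.Agent.P352 Vale.Agent.P352.GF Vale.Agent.P352.BW Vale.Agent.P352.H246
open Vale.Agent.P352.H496 Vale.Agent.P352.H755 Vale.Agent.P352.H15
open Vale.Agent.P352.SubConf (IsAdj)
open Vale.Agent.P352X.EB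
open UniformSpace (Completion)
open Complex (I)

noncomputable section

/-- signs -/
def sg (p : Bool) : ℂ := cond p (-1) 1

/-- the conjugate spin -/
def cj (k : Rp) : Rp where
  n := k.n
  ρ L := (k.ρ L).map conj
  S m n := (k.S m n).map conj
  id := by rw [k.id]; exact Matrix.map_one _ (map_zero _) (map_one _)
  mul L L' h h' := (k.mul L L' h h').imp (fun e => by rw [e, Matrix.map_mul]) fun e => by
    rw [e, ← Matrix.map_mul]
    ext a b
    simp only [Matrix.map_apply, Matrix.neg_apply, map_neg]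
  der L w a b h0 h1 h2 := by
    simpa [Matrix.map_apply] using (k.der L w a b h0 h1 h2).star

/-- the complex boosts in the representation `k` -/
structure OneP (k : Rp) (W : ℂ → Matrix (Fin k.n) (Fin k.n) ℂ) (σ : Bool) : Prop where
  zero : W 0 = 1
  add : ∀ z z', W (z + z') = W z * W z'
  diff : ∀ a b, Differentiable ℂ fun z => W z a b
  bd : ∃ C r : ℝ, 0 ≤ C ∧ 0 ≤ r ∧ ∀ z a b, |z.im| ≤ 1 → ‖W z a b‖ ≤ C * Real.exp (r * |z.re|)
  per : W I = sg σ • (1 : Matrix (Fin k.n) (Fin k.n) ℂ)
  rho : ∀ t : ℝ, k.ρ (T.bq va vb t) = W t ∨ k.ρ (T.bq va vb t) = -W t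

variable {D : Type*} [NormedAddCommGroup D] [InnerProductSpace ℂ D]

/-- **The context**: a theory with fermions and a graded local net -/
structure Cg (D : Type*) [NormedAddCommGroup D] [InnerProductSpace ℂ D] where
  Q : Theory D
  G : D → D
  A : (V → V) → D → D
  Γ : Completion D →L[ℂ] Completion D
  N : Set V → VonNeumannAlgebra (Completion D)
  hN : LNg Q G A Γ N

abbrev Cg.Om (c : Cg D) : Completion D := om c.Q

/-- powers of the grading -/
def Cg.gp (c : Cg D) (e : Bool) : Completion D →L[ℂ] Completion D := cond e c.Γ 1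

/-- the similitudes, extended by the grading -/
structure Sh (c : Cg D) extends Sg where
  e : Bool

namespace Sh

variable {c : Cg D}

def U (g : Sh c) (c' : Cg D) : Completion D →L[ℂ] Completion D :=
  cond g.e (c'.Γ * Ug c'.Q g.s g.L g.a) (Ug c'.Q g.s g.L g.a)

open Classical in
def mul (g h : Sh c) : Sh c := ⟨g.toSg.mul h.toSg, decide (g.U c * h.U c ≠
  Ug c.Q (g.toSg.mul h.toSg).s (g.toSg.mul h.toSg).L (g.toSg.mul h.toSg).a)⟩

open Classical in
def inv (g : Sh c) : Sh c :=
  ⟨g.toSg.inv, decide (star (g.U c) ≠ Ug c.Q g.toSg.inv.s g.toSg.inv.L g.toSg.inv.a)⟩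

/-- the powers of the grading as elements of the group -/
def gm (c : Cg D) (e : Bool) : Sh c := ⟨⟨1, GF.one, 0, one_pos, H496.isLor_one⟩, e⟩

end Sh

/-! ## the local algebra of smooth tame vectors -/

section loc

variable (c : Cg D)

abbrev M0 : VonNeumannAlgebra (Completion D) := c.N W0

/-- the commutant of the algebra of the wedge of `g` -/
def Cm (g : Sh c) (x : Completion D →L[ℂ] Completion D) : Prop :=
  g.U c * x * star (g.U c) ∈ (M0 c).commutant

/-- smooth tame in all wedges that contain `K` -/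
def Loc (K : Set V) (ξ ξ' : Completion D) : Prop :=
  ∀ g : Sh c, g.Adm K → Stm (M0 c) c.Om (g.U c ξ) (g.U c ξ')

/-- the product relation in all wedges that contain `K` -/
def Rl (K : Set V) (ξ' η ζ : Completion D) : Prop :=
  ∀ g : Sh c, g.Adm K → Prd (M0 c) c.Om (g.U c ξ') (g.U c η) (g.U c ζ)

open Classical in
/-- the product of the pair `(ξ, ξ')` and `η` -/
def ml (ξ' η : Completion D) : Completion D :=
  if h : ∃ ζ, ∃ K, Bornology.IsBounded K ∧ Rl c K ξ' η ζ then h.choose else 0

/-- local pairs -/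
def Lp (ξ ξ' : Completion D) : Prop := ∃ K, Bornology.IsBounded K ∧ Loc c K ξ ξ'

/-- local vectors -/
def D1 (η : Completion D) : Prop := ∃ η', Lp c η η'

end loc

/-! ## letters and words -/

/-- the letters: fields applied to the vacuum -/
structure Lt (c : Cg D) (Λ : Type*) where
  dag : Λ → Λ
  φ : Λ → Fn → Completion D
  p : Λ → Bool
  dag2 : ∀ a, dag (dag a) = a
  pdag : ∀ a, p (dag a) = p a
  par : ∀ a f, IsTest f → c.Γ (φ a f) = sg (p a) • φ a f
  lin : ∀ a (f g : Fn) (z : ℂ), IsTest f → IsTest g →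
    φ a (fun x => f x + z * g x) = φ a f + z • φ a g
  cont : ∀ a, Continuous fun g : Sch => φ a (ev g)
  st : ∀ a f, In W0 f → Stm (M0 c) c.Om (φ a f) (φ (dag a) (bar f))
  cov : ∀ a (g : Sh c), ∃ (n : ℕ) (κ : Fin n → ℂ) (b : Fin n → Λ), ∀ f, IsTest f →
    φ a f = ∑ i, κ i • g.U c (φ (b i) (g.pull f)) ∧
    φ (dag a) f = ∑ i, conj (κ i) • g.U c (φ (dag (b i)) (g.pull f))
  tra : ∀ a y f, IsTest f → φ a f = Ut c.Q y (φ a fun x => f (sim 1 GF.one y x))
  dil : ∀ a, ∃ e : ℕ, ∀ s : ℝ, 1 ≤ s → ∃ κ : ℂ, ‖κ‖ ≤ s ^ e ∧ ∀ f, IsTest f →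
    φ a f = κ • Ug c.Q s GF.one 0 (φ a fun x => f (sim s GF.one 0 x))

variable {c : Cg D} {Λ : Type*}

namespace Lt

variable (x : Lt c Λ)

/-- the letter `a`, smeared with `f`, acting on local vectors -/
def op (a : Λ) (f : Fn) (v : Completion D) : Completion D := ml c (x.φ (x.dag a) (bar f)) v

/-- words acting on local vectors -/
def ap (u : Wd Λ) (v : Completion D) : Completion D := u.foldr (fun p w => x.op p.1 p.2 w) v

/-- words of Schwartz functions applied to the vacuum -/
def W (u : Wd Λ) : Completion D := limUnder atTop fun R : ℕ => x.ap (cutw R u) c.Om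

/-- the new domain -/
def Dn : Submodule ℂ (Completion D) := Submodule.span ℂ {z | ∃ u, TW u ∧ z = x.W u}

open Classical in
/-- the new fields -/
def o (a : Λ) : Fld x.Dn := fun f v =>
  if h : IsTest f ∧ ∃ z : x.Dn, ∀ u, TW u → inner ℂ (z : Completion D) (x.W u) =
    inner ℂ (v : Completion D) (x.W ((x.dag a, bar f) :: u)) then h.2.choose else 0

open Classical in
/-- the similitudes on the new domain -/
def Ud (s : ℝ) (L : Ix → V) (a : V) (v : x.Dn) : x.Dn :=
  if h : Ug c.Q s L a v ∈ x.Dn then ⟨_, h⟩ else v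

open Classical in
/-- the grading on the new domain -/
def Gd (v : x.Dn) : x.Dn := if h : c.Γ v ∈ x.Dn then ⟨_, h⟩ else v

/-- the covariance relation of the adjoint letters, on the vacuum -/
def Cv (a : Λ) (g : Sh c) {n : ℕ} (κ : Fin n → ℂ) (b : Fin n → Λ) : Prop := ∀ f, IsTest f →
  x.φ (x.dag a) f = ∑ i, conj (κ i) • g.U c (x.φ (x.dag (b i)) (g.pull f))

/-- the letter `a` is the field `B` with adjoint `B'` -/
def Is (a : Λ) (B B' : Fld D) : Prop := c.Q.fld B ∧ c.Q.fld B' ∧ IsAdj B B' ∧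
  ∀ f, IsTest f → x.φ a f = (B f c.Q.vac : D) ∧ x.φ (x.dag a) f = (B' f c.Q.vac : D)

/-- finite sums of new fields with labels in `P` -/
def Fs (P : Λ → Prop) (B : Fld x.Dn) : Prop := ∃ (n : ℕ) (b : Fin n → Λ), (∀ i, P (b i)) ∧
  B = fun f v => ∑ i, x.o (b i) f v

/-- the sign in the commutation relation -/
def sn (a b : Λ) : ℂ := sg (x.p a && x.p b)

end Lt

/-! ## multiplets -/

section mult

variable (c)

/-- fields of parity `e` -/
def Pa (e : Bool) (B : Fld D) : Prop := ∀ f v, IsTest f → B f (c.G v) = sg e • c.G (B f v)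

/-- multiplets with parity, spin and scaling dimension -/
structure Mp (e : Bool) (k : Rp) (d : ℂ) (Φ : Fin k.n → Fld D) : Prop where
  mf : IsMf c.Q k Φ
  dim : ∀ a, Dim c.Q d (Φ a)
  par : ∀ a, Pa c e (Φ a)

/-- components of multiplets -/
def Cmp (e : Bool) (B : Fld D) : Prop := ∃ k d Φ a, Mp c e k d Φ ∧ B = Φ a

/-- every field is a finite sum of components -/
def MdAll : Prop := ∀ A, c.Q.fld A → ∃ (n : ℕ) (e : Fin n → Bool) (B : Fin n → Fld D),
  (∀ i, Cmp c (e i) (B i)) ∧ ∀ f v, IsTest f → A f v = ∑ i, B i f v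

/-- the labels of fields -/
structure Lb where
  B : Fld D
  B' : Fld D
  e : Bool
  h : Cmp c e B
  h' : Cmp c e B'
  a : IsAdj B B'
  a' : IsAdj B' B

/-- the labels: the components of multiplets with their adjoints, and the potential -/
def Lab : Type _ := Option (Lb c)

variable {c}

/-- one-field vectors -/
def ov (c : Cg D) {n : ℕ} (Φ : Fin n → Fld D) (z : Fin n → ℂ) (f : Fn) : Completion D :=
  ∑ a, z a • ((Φ a f c.Q.vac : D) : Completion D)

end mult

/-! ## the sector of the stress tensor -/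

section sec

variable (c) (T : Ix → Ix → Fld D)

/-- the polynomials in `T` applied to the vacuum -/
def S0 : Submodule ℂ D :=
  sInf {S | c.Q.vac ∈ S ∧ ∀ m n f v, IsTest f → v ∈ S → T m n f v ∈ S}

/-- their closure -/
def HB : Submodule ℂ (Completion D) :=
  ((S0 c T).map (Completion.toComplL : D →L[ℂ] Completion D).toLinearMap).topologicalClosure

instance : (HB c T).HasOrthogonalProjection :=
  haveI : CompleteSpace (HB c T) := (Submodule.isClosed_topologicalClosure _).completeSpace_coe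
  inferInstance

/-- the projection on the sector -/
def Pj : Completion D →L[ℂ] Completion D := (HB c T).starProjection

/-- the weak commutant of `T` in the region `O` -/
def Wc (O : Set V) : Set (Completion D →L[ℂ] Completion D) := {Y | ∀ m n f, In O f → ∀ v w : D,
  inner ℂ ((T m n (bar f) w : D) : Completion D) (Y v) =
    inner ℂ (w : Completion D) (Y (T m n f v : D))}

/-- the sector: a theory `q` of Bose fields `t` on `E`, embedded by `j` -/
structure Sec (E : Submodule ℂ D) (q : Theory E) (t : Ix → Ix → Fld E) (a : (V → V) → E → E)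
    (j : Completion E →L[ℂ] Completion D) : Prop where
  coe : ∀ v : E, j v = ((v : D) : Completion D)
  iso : ∀ z, ContinuousLinearMap.adjoint j (j z) = z
  pj : ∀ z, j (ContinuousLinearMap.adjoint j z) = Pj c T z
  vac : j (om q) = c.Om
  U : ∀ s L y z, 0 < s → IsLor L → j (Ug q s L y z) = Ug c.Q s L y (j z)
  gam : ∀ z, c.Γ (j z) = j z
  eq : ∀ m n f v, IsTest f → (t m n f v : D) = T m n f v
  fld : ∀ B, q.fld B → ∃ m n, B = t m n
  rep : Rep q a
  st : q.IsStress t
  pch : ND.PCh q t a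
  td : TdAll q
  uv : UVac q
  eb : EBd q

/-- the potential of the trace -/
structure Pot (l : Fn → Completion D) : Prop where
  lin : ∀ (f g : Fn) (z : ℂ), IsTest f → IsTest g → l (fun x => f x + z * g x) = l f + z • l g
  cont : Continuous fun g => l (ev g)
  trace : ∀ f, IsTest f → (3 : ℂ) • l (box f) = ((GF.tr T f c.Q.vac : D) : Completion D)
  cov : ∀ s L a f, 0 < s → IsLor L → IsTest f →
    l f = ((s ^ 2 : ℝ) : ℂ) • Ug c.Q s L a (l fun x => f (sim s L a x))
  gam : ∀ f, IsTest f → c.Γ (l f) = l f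
  st : ∀ f, In W0 f → Stm (M0 c) c.Om (l f) (l (bar f))
  mix : ∃ S : Submodule ℂ (Completion D),
    (∀ m n f, IsTest f → ((T m n f c.Q.vac : D) : Completion D) ∈ S) ∧
    (∀ f, IsTest f → l f ∈ S) ∧ ∀ ξ ∈ S, ∀ w, Tendsto (fun r : ℝ =>
      inner ℂ ξ (Ue c.Q (Real.sqrt (r * 1)) (TPD.Lsc r 1) 0 w)) (𝓝[>] 0)
        (𝓝 (inner ℂ ξ c.Om * inner ℂ c.Om w))

end sec

end

end Vale.Agent.P352X.EG
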