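import Vale.Agent.P352X.EG.Spec
import Vale.Agent.P352X.EB.STR

/-!
# P352X, block EG, row STR: the stress tensor of an extension
-/

set_option linter.all false

open MeasureTheory Filter Topology
open scoped SchwartzMap ComplexConjugate LineDeriv

namespace Vale.Agent.P352X.EG

open Vale.Agent.P352X.EB

open Vale.Agent.P352 Vale.Agent.P352.GF Vale.Agent.P352.BW Vale.Agent.P352.H15
open Vale.Agent.P352.SubConf (IsAdj)
open UniformSpace (Completion)
open Complex (I)

noncomputable section

variable {D : Type*} [NormedAddCommGroup D] [InnerProductSpace ℂ D] {c : Cg D}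

open STRa

/-- **row STR** -/
theorem str_row (g : SG c) (T : Ix → Ix → Fld D) : STR c T := by
  intro D' Q' G' e hT hE hA
  set Q := c.Q
  have hf : ∀ m n, Q.fld (T m n) := fun m n => Q.bose_fld _ (hT.bose m n)
  have ha : ∀ m n f (v : D') (w : D), IsTest f → inner ℂ (e (T m n) f v : Completion D)
      (w : Completion D) = inner ℂ (v : Completion D) (T m n (bar f) w : Completion D) :=
    fun m n f v w h => hE.adj _ _ f v w (hf m n) (hT.herm m n) h
  refine ⟨fun m n => hE.bos _ (hT.bose m n), fun m n f v h => ext_D fun w => ?_,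
    fun m n f v w h => ?_, fun m n s L a f v hs hL h => ?_, fun n f v h => ext_D fun w => ?_,
    fun F n B f v w hF hB h hc => ?_⟩
  · rw [ha _ _ _ _ _ h, ha _ _ _ _ _ h, hT.symm m n _ _ (Ap.test_bar h)]
  · obtain ⟨B, -, hB⟩ := Q'.adj _ (hE.fld _ (hf m n))
    let S : Submodule ℂ D' := (LinearMap.range
      ((Completion.toComplL : D →L[ℂ] Completion D) : D →ₗ[ℂ] Completion D)).comap D'.subtype
    have hS : Dense (S : Set D') := Q'.cyclic S ⟨Q.vac, hE.vac.symm⟩ (by
      rintro B' g u hB' hg ⟨u₀, hu⟩
      obtain ⟨k, C, hC, h1⟩ := hA B' hB'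
      rw [h1 g u hg]
      exact S.sum_mem fun i _ => ⟨C i g u₀, (hE.agree _ g u u₀ (hC i) hg hu.symm).symm⟩)
    have h1 : B (bar f) w = e (T m n) (bar f) w := by
      refine ext_inner_left ℂ fun z => ?_
      refine hS.induction (P := fun z => inner ℂ z (B (bar f) w) =
        inner ℂ z (e (T m n) (bar f) w)) ?_ (isClosed_eq (by fun_prop) (by fun_prop)) z
      rintro u ⟨u₀, hu⟩
      have hu' : (u : Completion D) = u₀ := hu.symm
      rw [← hB f u w h, ← inner_conj_symm u, Submodule.coe_inner, Submodule.coe_inner, hu',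
        ha _ _ _ _ _ (Ap.test_bar h), Ap.bar_bar, inner_conj_symm,
        hE.agree _ f u u₀ (hf m n) h hu']
    rw [hB f v w h, h1]
  · have hU := g.uni ⟨⟨s, L, a, hs, hL⟩, false⟩
    let W := Ug Q s L a
    have hW : ∀ x y, inner ℂ (W x) (W y) = inner ℂ x y :=
      ContinuousLinearMap.inner_map_map_of_mem_unitary hU
    refine ext_dense (u := fun w : D => W w)
      ((Function.Surjective.denseRange fun z => ⟨star W z, DFunLike.congr_fun hU.2 z⟩).comp
        Completion.denseRange_coe W.continuous) fun w => ?_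
    have h1 : W w = (Q.U s L a w : D) := g.coe s L a w hs hL
    have h2 : ∀ z : D', (Q'.U s L a z : Completion D) = W z := fun z =>
      (hE.U s L a z hs hL).trans (Ug_apply Q hs hL a _).symm
    have h3 : ∀ z : D, ((Q.U s L a z : D) : Completion D) = W z := fun z =>
      (g.coe s L a z hs hL).symm
    conv_lhs => rw [h1, ha _ _ _ _ _ h, hT.cov m n s L a _ w hs hL (Ap.test_bar h), h2]
    simp only [coe_sum, Completion.coe_smul, Submodule.coe_sum, Submodule.coe_smul, inner_sum,
      sum_inner, inner_smul_left, inner_smul_right, h2, h3, hW,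
      ha _ _ _ _ _ (Ap.test_sim hs hL a h), map_mul, Complex.conj_ofReal]
    rfl
  · rw [Submodule.coe_sum, sum_inner]
    simp only [ha _ _ _ _ _ (Ap.test_pd _ h), H755.bar_pd h]
    rw [← inner_sum, ← coe_sum, hT.conserved n _ w (Ap.test_bar h), Completion.coe_zero,
      inner_zero_right, Submodule.coe_zero, inner_zero_left]
  · obtain ⟨k, C, hC, h1⟩ := hA B hB
    choose C' hC' adj using fun i => Q.adj (C i) (hC i)
    have hb : HasCompactSupport (bar f) := hc.comp_left (g := star) (star_zero _)
    refine tendsto_const_nhds.congr' ?_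
    filter_upwards [exact_charge hT hF (Ap.test_bar h) hb, eventually_gt_atTop 0] with R hR R0
    obtain ⟨a, c, -, -, -, -, h2⟩ := hF
    obtain ⟨h3, h4⟩ := h2 R R0
    have h5 : bar (F R) = F R := funext fun x => by
      change conj (F R x) = F R x
      rw [h4, map_mul, Complex.conj_ofReal, Complex.conj_ofReal]
    congr 1
    refine ext_D fun z => ?_
    have h6 : ∀ i g (u : D') (y : D), IsTest g → inner ℂ (e (C i) g u : Completion D)
        (y : Completion D) = inner ℂ (u : Completion D) (C' i (bar g) y : Completion D) :=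
      fun i g u y hg => hE.adj _ _ g u y (hC i) (adj i) hg
    rw [Submodule.coe_sub, inner_sub_left, ha _ _ _ _ _ h3, h1 _ _ h, h1 _ _ h,
      h1 _ _ (Ap.test_pd n h), h5]
    simp only [Submodule.coe_sum, Submodule.coe_smul, sum_inner, inner_smul_left, h6 _ _ _ _ h,
      h6 _ _ _ _ (Ap.test_pd n h), ha _ _ _ _ _ h3, h5, H755.bar_pd h]
    rw [← Finset.sum_sub_distrib, Finset.mul_sum]
    refine Finset.sum_congr rfl fun i _ => ?_
    rw [← inner_sub_right, ← Completion.coe_sub, ← neg_sub, hR _ (hC' i), Completion.coe_neg,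
      Completion.coe_smul, inner_neg_right, inner_smul_right]
    simp

end

end Vale.Agent.P352X.EG
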