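import Vale.Agent.P352X.EG.REC
import Vale.Agent.P352X.EG.STR
import Vale.Agent.P352X.EB.FIN

/-!
# P352X, block EG, row FIN: the extension with the local potential
-/

set_option linter.all false

open MeasureTheory Filter Topology
open scoped SchwartzMap ComplexConjugate ContDiff

namespace Vale.Agent.P352X.EG

open Vale.Agent.P352X.EB

open Vale.Agent.P352 Vale.Agent.P352.GF Vale.Agent.P352.BW Vale.Agent.P352.H246
open Vale.Agent.P352.H496 Vale.Agent.P352.H755 Vale.Agent.P352.H15
open Vale.Agent.P352.SubConf (IsAdj)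
open UniformSpace (Completion)

noncomputable section

variable {D : Type*} [NormedAddCommGroup D] [InnerProductSpace ℂ D] {c : Cg D}

namespace Fin2

open Classical in
def dec (c : Cg D) (B : Fld D) : Σ n : ℕ, Fin n → Lb c :=
  if h : ∃ q : Σ n : ℕ, Fin n → Lb c, ∀ f v, IsTest f → B f v = ∑ i, (q.2 i).B f v then h.choose
  else ⟨0, Fin.elim0⟩

/-- the extension of the field `B` -/
def ee (x : Lt c (Lab c)) (B : Fld D) : Fld x.Dn := fun f v =>
  ∑ i, x.o (some ((dec c B).2 i)) f v

lemma dec_spec (hD : MdAll c) (h3 : ∀ e B, Cmp c e B → ∃ p : Lb c, p.B = B) {B : Fld D}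
    (hB : c.Q.fld B) : ∀ f v, IsTest f → B f v = ∑ i, ((dec c B).2 i).B f v := by
  have h : ∃ q : Σ n : ℕ, Fin n → Lb c, ∀ f v, IsTest f → B f v = ∑ i, (q.2 i).B f v := by
    obtain ⟨n, e, A, hA, h⟩ := hD B hB
    choose p hp using fun i => h3 _ _ (hA i)
    exact ⟨⟨n, p⟩, by simpa only [hp] using h⟩
  rw [dec, dif_pos h]
  exact h.choose_spec

end Fin2

open Fin2 Fin'

theorem fin_row (t : E0 c) {T : Ix → Ix → Fld D} (hT : c.Q.IsStress T) (hD : MdAll c)
    {l : Fn → Completion D} (hl : Pot c T l) (x : Lt c (Lab c)) (h0 : x.dag none = none)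
    (h1 : x.φ none = l) (hp : x.p none = false)
    (h2 : ∀ p : Lb c, x.Is (some p) p.B p.B' ∧ x.dag (some p) ≠ none)
    (h3 : ∀ e B, Cmp c e B → ∃ p : Lb c, p.B = B) (o : OPS x) (e : EXT x) (w : WP x)
    (F : FS x) (V' : CV x) (r : REC x) : FIN c T l := by
  have sp := @Fin2.dec_spec D _ _ c hD h3
  have gd := RECr.gd t.sg V'
  have adj : ∀ B B' f (v : x.Dn) (u : D), c.Q.fld B → IsAdj B B' → IsTest f →
      inner ℂ (Fin2.ee x B f v : Completion D) (u : Completion D) =
        inner ℂ (v : Completion D) (B' (bar f) u : Completion D) := by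
    intro B B' f v u hB hA hf
    have e : B' (bar f) u = ∑ i, ((Fin2.dec c B).2 i).B' (bar f) u :=
      ext_inner_left ℂ fun y => by
        rw [← hA f y u hf, sp hB f y hf, sum_inner, inner_sum]
        exact Finset.sum_congr rfl fun i _ => ((Fin2.dec c B).2 i).a f y u hf
    rw [e, coe_sum, inner_sum, Fin2.ee, Submodule.coe_sum, sum_inner]
    exact Finset.sum_congr rfl fun i _ => F.aff _ _ _ f v u (h2 _).1 hf
  have agree : ∀ B f (v : x.Dn) (u : D), c.Q.fld B → IsTest f → (v : Completion D) = u →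
      (Fin2.ee x B f v : Completion D) = (B f u : D) := by
    intro B f v u hB hf e
    obtain ⟨B', -, hA⟩ := c.Q.adj B hB
    refine ext_D fun y => ?_
    rw [adj B B' f v y hB hA hf, e, Completion.inner_coe, Completion.inner_coe, hA f u y hf]
  have cyc : ∀ S : Submodule ℂ x.Dn, (∀ v : x.Dn, (v : Completion D) = c.Om → v ∈ S) →
      (∀ p f v, IsTest f → v ∈ S → x.o (some p) f v ∈ S) →
      Dense (Subtype.val '' (S : Set x.Dn)) := by
    intro S a1 a2
    have d := c.Q.cyclic ((S.map x.Dn.subtype).comap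
      (Completion.toComplL : D →L[ℂ] Completion D).toLinearMap)
      ⟨⟨c.Om, F.vac⟩, a1 _ rfl, rfl⟩ (by
        rintro B f u hB hf ⟨v, hv, e⟩
        exact ⟨Fin2.ee x B f v, S.sum_mem fun i _ => a2 _ f v hf hv, agree B f v u hB hf e⟩)
    exact (Completion.denseRange_coe.dense_image (Completion.continuous_coe D) d).mono
      (by rintro _ ⟨u, ⟨v, hv, e⟩, rfl⟩; exact ⟨v, hv, e⟩)
  have cyc' : ∀ P : Lab c → Prop, (∀ p, P (some p)) → ∀ S : Submodule ℂ x.Dn,
      (∀ v : x.Dn, (v : Completion D) = c.Om → v ∈ S) →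
      (∀ a f v, P a → IsTest f → v ∈ S → x.o a f v ∈ S) → Dense (S : Set x.Dn) :=
    fun P hP S a1 a2 v => by
      rw [closure_subtype]
      exact cyc S a1 (fun p f v hf hv => a2 _ f v (hP p) hf hv) _
  have den : Dense (x.Dn : Set (Completion D)) :=
    (cyc ⊤ (fun _ _ => trivial) fun _ _ _ _ _ => trivial).mono (by rintro _ ⟨v, -, rfl⟩; exact v.2)
  have ud : ∀ s L a (v : x.Dn), 0 < s → IsLor L →
      (x.Ud s L a v : Completion D) = Ug c.Q s L a v := fun s L a v hs hL => by
    rw [Lt.Ud, dif_pos (show Ug c.Q s L a v ∈ x.Dn from V'.mem ⟨⟨s, L, a, hs, hL⟩, false⟩ _ v.2)]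
  have ex : ∀ (P : Lab c → Prop) (Q' : Theory x.Dn), (∀ p, P (some p)) →
      (Q'.vac : Completion D) = c.Om → Q'.U = x.Ud → (∀ B, Q'.fld B ↔ x.Fs P B) →
      (∀ B, Q'.bose B ↔ x.Fs P B ∧ ∀ f v, IsTest f → B f (x.Gd v) = x.Gd (B f v)) →
      Gr Q' x.Gd → ExtG c.Q c.Γ Q' x.Gd (Fin2.ee x) := fun P Q' hP a1 a2 a3 a4 a5 =>
    ⟨a5, den, a1, gd, fun s L a v hs hL => by rw [a2, ud s L a v hs hL, Ug_apply _ hs hL],
      fun B _ => (a3 _).2 ⟨_, _, fun i => hP _, rfl⟩, fun B hB => (a4 _).2
        ⟨⟨_, _, fun i => hP _, rfl⟩, fun f v hf => Subtype.ext (ext_D fun y => by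
          have hB1 := c.Q.bose_fld _ hB
          obtain ⟨B', -, hA⟩ := c.Q.adj B hB1
          have pa := t.bas.padj false B B' hA (fun f v hf =>
            (c.hN.bose B f v hB hf).trans (one_smul _ _).symm) _ y (Ap.test_bar hf)
          rw [show sg false = 1 from rfl, one_smul] at pa
          rw [adj B B' f _ y hB1 hA hf, gd, gd, ← t.sg.gs, star_inner, star_inner,
            c.hN.ext, c.hN.ext, adj B B' f _ _ hB1 hA hf, pa])⟩, adj, agree⟩
  obtain ⟨Q0, a1, a2, a3, a4, a5⟩ := r (· ≠ none) (fun a ha => by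
    cases a with
    | none => exact absurd rfl ha
    | some p => exact (h2 p).2) (cyc' _ fun p => Option.some_ne_none p)
  obtain ⟨Q1, b1, b2, b3, b4, b5⟩ := r (fun _ => True) (fun _ _ => trivial) (cyc' _ fun _ => trivial)
  have s0 := str_row t.sg T x.Dn Q0 x.Gd (Fin2.ee x) hT
    (ex _ Q0 (fun p => Option.some_ne_none p) a1 a2 a3 a4 a5) fun A hA => by
      obtain ⟨n, b, hb, rfl⟩ := (a3 A).1 hA
      choose p hp using fun i => Option.ne_none_iff_exists'.1 (hb i)
      refine ⟨n, fun i => (p i).B, fun i => (h2 (p i)).1.1, fun f v hf => ?_⟩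
      refine Finset.sum_congr rfl fun i _ => Subtype.ext (ext_D fun y => ?_)
      rw [hp, F.aff _ _ _ f v y (h2 _).1 hf, adj _ _ f v y (h2 _).1.1 (p i).a hf]
  have enl : IsEnl Q0 Q1 := ⟨Subtype.ext (b1.trans a1.symm), b2.trans a2.symm,
    fun A hA => (b3 A).2 (((a3 A).1 hA).imp fun n h => h.imp fun b h => ⟨fun _ => trivial, h.2⟩),
    fun A hA => (b4 A).2 (((a4 A).1 hA).imp_left fun h => h.imp fun n h => h.imp fun b h =>
      ⟨fun _ => trivial, h.2⟩)⟩
  refine ⟨x.Dn, Q1, x.Gd, Fin2.ee x, x.o none, ex _ Q1 (fun _ => trivial) b1 b2 b3 b4 b5,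
    H746.isStress_enl enl s0, ⟨(b4 _).2 ⟨RECr.fs_one trivial, fun f v hf => Subtype.ext ?_⟩, ?_, ?_⟩,
    ?_, fun f hf => ?_, fun A hA => ?_⟩
  · refine (RECr.par t.sg V' none hf v).trans ?_
    rw [hp, gd]
    exact one_smul _ _
  · have := F.herm none
    rwa [h0] at this
  · intro s L a f v hs hL hf
    apply Subtype.ext
    have := V'.cov none ⟨⟨s, L, a, hs, hL⟩, false⟩ 1 (fun _ => ((s ^ 2 : ℝ) : ℂ)) (fun _ => none) f v
      (x.Ud s L a v) (fun g hg => by
        simp only [h0, h1, Finset.univ_unique, Finset.sum_singleton, Complex.conj_ofReal]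
        exact hl.cov s L a g hs hL hg)
      hf (ud s L a v hs hL)
    rw [b2, this, Submodule.coe_smul, ud _ _ _ _ hs hL]
    simp only [Finset.univ_unique, Finset.sum_singleton]
    rw [show (4 - 2 : ℝ) = (2 : ℕ) by norm_num, Real.rpow_natCast]
    rfl
  · have hc : ∀ f v, In Set.univ f →
        GF.tr (fun m n => Fin2.ee x (T m n)) f v = (3 : ℂ) • x.o none (box f) v := by
      intro f v hf
      let ι := Option (Σ m : Ix, Fin (Fin2.dec c (T m m)).1)
      let κ : ι → ℂ := fun i => i.elim (-3) fun j => eta j.1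
      let b : ι → Lab c := fun i => i.elim none fun j => some ((Fin2.dec c (T j.1 j.1)).2 j.2)
      let g : ι → Fn := fun i => i.elim (box f) fun _ => f
      let e := (Fintype.equivFin ι).symm
      have z := V'.zero _ (fun i => κ (e i)) (fun i => b (e i)) (fun i => g (e i)) v
        (fun i => by
          cases h : e i with
          | none => exact Ap.in_box hf
          | some j => exact hf) (by
          rw [e.sum_comp fun i => κ i • x.φ (b i) (g i), Fintype.sum_option, Fintype.sum_sigma]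
          simp only [κ, b, g, Option.elim, h1, neg_smul, hl.trace f hf.1, GF.tr, coe_sum,
            Completion.coe_smul, ← Finset.smul_sum]
          rw [neg_add_eq_zero]
          refine Finset.sum_congr rfl fun m _ => congrArg _ ?_
          rw [sp (c.Q.bose_fld _ (hT.bose m m)) f _ hf.1, coe_sum]
          exact Finset.sum_congr rfl fun i _ => ((h2 _).1.2.2.2 f hf.1).1.symm)
      rw [e.sum_comp fun i => κ i • x.o (b i) (g i) v, Fintype.sum_option, Fintype.sum_sigma] at z
      simp only [κ, b, g, Option.elim, neg_smul, ← Finset.smul_sum] at z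
      exact (neg_add_eq_zero.1 z).symm
    rintro _ v ⟨f, rfl⟩
    obtain ⟨P, hP⟩ := box_clm
    obtain ⟨-, u, -, -, u2, -, u4⟩ := ST.exists_cut f
    have c1 : Continuous fun g : Sch => GF.tr (fun m n => Fin2.ee x (T m n)) (ev g) v :=
      continuous_finset_sum _ fun m _ =>
        (continuous_finset_sum _ fun i _ => F.cont (some ((Fin2.dec c (T m m)).2 i)) v).const_smul
          (eta m : ℂ)
    have c2 : Continuous fun g : Sch => (3 : ℂ) • x.o none (box (ev g)) v := by
      simp only [← hP]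
      exact ((F.cont none v).comp P.continuous).const_smul (3 : ℂ)
    exact tendsto_nhds_unique ((c1.tendsto f).comp u4) (((c2.tendsto f).comp u4).congr
      fun n => (hc _ v ⟨⟨u n, rfl⟩, u2 n, Set.subset_univ _⟩).symm)
  · obtain ⟨g, rfl⟩ := hf
    obtain ⟨-, u, -, -, u2, -, u4⟩ := ST.exists_cut g
    have c1 : Continuous fun g : Sch => (x.o none (ev g) Q1.vac : Completion D) :=
      continuous_subtype_val.comp (F.cont none _)
    refine tendsto_nhds_unique ((c1.tendsto g).comp u4) (((hl.cont.tendsto g).comp u4).congr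
      fun n => ?_)
    have hi : In Set.univ (ev (u n)) := ⟨⟨u n, rfl⟩, u2 n, Set.subset_univ _⟩
    show l _ = (x.o none _ _ : Completion D)
    rw [F.oW none _ [] _ hi.1 (fun _ h => nomatch h) (b1.trans w.nil.symm),
      e.cw _ (List.forall_mem_singleton.2 hi), ← h1]
    exact (o.vac none _ hi).symm
  · obtain ⟨n, b, -, rfl⟩ := (b3 A).1 hA
    refine ⟨n, fun i => x.o (b i), fun i => ?_, fun _ _ => rfl⟩
    rcases hb : b i with _ | p
    · exact Or.inl (by simp only [hb])
    · refine Or.inr ⟨p.e, p.B, p.h, fun f v hf => Subtype.ext (ext_D fun y => ?_)⟩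
      simp only [hb]
      rw [F.aff _ _ _ f v y (h2 _).1 hf, adj _ _ f v y (h2 _).1.1 p.a hf]

end

end Vale.Agent.P352X.EG
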