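import Vale.Agent.P352X.EG.Spec
import Vale.Agent.P352X.CG.FS

/-!
# P352X, block EG, row FSG: scaling dimensions in graded theories
-/

set_option linter.all false

open Filter Topology
open scoped ComplexConjugate

namespace Vale.Agent.P352X.EG

open Vale.Agent.P352 Vale.Agent.P352.GF Vale.Agent.P352.H15 Vale.Agent.P352.H755
open Vale.Agent.P352.H496 Vale.Agent.P352X.Fss
open Complex (I)

noncomputable section

namespace Fsg

variable {D : Type*} [NormedAddCommGroup D] [InnerProductSpace ℂ D] {c : Cg D}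
  {T : Ix → Ix → Fld D} {B : Fld D} {f : Fn} {s : ℝ} {F : Finset ℂ} {C : ℂ → Fld D}

lemma m1 (c : Cg D) : G.M1 c.Q := G.m1_gr c.hN.toGr

lemma der {s : ℝ → ℝ} {L : ℝ → Ix → V} {a : ℝ → V} {w : Ix → V} {r : ℝ} {y : V}
    (K : H746.Crv s L a w r y) {X : V → V}
    (hX : ∀ z n, X z n = y n + r * z n + ∑ m, z m * w m n) (v : D) :
    HasDerivAt (fun e => c.Q.U (s e) (L e) (a e) v) (I • c.A X v) 0 :=
  c.hN.der s L a X v K.s0 K.L0 K.a0 (fun e => ⟨K.sp e, K.lor e⟩) fun n x => K.dX hX n x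

/-- the generators are linear -/
def gen (c : Cg D) {r : ℝ} {X : V → V} (hX : IsSim r X) : D →ₗ[ℂ] D where
  toFun := c.A X
  map_add' v w := by
    obtain ⟨y, w', hw, hX⟩ := hX
    obtain ⟨s, L, a, K⟩ := H746.exists_crv hw r y
    have h1 := (der (c := c) K hX v).add (der (c := c) K hX w)
    have h2 := der (c := c) K hX (v + w)
    simp only [fun e => U_add (Q := c.Q) (K.sp e) (K.lor e) (a e) v w] at h2
    refine smul_right_injective D Complex.I_ne_zero ?_
    simp only [smul_add]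
    exact h2.unique h1
  map_smul' z v := by
    obtain ⟨y, w', hw, hX⟩ := hX
    obtain ⟨s, L, a, K⟩ := H746.exists_crv hw r y
    have h1 := (der (c := c) K hX v).const_smul z
    have h2 := der (c := c) K hX (z • v)
    simp only [fun e => U_smul (Q := c.Q) (K.sp e) (K.lor e) (a e) z v] at h2
    refine smul_right_injective D Complex.I_ne_zero ?_
    simp only [RingHom.id_apply]
    rw [smul_comm]
    exact h2.unique h1

/-- conjugation of the generators by dilations -/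
lemma conj_dil (hs : 0 < s) {y : V} {w : Ix → V}
    (hw : ∀ m n, eta n * w m n = -(eta m * w n m)) {X X' : V → V}
    (hX : ∀ z n, X z n = (s • y) n + 0 * z n + ∑ m, z m * w m n)
    (hX' : ∀ z n, X' z n = y n + 0 * z n + ∑ m, z m * w m n) (v : D) :
    u c.Q s hs (c.A X' v) = c.A X (u c.Q s hs v) := by
  obtain ⟨s', L, a, K⟩ := H746.exists_crv hw 0 y
  have K' : H746.Crv s' L (fun e => s • a e) w 0 (s • y) :=
    ⟨K.s0, K.L0, by simp [K.a0], K.sp, K.lor, K.ds, K.dL, fun n => (K.da n).const_mul s⟩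
  have h1 := hasDerivAt_iso (U_add hs H496.isLor_one 0) (U_smul hs H496.isLor_one 0)
    (fun v => H246.U_nrm0 (Q := c.Q) hs H496.isLor_one 0 v) (der (c := c) K hX' v)
  have h2 := der (c := c) K' hX (u c.Q s hs v)
  have e : (fun e => c.Q.U s GF.one 0 (c.Q.U (s' e) (L e) (a e) v)) =
      fun e => c.Q.U (s' e) (L e) (s • a e) (u c.Q s hs v) := by
    funext e
    refine (m1 c _ _ _ _ _ _ v hs (K.sp e) H496.isLor_one (K.lor e) (.inl rfl)).trans
      (Eq.trans ?_ (m1 c _ _ _ _ _ _ v (K.sp e) hs (K.lor e) H496.isLor_one (.inr rfl)).symm)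
    have : sim (s' e) (L e) (s • a e) 0 = s • a e := by
      funext n
      simp [sim]
    simp only [this, sim_dil, zero_add, one_smul, mul_comm s]
    simp only [GF.one, N86.c1_bas]
  rw [e] at h1
  refine smul_right_injective D Complex.I_ne_zero ?_
  exact (map_smul (u c.Q s hs) I _).symm.trans (h1.unique h2)

lemma dl_pch (hT : Stress0 c.Q T) (hs : 0 < s) (hP : ND.PCh c.Q T c.A) (h : Dec c.Q B F C)
    {G : ℝ → Fn} (hG : IsCutoff G) {X : V → V}
    (hX : IsSim 0 X) (hf : IsTest f) (hc : HasCompactSupport f) (v w : D) :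
    Tendsto (fun r => inner ℂ w (ND.cur (fun m n => dl c.Q s hs (T m n)) X (G r) (B f v) -
      B f (ND.cur (fun m n => dl c.Q s hs (T m n)) X (G r) v))) atTop
      (𝓝 (inner ℂ w (c.A X (B f v) - B f (c.A X v)))) := by
  have R := m1 c
  have hb := fun m n => c.Q.bose_fld _ (hT.bose m n)
  have s0 : (s : ℂ) ≠ 0 := Complex.ofReal_ne_zero.2 hs.ne'
  set X' : V → V := fun z => s⁻¹ • X (s • z) with hX'
  obtain ⟨y, w', h1, h2⟩ := id hX
  have h3 : ∀ z n, X' z n = (s⁻¹ • y) n + 0 * z n + ∑ m, z m * w' m n := fun z n => by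
    simp only [hX', Pi.smul_apply, h2, smul_eq_mul, mul_assoc, ← Finset.mul_sum]
    field_simp
  have hX1 : IsSim 0 X' := ⟨_, w', h1, h3⟩
  have eP : ∀ z, u c.Q s hs (gen c hX1 (u c.Q s⁻¹ (inv_pos.2 hs) z)) = c.A X z := fun z => by
    refine (conj_dil hs h1 (X := X) (by rw [smul_inv_smul₀ hs.ne']; exact h2) h3 _).trans ?_
    rw [Fss.G.u_inv R hs z]
  have l := tendsto_finset_sum F fun d _ => (hP _ X' _ _ (u c.Q s⁻¹ (inv_pos.2 hs) v)
    (u c.Q s⁻¹ (inv_pos.2 hs) w) (cut_ds hG hs) hX1 (h.1 d).1 (ds_test hs hf)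
    (ds_cpt hs hc)).const_mul ((s : ℂ) ^ (4 - d))
  convert l.congr' ((isTest_cutoff hG).mono fun r hr => ?_) using 2
  · rw [← eP, ← eP]
    exact Fss.G.dec_comm h R hs hf (gen c hX1) v w
  · have ht : IsTest fun x => (s : ℂ) * ds s (G r) x := Ap.sw_cmul s (ds_test hs hr)
    have e : ∀ z, ND.cur (fun m n => dl c.Q s hs (T m n)) X (G r) z =
        u c.Q s hs (curL hb hX1 ht (u c.Q s⁻¹ (inv_pos.2 hs) z)) := fun z => by
      rw [curL_apply, ND.cur, ND.cur, map_sum]
      refine Finset.sum_congr rfl fun n _ => ?_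
      rw [Fss.dl]
      congr 2
      funext x
      simp only [ds_apply, hX', Pi.smul_apply, smul_eq_mul]
      push_cast
      field_simp
    rw [e, e, Fss.G.dec_comm h R hs hf]
    simp only [curL_apply]

lemma st (T : Ix → Ix → Fld D) (hF : FSS c.Q) (hT : Stress0 c.Q T) (hP : ND.PCh c.Q T c.A) :
    ∃ T', c.Q.IsStress T' ∧ ND.PCh c.Q T' c.A := by
  classical
  obtain ⟨T', h1, h2, -⟩ := G.fss (m1 c) hF hT
  refine ⟨T', h1, fun G X B f v w hG hX hB hf hc' => ?_⟩
  choose F C h4 hd he using h2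
  obtain ⟨S, a, ha⟩ := EB.vand' (Finset.univ.biUnion fun p : Ix × Ix => F p.1 p.2) 4
  have hs : ∀ m n, F m n ⊆ Finset.univ.biUnion fun p : Ix × Ix => F p.1 p.2 := fun m n d hd =>
    Finset.mem_biUnion.2 ⟨(m, n), Finset.mem_univ _, hd⟩
  have c1 : ∑ t ∈ S, a t = 1 := by simpa using ha 4 (hs o o (h4 o o))
  have fm : ∀ m n f v, IsTest f → T' m n f v =
      ∑ t ∈ S, a t • dl c.Q _ (Real.exp_pos t) (T m n) f v := fun m n f v hf => by
    rw [he]
    exact Fss.G.dec_fm (hd m n) (m1 c) (h4 m n) (fun d hd => ha d (hs m n hd)) hf v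
  obtain ⟨F', C', b1, b2⟩ := hF B hB
  have := tendsto_finset_sum S fun t _ => (dl_pch hT (Real.exp_pos t) hP
    ⟨fun d => ⟨(b1 d).1, (b1 d).2.2.1⟩, b2⟩ hG hX hf hc' v w).const_mul (a t)
  rw [← Finset.sum_mul, c1, one_mul] at this
  refine this.congr' ((isTest_cutoff hG).mono fun r hr => ?_)
  have e : ∀ z, ND.cur T' X (G r) z = ∑ t ∈ S, a t •
      ND.cur (fun m n => dl c.Q _ (Real.exp_pos t) (T m n)) X (G r) z := fun z => by
    simp only [ND.cur, fun n => fm o n _ z (test_sim0 hX hr n), Finset.smul_sum]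
    exact Finset.sum_comm
  simp only [e, ← fl_apply hB hf, map_sum, map_smul, ← Finset.sum_sub_distrib, ← smul_sub,
    inner_sum, inner_smul_right]

/-- the grading as a linear map -/
def gl (t : E0 c) : D →ₗ[ℂ] D := ⟨⟨c.G, t.bas.gadd⟩, t.bas.gsmul⟩

/-- the parts of a field -/
lemma parts (t : E0 c) (hB : c.Q.fld B) : ∃ P : Bool → Fld D, c.Q.bose (P false) ∧
    Fer c.Q c.G (P true) ∧ (∀ f v, IsTest f → B f v = ∑ e, P e f v) ∧
    ∀ e f v, IsTest f → P e f v = (1 / 2 : ℂ) • (B f v + sg e • gl t (B f (c.G v))) := by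
  obtain ⟨C, C', h1, h2, h3⟩ := c.hN.split B hB
  refine ⟨fun e => cond e C' C, h1, h2, fun f v hf => ?_, fun e f v hf => ?_⟩
  · rw [Fintype.sum_bool, h3 f v hf, add_comm]
    rfl
  · have e1 : gl t (B f (c.G v)) = C f v - C' f v := by
      rw [h3 f _ hf, c.hN.bose C f v h1 hf, h2.2 f v hf, map_add, map_neg, sub_eq_add_neg]
      exact congrArg₂ (fun x y => x + -y) (c.hN.inv _) (c.hN.inv _)
    rw [e1, h3 f v hf]
    cases e <;> simp only [sg, cond_true, cond_false] <;> module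

lemma comps (t : E0 c) (hF : FSS c.Q) {k : Rp} {Φ : Fin k.n → Fld D} (h : IsMf c.Q k Φ)
    (a : Fin k.n) : ∃ (G : Bool → Finset ℂ) (C : Bool → ℂ → Fld D),
      (∀ e, ∀ d ∈ G e, Cmp c e (C e d)) ∧
      ∀ f v, IsTest f → Φ a f v = ∑ e, ∑ d ∈ G e, C e d f v := by
  choose P h1 h2 h3 h4 using fun a => parts t (h.1 a)
  have hf : ∀ e a, c.Q.fld (P a e) := fun e a => by
    cases e
    exacts [c.Q.bose_fld _ (h1 a), (h2 a).1]
  have hm : ∀ e, IsMl c.Q k fun a => P a e := fun e a L f v hL hf => by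
    let W : D →ₗ[ℂ] D := ⟨⟨c.Q.U 1 L 0, U_add one_pos hL 0⟩, U_smul one_pos hL 0⟩
    have hW : ∀ z, gl t (W z) = W (gl t z) := fun z => (c.hN.GU 1 L 0 z one_pos hL).symm
    have t1 := Ap.test_sim one_pos hL 0 hf
    have e1 : ∀ z, Φ a f (c.Q.U 1 L 0 z) =
        ∑ b, k.ρ L b a • W (Φ b (fun x => f (sim 1 L 0 x)) z) := fun z => h.2 a L f z hL hf
    show _ = ∑ b, _ • W _
    simp only [h4 _ _ _ _ t1, h4 a e f _ hf, ← c.hN.GU 1 L 0 v one_pos hL, e1, map_sum, map_smul,
      map_add, hW, Finset.smul_sum, ← Finset.sum_add_distrib]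
    exact Finset.sum_congr rfl fun b _ => by module
  choose G C h5 h6 using fun e => G.ml_dec (m1 c) hF (hm e) (hf e)
  refine ⟨G, fun e => C e a, fun e d hd => ⟨k, d, fun a => C e a d, a, ?_, rfl⟩, fun f v hf => ?_⟩
  · obtain ⟨a1, a2⟩ := h6 e d hd
    have a3 : ∀ a, c.Q.fld (C e a d) ∧ Pa c e (C e a d) := fun a => by
      cases e
      · have := (a2 a).1 (h1 a)
        exact ⟨c.Q.bose_fld _ this, fun f v hf => by
          rw [c.hN.bose _ f v this hf]; simp [sg]⟩
      · have := (a2 a).2 (gl t) (fun s v hs => c.hN.GU s _ 0 v hs H496.isLor_one) (h2 a)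
        exact ⟨this.1, fun f v hf => (this.2 f v hf).trans (by simp [sg, gl])⟩
    refine ⟨⟨fun a => (a3 a).1, fun a L f v hL hf => ?_⟩, fun a s f v hs hf => ?_,
      fun a => (a3 a).2⟩
    · simpa using a1 a 1 L f v one_pos hL hf
    · have := a1 a s GF.one f v hs H496.isLor_one hf
      rw [k.id, Finset.sum_eq_single a (fun b _ hb => by simp [Matrix.one_apply_ne hb])
        (fun h => absurd (Finset.mem_univ a) h), Matrix.one_apply_eq, mul_one] at this
      exact this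
  · rw [h3 a f v hf]
    exact Finset.sum_congr rfl fun e _ => h5 e a f v hf

lemma md (t : E0 c) (hF : FSS c.Q) (h : MfAll c.Q) : MdAll c := fun B hB => by
  obtain ⟨n, B', h1, h2⟩ := h B hB
  choose k Φ a hΦ e using h1
  choose G C hC hs using fun i => comps t hF (hΦ i) (a i)
  let E := Fintype.equivFin (Σ p : Fin n × Bool, G p.1 p.2)
  refine ⟨_, fun j => (E.symm j).1.2, fun j => C (E.symm j).1.1 (E.symm j).1.2 (E.symm j).2,
    fun j => hC _ _ _ (E.symm j).2.2, fun f v hf => ?_⟩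
  rw [h2 f v hf, E.symm.sum_comp fun p => C p.1.1 p.1.2 p.2 f v, Fintype.sum_sigma,
    Fintype.sum_prod_type]
  refine Finset.sum_congr rfl fun i _ => ?_
  rw [e, hs i f v hf]
  exact Finset.sum_congr rfl fun b _ => (Finset.sum_coe_sort (G i b) (C i b · f v)).symm

end Fsg

variable {D : Type*} [NormedAddCommGroup D] [InnerProductSpace ℂ D] {c : Cg D}

/-- row FSG -/
theorem fsg_row (t : E0 c) : FSG c := ⟨Fsg.st, Fsg.md t⟩

end

end Vale.Agent.P352X.EG
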