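import Vale.Agent.P352X.EG.Spec
import Mathlib.Analysis.Calculus.LineDeriv.IntegrationByParts
import Mathlib.Analysis.Distribution.AEEqOfIntegralContDiff

/-!
# P352X, block EG, row GR: Gaarding vectors are in the closure of the graph
-/

set_option linter.all false

open MeasureTheory Filter Topology
open scoped SchwartzMap ComplexConjugate ContDiff

namespace Vale.Agent.P352X.EG

open Vale.Agent.P352 Vale.Agent.P352.GF Vale.Agent.P352.BW Vale.Agent.P352.H246
open Vale.Agent.P352.SubConf (IsAdj)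
open UniformSpace (Completion)

noncomputable section

namespace GRp

lemma int_mem {E α : Type*} [NormedAddCommGroup E] [NormedSpace ℝ E] [NormedSpace ℂ E]
    [IsScalarTower ℝ ℂ E] [CompleteSpace E] [MeasurableSpace α] (μ : Measure α)
    (K : Submodule ℂ E) (hK : IsClosed (K : Set E)) (F : α → E) (hF : ∀ a, F a ∈ K) :
    ∫ a, F a ∂μ ∈ K := by
  haveI : CompleteSpace K := hK.completeSpace_coe
  have h := K.subtypeₗᵢ.integral_comp_comm (μ := μ) fun a => (⟨F a, hF a⟩ : K)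
  have e : ∫ a, F a ∂μ = K.subtypeₗᵢ (∫ a, (⟨F a, hF a⟩ : K) ∂μ) := h
  rw [e]
  exact Subtype.prop _

/-- test functions -/
def Ts (h : V → ℝ) : Prop := ContDiff ℝ ∞ h ∧ HasCompactSupport h

lemma Ts.int {E : Type*} [NormedAddCommGroup E] [NormedSpace ℝ E] {h : V → ℝ} (hh : Ts h)
    {F : V → E} (hF : Continuous F) : Integrable fun a => h a • F a :=
  (hh.1.continuous.smul hF).integrable_of_hasCompactSupport hh.2.smul_right

lemma Ts.der {h : V → ℝ} (hh : Ts h) (y : V) : Ts fun a => -fderiv ℝ h a y :=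
  ⟨((hh.1.fderiv_right (m := ∞) (by simp)).clm_apply contDiff_const).neg,
    (hh.2.fderiv_apply ℝ y).neg⟩

lemma mem_of_int {E : Type*} [NormedAddCommGroup E] [NormedSpace ℝ E] [NormedSpace ℂ E]
    [IsScalarTower ℝ ℂ E] [CompleteSpace E] (G : Submodule ℂ E) (hG : IsClosed (G : Set E))
    {φ : V → E} (hφ : Continuous φ) {ε : ℝ} (hε : 0 < ε)
    (h : ∀ g, Ts g → tsupport g ⊆ Metric.ball 0 ε → ∫ a, g a • φ a ∈ G) : φ 0 ∈ G := by
  have hc : Continuous fun a => G.mkQL (φ a) := G.mkQL.continuous.comp hφ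
  have h1 := Metric.isOpen_ball.ae_eq_zero_of_integral_contDiff_smul_eq_zero (μ := volume)
    (hc.locallyIntegrable.locallyIntegrableOn (Metric.ball (0 : V) ε)) fun g g1 g2 g3 => by
      have e := G.mkQL.integral_comp_comm (Ts.int ⟨g1, g2⟩ hφ)
      simp only [ContinuousLinearMap.map_smul_of_tower] at e
      rw [e]
      exact (Submodule.Quotient.mk_eq_zero G).2 (h g ⟨g1, g2⟩ g3)
  exact (Submodule.Quotient.mk_eq_zero G).1 (Measure.eqOn_open_of_ae_eq (g := fun _ => 0)
    ((ae_restrict_iff' measurableSet_ball).2 h1) Metric.isOpen_ball hc.continuousOn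
    continuousOn_const (Metric.mem_ball_self hε))

variable {D H : Type*} [AddCommGroup D] [Module ℂ D] [NormedAddCommGroup H]
  [InnerProductSpace ℂ H] [CompleteSpace H]

/-- words in the generators -/
def Wo (P : Ix → D →ₗ[ℂ] D) : (k : ℕ) → (Fin k → Option Ix) → D →ₗ[ℂ] D
  | 0, _ => LinearMap.id
  | k + 1, w => Wo P k (Fin.tail w) ∘ₗ (w 0).elim LinearMap.id P

/-- the abstract setting -/
structure Ab (ι : D →ₗ[ℂ] H) (U : V → H →L[ℂ] H) (P : Ix → D →ₗ[ℂ] D) (u : V → D → D) : Prop where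
  coe : ∀ a v, ι (u a v) = U a (ι v)
  add : ∀ a b z, U (a + b) z = U a (U b z)
  nrm : ∀ a z, ‖U a z‖ = ‖z‖
  cont : ∀ z, Continuous fun a => U a z
  der : ∀ m v, HasDerivAt (fun t : ℝ => U (bas m t) (ι v)) (ι (P m v)) 0
  tra : ∀ m a v, P m (u a v) = u a (P m v)

variable {ι : D →ₗ[ℂ] H} {U : V → H →L[ℂ] H} {P : Ix → D →ₗ[ℂ] D} {u : V → D → D}

lemma Ab.dw (s : Ab ι U P u) (a : V) : ∀ k w v, Wo P k w (u a v) = u a (Wo P k w v)
  | 0, _, _ => rfl
  | k + 1, w, v => by
    simp only [Wo, LinearMap.comp_apply]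
    rw [← s.dw a k]
    cases w 0 with
    | none => rfl
    | some m => exact congrArg _ (s.tra m a v)

lemma Ab.ibp (s : Ab ι U P u) {h : V → ℝ} (hh : Ts h) (m : Ix) (v : D) :
    ∫ a, h a • U a (ι (P m v)) = ∫ a, (-fderiv ℝ h a (bas m 1)) • U a (ι v) := by
  have e := integral_bilinear_hasLineDerivAt_right_eq_neg_left_of_integrable (μ := volume)
    (f := h) (f' := fun a => fderiv ℝ h a (bas m 1)) (g := fun a => U a (ι v))
    (g' := fun a => U a (ι (P m v))) (v := bas m 1) (B := ContinuousLinearMap.lsmul ℝ ℝ)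
    (by simpa using ((hh.der (bas m 1)).int (s.cont (ι v))).neg) (hh.int (s.cont _))
    (hh.int (s.cont _))
    (fun x _ => ((hh.1.differentiable (by simp)) x).hasFDerivAt.hasLineDerivAt _) (fun x _ => by
      have := ((U x).restrictScalars ℝ).hasFDerivAt.comp_hasDerivAt (0 : ℝ) (s.der m v)
      refine this.congr_of_eventuallyEq (Eventually.of_forall fun t => ?_)
      have e : t • bas m 1 = bas m t := by
        funext n
        simp [bas]
      simp [e, s.add])
  simp only [ContinuousLinearMap.lsmul_apply] at e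
  rw [e, ← integral_neg]
  simp only [neg_smul]

lemma Ab.ibpw (s : Ab ι U P u) : ∀ k w {h : V → ℝ}, Ts h → ∃ h', Ts h' ∧ ∀ v,
    ∫ a, h a • U a (ι (Wo P k w v)) = ∫ a, h' a • U a (ι v)
  | 0, _, h, hh => ⟨h, hh, fun _ => rfl⟩
  | k + 1, w, h, hh => by
    obtain ⟨h', h1, h2⟩ := s.ibpw k (Fin.tail w) hh
    simp only [Wo, LinearMap.comp_apply, h2]
    cases w 0 with
    | none => exact ⟨h', h1, fun _ => rfl⟩
    | some m => exact ⟨_, h1.der (bas m 1), fun v => s.ibp h1 m v⟩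

lemma Ab.rle (s : Ab ι U P u) (h : V → ℝ) (y : H) : ‖∫ a, h a • U a y‖ ≤ (∫ a, |h a|) * ‖y‖ := by
  refine (norm_integral_le_integral_norm _).trans (le_of_eq ?_)
  simp only [norm_smul, s.nrm, Real.norm_eq_abs, integral_mul_const]

/-- all words -/
def Jm (ι : D →ₗ[ℂ] H) (P : Ix → D →ₗ[ℂ] D) (k : ℕ) : D →ₗ[ℂ] (Fin k → Option Ix) → H :=
  LinearMap.pi fun w => ι ∘ₗ Wo P k w

lemma Ab.jc (s : Ab ι U P u) (k : ℕ) (v : D) : Continuous fun a => Jm ι P k (u a v) :=
  continuous_pi fun w => by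
    simp only [Jm, LinearMap.pi_apply, LinearMap.comp_apply, s.dw, s.coe]
    exact s.cont _

lemma Ab.xc (s : Ab ι U P u) {k : ℕ} {C : ℝ} {X : D →ₗ[ℂ] H} (hX : ∀ v, ‖X v‖ ≤ C * ‖Jm ι P k v‖)
    (v : D) : Continuous fun a => X (u a v) := by
  refine continuous_iff_continuousAt.2 fun b => tendsto_iff_norm_sub_tendsto_zero.2 ?_
  refine squeeze_zero (fun _ => norm_nonneg _) (fun a => ?_)
    (g := fun a => C * ‖Jm ι P k (u a v) - Jm ι P k (u b v)‖) ?_
  · rw [← map_sub, ← map_sub]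
    exact hX _
  · have := (tendsto_iff_norm_sub_tendsto_zero.1 ((s.jc k v).tendsto b)).const_mul C
    rwa [mul_zero] at this

/-- the smoothed operator is bounded -/
lemma Ab.kb (s : Ab ι U P u) {k : ℕ} {C : ℝ} (hC : 0 ≤ C) {X : D →ₗ[ℂ] H}
    (hX : ∀ v, ‖X v‖ ≤ C * ‖Jm ι P k v‖) {h : V → ℝ} (hh : Ts h) :
    ∃ M : ℝ, 0 ≤ M ∧ ∀ v, ‖∫ a, h a • X (u a v)‖ ≤ M * ‖ι v‖ := by
  choose g hg hg' using fun w => s.ibpw k w hh
  have h0 : ∀ w, 0 ≤ ∫ a, |g w a| := fun w => integral_nonneg fun _ => abs_nonneg _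
  have h1 : 0 ≤ ∑ w, ∫ a, |g w a| := Finset.sum_nonneg fun w _ => h0 w
  refine ⟨C * ∑ w, ∫ a, |g w a|, mul_nonneg hC h1, fun v => ?_⟩
  let K := (LinearMap.range ((Jm ι P k).prod X)).topologicalClosure
  have hK : ∀ p ∈ K, ‖p.2‖ ≤ C * ‖p.1‖ := fun p hp =>
    closure_minimal (t := {p : ((Fin k → Option Ix) → H) × H | ‖p.2‖ ≤ C * ‖p.1‖})
      (by rintro _ ⟨v, rfl⟩; exact hX v) (isClosed_le (by fun_prop) (by fun_prop)) hp
  have i1 := hh.int (s.jc k v)
  have hm := int_mem volume K (Submodule.isClosed_topologicalClosure _)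
    (fun a => (h a • Jm ι P k (u a v), h a • X (u a v))) fun a =>
      Submodule.le_topologicalClosure _ ⟨(h a : ℂ) • u a v, by
        simp [Prod.ext_iff]⟩
  rw [integral_pair i1 (hh.int (s.xc hX v))] at hm
  refine (hK _ hm).trans ?_
  rw [mul_assoc]
  refine mul_le_mul_of_nonneg_left ((pi_norm_le_iff_of_nonneg (by positivity)).2 fun w => ?_) hC
  have e := (ContinuousLinearMap.proj (R := ℝ) (φ := fun _ : Fin k → Option Ix => H)
    w).integral_comp_comm i1
  simp only [ContinuousLinearMap.proj_apply, Pi.smul_apply] at e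
  dsimp only
  rw [← e]
  simp only [Jm, LinearMap.pi_apply, LinearMap.comp_apply, s.dw, s.coe, hg']
  exact (s.rle _ _).trans (mul_le_mul_of_nonneg_right
    (Finset.single_le_sum (fun w _ => h0 w) (Finset.mem_univ w)) (norm_nonneg _))

lemma Ab.rc (s : Ab ι U P u) {h : V → ℝ} (hh : Ts h) : Continuous fun y => ∫ a, h a • U a y := by
  refine (LipschitzWith.of_dist_le_mul (K := Real.toNNReal (∫ a, |h a|)) fun x y => ?_).continuous
  rw [dist_eq_norm, dist_eq_norm, ← integral_sub (hh.int (s.cont _)) (hh.int (s.cont _))]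
  simp only [← smul_sub, ← map_sub]
  exact (s.rle h _).trans (mul_le_mul_of_nonneg_right (Real.le_coe_toNNReal _) (norm_nonneg _))

lemma inner_int {h : V → ℝ} (hh : Ts h) {F : V → H} (hF : Continuous F) (q : H) :
    inner ℂ q (∫ a, h a • F a) = ∫ a, (h a : ℂ) * inner ℂ q (F a) := by
  rw [← integral_inner (hh.int hF)]
  simp only [← Complex.coe_smul, inner_smul_right]

theorem Ab.main (s : Ab ι U P u) (hd : DenseRange ι) {k : ℕ} {C : ℝ} (hC : 0 ≤ C)
    {X : D →ₗ[ℂ] D} {X' : D → D} (hX : ∀ v, ‖ι (X v)‖ ≤ C * ‖Jm ι P k v‖)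
    (hadj : ∀ v w, inner ℂ (ι (X' w)) (ι v) = inner ℂ (ι w) (ι (X v))) (S : Submodule ℂ D)
    {y : H} {Z : V → H} {ε : ℝ} (hε : 0 < ε) (hU : ∀ a, ∀ v ∈ S, u a v ∈ S)
    (hS : ∀ v ∈ S, X v ∈ S) (hy : y ∈ closure (ι '' S)) (hZ : Continuous Z)
    (hz : ∀ a, ‖a‖ < ε → Z a ∈ closure (ι '' S) ∧ ∀ v ∈ S,
      inner ℂ (ι (X' v)) (U a y) = inner ℂ (ι v) (Z a)) :
    (U 0 y, Z 0) ∈ closure ((fun v => (ι v, ι (X v))) '' S) := by
  let G := (S.map (ι.prod (ι ∘ₗ X))).topologicalClosure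
  have hG : IsClosed (G : Set (H × H)) := Submodule.isClosed_topologicalClosure _
  let K := (S.map ι).topologicalClosure
  refine mem_of_int G hG ((s.cont y).prodMk hZ) hε fun h hh hs => ?_
  obtain ⟨M, hM, hb⟩ := s.kb (X := ι ∘ₗ X) hC hX hh
  have xc : ∀ v, Continuous fun a => ι (X (u a v)) := s.xc (X := ι ∘ₗ X) hX
  have kb : ∀ w x, ‖inner ℂ (ι (X' w)) (∫ a, h a • U a x)‖ ≤ ‖ι w‖ * (M * ‖x‖) := fun w x => by
    refine hd.induction_on x (isClosed_le (continuous_const.inner (s.rc hh)).norm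
      (by fun_prop)) fun v => ?_
    rw [inner_int hh (s.cont _)]
    simp only [← s.coe, hadj]
    rw [← inner_int hh (xc v)]
    exact (norm_inner_le_norm _ _).trans (mul_le_mul_of_nonneg_left (hb v) (norm_nonneg _))
  have hz' : ∀ a, h a ≠ 0 → ‖a‖ < ε := fun a ha => by
    simpa using hs (subset_tsupport _ ha)
  have hd2 : ∀ v ∈ S, ‖(∫ a, h a • ι (X (u a v))) - ∫ a, h a • Z a‖ ≤ M * ‖ι v - y‖ := by
    intro v hv
    set d := (∫ a, h a • ι (X (u a v))) - ∫ a, h a • Z a with hdd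
    have dK : d ∈ K := by
      refine K.sub_mem (int_mem _ K (Submodule.isClosed_topologicalClosure _) _ fun a => ?_)
        (int_mem _ K (Submodule.isClosed_topologicalClosure _) _ fun a => ?_)
      · exact K.smul_of_tower_mem _
          (Submodule.le_topologicalClosure _ ⟨_, hS _ (hU a v hv), rfl⟩)
      · by_cases ha : h a = 0
        · simp [ha]
        · exact K.smul_of_tower_mem _ (hz a (hz' a ha)).1
    have h1 : ∀ q ∈ K, ‖inner ℂ q d‖ ≤ ‖q‖ * (M * ‖ι v - y‖) := fun q hq => by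
      refine closure_minimal (t := {q : H | ‖inner ℂ q d‖ ≤ ‖q‖ * (M * ‖ι v - y‖)}) ?_
        (isClosed_le (by fun_prop) (by fun_prop)) hq
      rintro _ ⟨w, hw, rfl⟩
      refine le_trans (le_of_eq (congrArg _ ?_)) (kb w (ι v - y))
      simp only [map_sub, smul_sub]
      rw [integral_sub (hh.int (s.cont _)) (hh.int (s.cont _)), hdd, inner_sub_right,
        inner_sub_right, inner_int hh (xc v), inner_int hh hZ, inner_int hh (s.cont _),
        inner_int hh (s.cont _)]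
      simp only [← s.coe, hadj]
      congr 2
      funext a
      by_cases ha : h a = 0
      · simp [ha]
      · rw [(hz a (hz' a ha)).2 w hw]
    have h2 := h1 d dK
    rw [inner_self_eq_norm_sq_to_K, norm_pow, RCLike.norm_ofReal, abs_norm, sq] at h2
    rcases (norm_nonneg d).eq_or_lt with h3 | h3
    · rw [← h3]
      positivity
    · exact le_of_mul_le_mul_left h2 h3
  have hm : ∀ v ∈ S, ((∫ a, h a • U a (ι v)), ∫ a, h a • ι (X (u a v))) ∈ G := fun v hv => by
    rw [← integral_pair (hh.int (s.cont _)) (hh.int (xc v))]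
    refine int_mem _ G hG _ fun a => Submodule.le_topologicalClosure _
      ⟨(h a : ℂ) • u a v, S.smul_mem _ (hU a v hv), ?_⟩
    simp [Prod.ext_iff, s.coe]
  simp only [Prod.smul_mk]
  rw [integral_pair (hh.int (s.cont _)) (hh.int hZ)]
  obtain ⟨x, hx, hl⟩ := mem_closure_iff_seq_limit.1 hy
  choose v hv hv' using hx
  refine hG.mem_of_tendsto (b := atTop) (Tendsto.prodMk_nhds ?_ ?_)
    (Eventually.of_forall fun n => hm (v n) (hv n))
  · simp only [hv']
    exact ((s.rc hh).tendsto y).comp hl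
  · refine tendsto_iff_norm_sub_tendsto_zero.2 (squeeze_zero (fun _ => norm_nonneg _)
      (fun n => hd2 _ (hv n)) ?_)
    simp only [hv']
    simpa using (tendsto_iff_norm_sub_tendsto_zero.1 hl).const_mul M

end GRp

open GRp

variable {D : Type*} [NormedAddCommGroup D] [InnerProductSpace ℂ D] {c : Cg D}

/-- the generators of the translations -/
def grP (t : WB c) (m : Ix) : D →ₗ[ℂ] D := ⟨⟨Dv c.Q m, t.add m⟩, t.smul m⟩

lemma gr_en (t : WB c) : ∀ (k : ℕ) (v : D) (r : ℝ), (∀ w, ‖Wo (grP t) k w v‖ ≤ r) →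
    en c.Q k v ≤ 5 ^ k * r
  | 0, v, r, h => by
    rw [pow_zero, one_mul]
    exact h Fin.elim0
  | k + 1, v, r, h => by
    have h1 := gr_en t k v r fun w => h (Fin.cons none w)
    have h2 : ∑ m, en c.Q k (Dv c.Q m v) ≤ ∑ _m : Ix, 5 ^ k * r :=
      Finset.sum_le_sum fun m _ => gr_en t k _ r fun w => h (Fin.cons (some m) w)
    simp only [Finset.sum_const, Finset.card_univ, Fintype.card_fin, nsmul_eq_mul] at h2
    rw [en, pow_succ]
    push_cast at h2
    linarith

lemma gr_inn (a : V) (x y : Completion D) :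
    inner ℂ (Ut c.Q a x) (Ut c.Q a y) = inner ℂ x y := by
  rw [Ut, Ug, dif_pos ⟨one_pos, H496.isLor_one⟩]
  exact (ueC c.Q one_pos H496.isLor_one a).inner_map_map x y

lemma gr_nrm (a : V) (x : Completion D) : ‖Ut c.Q a x‖ = ‖x‖ := by
  rw [Ut, Ug, dif_pos ⟨one_pos, H496.isLor_one⟩]
  exact (ueC c.Q one_pos H496.isLor_one a).norm_map x

/-- row GR -/
theorem gr_row (t : E0 c) : GR c := by
  intro hE S B B' f y z ε hε hB hB' hA hf hU hS hy hz hzz
  let ι : D →ₗ[ℂ] Completion D := (Completion.toComplL : D →L[ℂ] Completion D).toLinearMap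
  have hι : ∀ v, ι v = (v : Completion D) := fun _ => rfl
  have hc : ∀ a (v : D), Ut c.Q a v = (c.Q.U 1 GF.one a v : D) := fun a v =>
    t.sg.coe 1 GF.one a v one_pos H496.isLor_one
  have s : Ab ι (Ut c.Q) (grP t.wb) (c.Q.U 1 GF.one) :=
    ⟨fun a v => (hc a v).symm, fun a b x => by rw [t.sg.ut]; rfl, gr_nrm, t.sg.utc,
      fun m v => by
        simp only [hι, hc]
        exact ((Completion.toComplL : D →L[ℂ] Completion D).restrictScalars ℝ).hasFDerivAt
          |>.comp_hasDerivAt (0 : ℝ) (t.wb.der m v),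
      fun m a v => t.wb.tra m a v⟩
  let X : D →ₗ[ℂ] D := ⟨⟨B f, fun v w => ext_inner_right ℂ fun x => by
    rw [inner_add_left, hA _ _ _ hf.1, hA _ _ _ hf.1, hA _ _ _ hf.1, inner_add_left]⟩,
    fun a v => ext_inner_right ℂ fun x => by
      simp only [RingHom.id_apply]
      rw [inner_smul_left, hA _ _ _ hf.1, hA _ _ _ hf.1, inner_smul_left]⟩
  obtain ⟨k, hk⟩ := hE B hB
  obtain ⟨C, hC⟩ := hk f hf
  have hX : ∀ v, ‖ι (X v)‖ ≤ |C| * 5 ^ k * ‖Jm ι (grP t.wb) k v‖ := fun v => by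
    rw [hι, Completion.norm_coe, mul_assoc]
    refine (hC v).trans (mul_le_mul (le_abs_self C) (gr_en t.wb k v _ fun w => ?_)
      ((norm_nonneg _).trans (t.wb.le k v)) (abs_nonneg C))
    rw [← Completion.norm_coe]
    exact norm_le_pi_norm (Jm ι (grP t.wb) k v) w
  have hb : IsTest (bar f) := H246.isTest_bar hf.1
  have hi : ∀ a x, Ut c.Q a (Ut c.Q (-a) x) = x := fun a x => by
    rw [← ContinuousLinearMap.mul_apply, ← t.sg.ut, add_neg_cancel, t.sg.ut0]
    rfl
  have hK : ∀ a, ∀ x ∈ closure (ι '' S), Ut c.Q a x ∈ closure (ι '' S) := fun a x hx =>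
    map_mem_closure (Ut c.Q a).continuous hx (by
      rintro _ ⟨v, hv, rfl⟩
      exact ⟨_, hU a v hv, (hc a v).symm⟩)
  have hZ : Continuous fun a => Ut c.Q a (z a) := by
    refine continuous_iff_continuousAt.2 fun b => tendsto_iff_norm_sub_tendsto_zero.2 ?_
    refine squeeze_zero (fun _ => norm_nonneg _) (fun a => ?_)
      (g := fun a => ‖z a - z b‖ + ‖Ut c.Q a (z b) - Ut c.Q b (z b)‖) ?_
    · rw [← gr_nrm (c := c) a (z a - z b), map_sub]
      exact norm_sub_le_norm_sub_add_norm_sub _ _ _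
    · simpa using (tendsto_iff_norm_sub_tendsto_zero.1 (hz.tendsto b)).add
        (tendsto_iff_norm_sub_tendsto_zero.1 ((t.sg.utc (z b)).tendsto b))
  have h := s.main Completion.denseRange_coe (by positivity) (X' := B' (bar f)) hX
    (fun v w => by
      simp only [hι, Completion.inner_coe]
      rw [← inner_conj_symm, ← hA _ _ _ hf.1, inner_conj_symm]
      rfl) S hε hU hS hy hZ fun a ha => ⟨hK a _ (hzz a ha).1, fun v hv => by
        have e := (hzz a ha).2 _ (hU (-a) v hv)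
        rw [← gr_inn (c := c) a, ← gr_inn (c := c) a (_ : D) (z a), ← hc (-a), hi, hc] at e
        rw [hι, hι, ← e]
        congr 2
        refine Eq.trans ?_ (c.Q.transl B' a (bar f) _ hB' hb)
        congr 1
        exact Completion.coe_injective D (by rw [← hc, ← hc, hi])⟩
  simp only [t.sg.ut0, ContinuousLinearMap.one_apply] at h
  exact h

end

end Vale.Agent.P352X.EG
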