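import Vale.Agent.P352X.EG.Spec
import Vale.Agent.P352X.Api2d

/-!
# P352X, block EG, row LET: the letters
-/

set_option linter.all false

open MeasureTheory Filter Topology
open scoped SchwartzMap ComplexConjugate ContDiff

namespace Vale.Agent.P352X.EG

open Vale.Agent.P352X.EB

open Vale.Agent.P352 Vale.Agent.P352.GF Vale.Agent.P352.BW Vale.Agent.P352.H246
open Vale.Agent.P352.H496 Vale.Agent.P352.H755 Vale.Agent.P352.H15
open Vale.Agent.P352.SubConf (IsAdj)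
open UniformSpace (Completion)

noncomputable section

namespace Let

variable {D : Type*} [NormedAddCommGroup D] [InnerProductSpace ℂ D] {c : Cg D}

lemma bb (f : Fn) : bar (bar f) = f := funext fun _ => star_star _

lemma adj_uniq {A B B' : Fld D} (h : IsAdj A B) (h' : IsAdj A B') {f : Fn} (hf : IsTest f)
    (v : D) : B f v = B' f v :=
  ext_inner_left ℂ fun w => by
    rw [← bb f, ← h _ _ _ (Ap.test_bar hf), h' _ _ _ (Ap.test_bar hf)]

lemma cpow_conj {s : ℝ} (hs : 0 < s) (d : ℂ) : conj ((s : ℂ) ^ (4 - d)) = (s : ℂ) ^ (4 - conj d) := by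
  have h := Complex.cpow_conj (s : ℂ) (4 - d) (by
    rw [Complex.arg_ofReal_of_nonneg hs.le]; exact Real.pi_ne_zero.symm)
  rw [Complex.conj_ofReal] at h
  rw [← h, map_sub, map_ofNat]

lemma tra (t : E0 c) {B : Fld D} (h : c.Q.fld B) (y : V) {f : Fn} (hf : IsTest f) :
    ((B f c.Q.vac : D) : Completion D) =
      Ut c.Q y (B (fun x => f (sim 1 GF.one y x)) c.Q.vac : D) := by
  rw [Ut, t.sg.coe _ _ _ _ one_pos H496.isLor_one, ← c.Q.transl _ _ _ _ h hf,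
    c.Q.U_vac _ _ _ one_pos H496.isLor_one]

lemma dil (t : E0 c) {B : Fld D} {d : ℂ} (h : Dim c.Q d B) {s : ℝ} (hs : 0 < s) {f : Fn}
    (hf : IsTest f) : ((B f c.Q.vac : D) : Completion D) =
      (s : ℂ) ^ (4 - d) • Ug c.Q s GF.one 0 (B (fun x => f (sim s GF.one 0 x)) c.Q.vac : D) := by
  rw [t.sg.coe _ _ _ _ hs H496.isLor_one, ← Completion.coe_smul, ← h s f _ hs hf,
    c.Q.U_vac _ _ _ hs H496.isLor_one]

lemma tw (s : SG c) (g : Sh c) {e : Bool} {z : Completion D} (h : c.Γ z = sg e • z) :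
    Ug c.Q g.s g.L g.a z = sg (g.e && e) • g.U c z := by
  obtain ⟨g, _ | _⟩ := g
  · exact (one_smul _ _).symm
  · show _ = sg e • (c.Γ * (⟨g, false⟩ : Sh c).U c) z
    rw [s.gU, ContinuousLinearMap.mul_apply, h, map_smul, smul_smul]
    cases e <;> simp [sg] <;> rfl

lemma cov (t : E0 c) {e : Bool} {k : Rp} {d : ℂ} {Φ : Fin k.n → Fld D} (h : Mp c e k d Φ)
    (g : Sh c) (μ : Fin k.n) {f : Fn} (hf : IsTest f) : ((Φ μ f c.Q.vac : D) : Completion D) =
      ∑ ν, (k.ρ g.L ν μ * (g.s : ℂ) ^ (4 - d) * sg (g.e && e)) •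
        g.U c (Φ ν (g.pull f) c.Q.vac : D) := by
  have o := H496.isLor_one
  have f1 := Ap.test_sim one_pos o g.a hf
  have h1 := h.mf.2 μ g.L _ c.Q.vac g.hL f1
  rw [c.Q.U_vac _ _ _ one_pos g.hL] at h1
  rw [tra t (h.mf.1 μ) g.a hf, h1, ← Completion.coe_toComplL (𝕜 := ℂ), map_sum, map_sum]
  refine Finset.sum_congr rfl fun ν _ => ?_
  rw [map_smul, map_smul, Completion.coe_toComplL, ← t.sg.coe _ _ _ _ one_pos g.hL,
    dil t (h.dim ν) g.hs (Ap.test_sim one_pos g.hL 0 f1), map_smul, map_smul, smul_smul,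
    mul_smul _ (sg _), ← tw t.sg g (t.bas.pvac e _ _ (h.par ν) (t.sg.test g f hf)), Ut,
    t.sg.coe _ _ _ _ g.hs o, t.sg.coe _ _ _ _ one_pos g.hL, t.sg.coe _ _ _ _ one_pos o,
    t.sg.coe _ _ _ _ g.hs g.hL, t.sg.mul1 _ _ _ _ _ _ _ one_pos g.hs g.hL o (.inr rfl),
    t.sg.mul1 _ _ _ _ _ _ _ one_pos (mul_pos one_pos g.hs) o (ue_lor g.hL o) (.inl rfl)]
  congr 3
  · ring
  · funext m n
    fin_cases m <;> fin_cases n <;> simp [sim, GF.one, bas, Fin.sum_univ_four]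
  · funext n
    simp [sim]
  · congr 1
    funext x
    congr 1
    funext n
    fin_cases n <;> simp [Sg.act, sim, GF.one, bas, Fin.sum_univ_four] <;> ring

lemma pot (t : E0 c) {T : Ix → Ix → Fld D} {l : Fn → Completion D} (hl : Pot c T l) (g : Sh c)
    {f : Fn} (hf : IsTest f) : l f = ((g.s ^ 2 : ℝ) : ℂ) • g.U c (l (g.pull f)) := by
  have h := tw t.sg g (e := false) ((hl.gam _ (t.sg.test g f hf)).trans (one_smul _ _).symm)
  rw [Bool.and_false, show sg false = 1 from rfl, one_smul] at h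
  rw [← h]
  exact hl.cov g.s g.L g.a f g.hs g.hL hf

lemma fld {e : Bool} {B : Fld D} (h : Cmp c e B) : c.Q.fld B := by
  obtain ⟨k, d, Φ, μ, h, rfl⟩ := h
  exact h.mf.1 μ

/-- the adjoint label -/
def dg : Lab c → Lab c
  | none => none
  | some p => some ⟨p.B', p.B, p.e, p.h', p.h, p.a', p.a⟩

/-- the vectors of a label -/
def ph (l : Fn → Completion D) : Lab c → Fn → Completion D
  | none => l
  | some p => fun f => (p.B f c.Q.vac : D)

/-- the parity of a label -/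
def pr : Lab c → Bool
  | none => false
  | some p => p.e

end Let

open Let

variable {D : Type*} [NormedAddCommGroup D] [InnerProductSpace ℂ D] {c : Cg D}

theorem let_row (t : E0 c) (T : Ix → Ix → Fld D) : LET c T := by
  intro l hl hf
  refine ⟨⟨Let.dg, Let.ph l, Let.pr, ?_, ?_, ?_, ?_, ?_, ?_, ?_, ?_, ?_⟩, ?_, rfl, rfl,
    fun p => ?_, ?_⟩
  · rintro (_ | p) <;> rfl
  · rintro (_ | p) <;> rfl
  · rintro (_ | ⟨B, B', e, ⟨k, d, Φ, μ, h, rfl⟩, h1, h2, h3⟩) f h0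
    · exact (hl.gam f h0).trans (one_smul _ _).symm
    · exact t.bas.pvac e _ f (h.par μ) h0
  · rintro (_ | p) f g z h1 h2
    · exact hl.lin f g z h1 h2
    · show ((_ : D) : Completion D) = (_ : D) + z • ((_ : D) : Completion D)
      rw [c.Q.lin _ f g z _ (fld p.h) h1 h2, Completion.coe_add, Completion.coe_smul]
  · rintro (_ | p)
    · exact hl.cont
    · exact (Completion.continuous_coe D).comp (c.Q.cont _ _ (fld p.h))
  · rintro (_ | ⟨B, B', e, ⟨k, d, Φ, μ, h, rfl⟩, h1, h2, h3⟩) f h0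
    · exact hl.st f h0
    · obtain ⟨Φ', a, b⟩ := t.bas.padj' e k d Φ h
      show Stm _ _ ((Φ μ f c.Q.vac : D) : Completion D) (B' (bar f) c.Q.vac : D)
      rw [adj_uniq h2 (b μ) (Ap.test_bar h0.1)]
      exact hf e k Φ Φ' h.mf h.par (fun μ => ⟨a.mf.1 μ, b μ⟩) μ f h0
  · rintro (_ | ⟨B, B', e, ⟨k, d, Φ, μ, h, rfl⟩, h1, h2, h3⟩) g
    · refine ⟨1, fun _ => ((g.s ^ 2 : ℝ) : ℂ), fun _ => none, fun f h0 => ?_⟩
      simp only [Fin.sum_univ_one, Complex.conj_ofReal]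
      exact ⟨pot t hl g h0, pot t hl g h0⟩
    · obtain ⟨Φ', a, b⟩ := t.bas.padj' e k d Φ h
      refine ⟨_, fun i => k.ρ g.L i μ * (g.s : ℂ) ^ (4 - d) * sg (g.e && e),
        fun i => some ⟨Φ i, Φ' i, e, ⟨k, d, Φ, _, h, rfl⟩, ⟨cj k, _, Φ', i, a, rfl⟩, b _,
          H755.adj_symm (b _)⟩, fun f h0 => ⟨cov t h g μ h0, ?_⟩⟩
      show ((B' f c.Q.vac : D) : Completion D) = _
      have sc : conj (sg (g.e && e)) = sg (g.e && e) := by cases (g.e && e) <;> simp [sg]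
      rw [adj_uniq h2 (b μ) h0, Let.cov t a g μ h0]
      simp only [map_mul, cpow_conj g.hs, sc]
      rfl
  · rintro (_ | p) y f h0
    · simpa using! hl.cov 1 GF.one y f one_pos H496.isLor_one h0
    · exact tra t (fld p.h) y h0
  · rintro (_ | ⟨B, B', e, ⟨k, d, Φ, μ, h, rfl⟩, h1, h2, h3⟩)
    · exact ⟨2, fun s hs => ⟨((s ^ 2 : ℝ) : ℂ), by simp [abs_of_pos (one_pos.trans_le hs)],
        fun f h0 => hl.cov s GF.one 0 f (one_pos.trans_le hs) H496.isLor_one h0⟩⟩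
    · refine ⟨⌈(4 - d).re⌉₊, fun s hs => ⟨_, ?_, fun f h0 =>
        Let.dil t (h.dim μ) (one_pos.trans_le hs) h0⟩⟩
      rw [Complex.norm_cpow_eq_rpow_re_of_pos (one_pos.trans_le hs), ← Real.rpow_natCast]
      exact Real.rpow_le_rpow_of_exponent_le hs (Nat.le_ceil _)
  · rfl
  · exact ⟨⟨fld p.h, fld p.h', p.a, fun _ _ => ⟨rfl, rfl⟩⟩, Option.some_ne_none _⟩
  · rintro e B ⟨k, d, Φ, μ, h, rfl⟩
    obtain ⟨Φ', a, b⟩ := t.bas.padj' e k d Φ h
    exact ⟨⟨Φ μ, Φ' μ, e, ⟨k, d, Φ, _, h, rfl⟩, ⟨cj k, _, Φ', μ, a, rfl⟩, b _,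
      H755.adj_symm (b _)⟩, rfl⟩

end

end Vale.Agent.P352X.EG
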