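import Vale.Agent.P352X.EG.Spec

/-!
# P352X, block EG, rows LIFT and BIC
-/

set_option linter.all false

open Filter Topology

namespace Vale.Agent.P352X.EG

open Vale.Agent.P352 Vale.Agent.P352.BW
open UniformSpace (Completion)
open ContinuousLinearMap (adjoint)

noncomputable section

namespace LiftAux

variable {H : Type*} [NormedAddCommGroup H] [InnerProductSpace ℂ H] [CompleteSpace H]
variable {K : Type*} [NormedAddCommGroup K] [InnerProductSpace ℂ K] [CompleteSpace K]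

theorem est (S : K →L[ℂ] H) (y : K →L[ℂ] K) (h : Commute (adjoint S ∘L S) y) (w : K) :
    ‖S (y w)‖ ≤ ‖y‖ * ‖S w‖ := by
  obtain ⟨A, hA⟩ : ∃ A, A = adjoint S ∘L S := ⟨_, rfl⟩
  have pA : A.IsPositive := hA ▸ ContinuousLinearMap.isPositive_adjoint_comp_self S
  have nA : ∀ v, inner ℂ v (A v) = ((‖S v‖ ^ 2 : ℝ) : ℂ) := fun v => by
    rw [hA, ContinuousLinearMap.comp_apply, ContinuousLinearMap.adjoint_inner_right,
      inner_self_eq_norm_sq_to_K]
    norm_cast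
  rw [← hA] at h
  have h' : Commute A (star y) := by
    have := h.star_star
    rwa [pA.isSelfAdjoint.star_eq] at this
  have hB : 0 ≤ algebraMap ℝ (K →L[ℂ] K) (‖y‖ ^ 2) - star y * y :=
    sub_nonneg.2 CStarAlgebra.star_mul_le_algebraMap_norm_sq
  have hc : Commute (algebraMap ℝ (K →L[ℂ] K) (‖y‖ ^ 2) - star y * y) A :=
    (Algebra.commute_algebraMap_left _ _).sub_left (h'.mul_right h).symm
  have hp := (ContinuousLinearMap.nonneg_iff_isPositive _).1 (Commute.mul_nonneg hB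
    ((ContinuousLinearMap.nonneg_iff_isPositive _).2 pA) hc)
  have h1 := hp.re_inner_nonneg_right w
  have e : (((algebraMap ℝ (K →L[ℂ] K) (‖y‖ ^ 2) - star y * y) * A) w) =
      ((‖y‖ ^ 2 : ℝ) : ℂ) • A w - adjoint y (A (y w)) := by
    rw [sub_mul, mul_assoc, ← h.eq, Algebra.algebraMap_eq_smul_one, smul_mul_assoc, one_mul]
    rfl
  rw [e, inner_sub_right, inner_smul_right, ContinuousLinearMap.adjoint_inner_right, nA, nA,
    ← Complex.ofReal_mul, ← Complex.ofReal_sub] at h1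
  have h2 : 0 ≤ ‖y‖ ^ 2 * ‖S w‖ ^ 2 - ‖S (y w)‖ ^ 2 := h1
  exact abs_le_of_sq_le_sq' (by rw [mul_pow]; linarith) (by positivity) |>.2

/-- the diagonal operator -/
def Dg (Y : H →L[ℂ] H) : WithLp 2 (H × H) →L[ℂ] WithLp 2 (H × H) :=
  (WithLp.prodContinuousLinearEquiv 2 ℂ H H).symm.toContinuousLinearMap ∘L Y.prodMap Y ∘L
    (WithLp.prodContinuousLinearEquiv 2 ℂ H H).toContinuousLinearMap

/-- an entry of an operator -/
def En (p : H × H →L[ℂ] H) (Q : WithLp 2 (H × H) →L[ℂ] WithLp 2 (H × H)) (i : H →L[ℂ] H × H) :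
    H →L[ℂ] H :=
  p ∘L (WithLp.prodContinuousLinearEquiv 2 ℂ H H).toContinuousLinearMap ∘L Q ∘L
    (WithLp.prodContinuousLinearEquiv 2 ℂ H H).symm.toContinuousLinearMap ∘L i

theorem Dg_apply (Y : H →L[ℂ] H) (u : WithLp 2 (H × H)) :
    Dg Y u = WithLp.toLp 2 (Y u.ofLp.1, Y u.ofLp.2) := rfl

theorem En_apply (p : H × H →L[ℂ] H) (Q : WithLp 2 (H × H) →L[ℂ] WithLp 2 (H × H))
    (i : H →L[ℂ] H × H) (v : H) : En p Q i v = p (Q (WithLp.toLp 2 (i v))).ofLp := rfl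

theorem Dg_adj (Y : H →L[ℂ] H) (u v : WithLp 2 (H × H)) :
    inner ℂ u (Dg Y v) = inner ℂ (Dg (star Y) u) v := by
  simp only [WithLp.prod_inner_apply, Dg_apply, ContinuousLinearMap.star_eq_adjoint,
    ContinuousLinearMap.adjoint_inner_left]

theorem En_comm {p : H × H →L[ℂ] H} {Q : WithLp 2 (H × H) →L[ℂ] WithLp 2 (H × H)}
    {i : H →L[ℂ] H × H} {Y : H →L[ℂ] H} (hp : ∀ u : H × H, p (Y u.1, Y u.2) = Y (p u))
    (hi : ∀ v, i (Y v) = (Y (i v).1, Y (i v).2)) (h : ∀ u, Q (Dg Y u) = Dg Y (Q u)) :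
    Y * En p Q i = En p Q i * Y := by
  ext v
  show Y (En p Q i v) = En p Q i (Y v)
  rw [En_apply, En_apply, hi, ← hp]
  exact congrArg (fun u => p u.ofLp) (h (WithLp.toLp 2 (i v))).symm

theorem dns2 (𝒜 : Set (H →L[ℂ] H)) (h1 : (1 : H →L[ℂ] H) ∈ 𝒜)
    (hm : ∀ Y ∈ 𝒜, ∀ Y' ∈ 𝒜, Y * Y' ∈ 𝒜) (hs : ∀ Y ∈ 𝒜, star Y ∈ 𝒜) (Z : H →L[ℂ] H)
    (hZ : ∀ x, (∀ Y ∈ 𝒜, Y * x = x * Y) → x * Z = Z * x) (a b c d : H)
    (h : ∀ Y ∈ 𝒜, inner ℂ c (Y a) = inner ℂ d (Y b)) : inner ℂ c (Z a) = inner ℂ d (Z b) := by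
  let G0 : Submodule ℂ (WithLp 2 (H × H)) :=
    Submodule.span ℂ {u | ∃ Y ∈ 𝒜, u = Dg Y (WithLp.toLp 2 (a, b))}
  let G := G0.topologicalClosure
  have ind : ∀ F : Submodule ℂ (WithLp 2 (H × H)), IsClosed (F : Set (WithLp 2 (H × H))) →
      (∀ Y ∈ 𝒜, Dg Y (WithLp.toLp 2 (a, b)) ∈ F) → G ≤ F := fun F hF hY =>
    Submodule.topologicalClosure_minimal _
      (Submodule.span_le.2 (by rintro _ ⟨Y, hY', rfl⟩; exact hY Y hY')) hF
  have gen : ∀ Y ∈ 𝒜, Dg Y (WithLp.toLp 2 (a, b)) ∈ G := fun Y hY =>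
    G0.le_topologicalClosure (Submodule.subset_span ⟨Y, hY, rfl⟩)
  have cG : IsClosed (G : Set (WithLp 2 (H × H))) := G0.isClosed_topologicalClosure
  have inv : ∀ Y ∈ 𝒜, ∀ u ∈ G, Dg Y u ∈ G := fun Y hY =>
    ind (G.comap (Dg Y).toLinearMap) (cG.preimage (Dg Y).continuous)
      fun Y' hY' => gen (Y * Y') (hm Y hY Y' hY')
  haveI : CompleteSpace G := cG.completeSpace_coe
  have com : ∀ Y ∈ 𝒜, ∀ u, G.starProjection (Dg Y u) = Dg Y (G.starProjection u) :=
    fun Y hY u => by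
      refine Submodule.eq_starProjection_of_mem_orthogonal
        (inv Y hY _ (G.starProjection_apply_mem u)) ?_
      rw [← map_sub, Submodule.mem_orthogonal]
      intro g hg
      rw [Dg_adj]
      exact Submodule.inner_right_of_mem_orthogonal (inv _ (hs Y hY) g hg)
        (G.sub_starProjection_mem_orthogonal u)
  have ent : ∀ (p : H × H →L[ℂ] H) (i : H →L[ℂ] H × H),
      (∀ (Y : H →L[ℂ] H) (u : H × H), p (Y u.1, Y u.2) = Y (p u)) →
      (∀ (Y : H →L[ℂ] H) v, i (Y v) = (Y (i v).1, Y (i v).2)) → ∀ v,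
      p (G.starProjection (WithLp.toLp 2 (i (Z v)))).ofLp =
        Z (p (G.starProjection (WithLp.toLp 2 (i v))).ofLp) := fun p i hp hi v =>
    DFunLike.congr_fun (hZ (En p G.starProjection i)
      fun Y hY => En_comm (hp Y) (hi Y) (com Y hY)) v
  have spl : ∀ s t : H, G.starProjection (WithLp.toLp 2 (s, t)) =
      G.starProjection (WithLp.toLp 2 (ContinuousLinearMap.inl ℂ H H s)) +
      G.starProjection (WithLp.toLp 2 (ContinuousLinearMap.inr ℂ H H t)) := fun s t => by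
    rw [← map_add, ← WithLp.toLp_add]
    simp
  have fix : G.starProjection (WithLp.toLp 2 (a, b)) = WithLp.toLp 2 (a, b) :=
    Submodule.starProjection_eq_self_iff.2 (gen 1 h1)
  have key : ∀ p : H × H →L[ℂ] H, (∀ (Y : H →L[ℂ] H) (u : H × H), p (Y u.1, Y u.2) = Y (p u)) →
      p (G.starProjection (WithLp.toLp 2 (Z a, Z b))).ofLp = Z (p (a, b)) := fun p hp => by
    rw [spl, WithLp.ofLp_add, map_add, ent p _ hp (by simp), ent p _ hp (by simp), ← map_add,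
      ← map_add, ← WithLp.ofLp_add, ← spl, fix]
  have fin := ind (LinearMap.ker (innerSL ℂ (WithLp.toLp 2 (c, -d))).toLinearMap)
    (ContinuousLinearMap.isClosed_ker _) (fun Y hY => by
      simp [WithLp.prod_inner_apply, Dg_apply, h Y hY])
    (G.starProjection_apply_mem (WithLp.toLp 2 (Z a, Z b)))
  have k1 := key (ContinuousLinearMap.fst ℂ H H) (fun _ _ => rfl)
  have k2 := key (ContinuousLinearMap.snd ℂ H H) (fun _ _ => rfl)
  simp only [ContinuousLinearMap.coe_fst', ContinuousLinearMap.coe_snd'] at k1 k2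
  have fin' : inner ℂ (WithLp.toLp 2 (c, -d)) (G.starProjection (WithLp.toLp 2 (Z a, Z b))) = 0 :=
    fin
  rw [WithLp.prod_inner_apply, k1, k2] at fin'
  simpa [← sub_eq_add_neg, sub_eq_zero] using fin'

end LiftAux

open LiftAux

theorem lift_row (H : Type*) [NormedAddCommGroup H] [InnerProductSpace ℂ H] [CompleteSpace H]
    (K : Type*) [NormedAddCommGroup K] [InnerProductSpace ℂ K] [CompleteSpace K] : LIFT H K := by
  intro j 𝒜 w0 y hj ham hss hP hd hy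
  let S : Submodule ℂ (H →L[ℂ] H) :=
    { carrier := 𝒜
      add_mem' := fun h h' => (ham _ h _ h').1
      zero_mem' := by simpa using (hss _ hP).2 0
      smul_mem' := fun s _ h => (hss _ h).2 s }
  let ev : H → S →ₗ[ℂ] H := fun v => (ContinuousLinearMap.apply ℂ H v).toLinearMap ∘ₗ S.subtype
  have de : DenseRange (ev (j w0)) := hd.mono (by rintro z ⟨Y, hY, e⟩; exact ⟨⟨Y, hY⟩, e⟩)
  have bd : ∀ Y : S, ‖ev (j (y w0)) Y‖ ≤ ‖y‖ * ‖ev (j w0) Y‖ := fun Y => by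
    refine est (Y.1 ∘L j) y ?_ w0
    ext z
    rw [ContinuousLinearMap.adjoint_comp]
    exact (hy _ (ham _ (hss _ Y.2).1 _ Y.2).2 z).symm
  obtain ⟨x, hx⟩ : ∃ x, x = (ev (j (y w0))).extendOfNorm (ev (j w0)) := ⟨_, rfl⟩
  have xe : ∀ Y ∈ 𝒜, x (Y (j w0)) = Y (j (y w0)) := fun Y hY =>
    hx ▸ LinearMap.extendOfNorm_eq de ⟨_, bd⟩ ⟨Y, hY⟩
  have ext : ∀ a b : H →L[ℂ] H, (∀ Y ∈ 𝒜, a (Y (j w0)) = b (Y (j w0))) → a = b := fun a b h =>
    DFunLike.coe_injective (Continuous.ext_on hd a.continuous b.continuous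
      (by rintro _ ⟨Y, hY, rfl⟩; exact h Y hY))
  have com : ∀ Y ∈ 𝒜, Y * x = x * Y := fun Y hY => ext _ _ fun Y' hY' => by
    show Y (x (Y' (j w0))) = x ((Y * Y') (j w0))
    rw [xe _ hY', xe _ (ham _ hY _ hY').2]
    rfl
  have xP : ∀ v, x (j (adjoint j v)) = j (y (adjoint j v)) := fun v =>
    DFunLike.congr_fun (ext (x ∘L j ∘L adjoint j) (j ∘L y ∘L adjoint j) fun Y hY => by
      show x ((j ∘L adjoint j * Y) (j w0)) = j (y (adjoint j (Y (j w0))))
      rw [xe _ (ham _ hP _ hY).2, hy Y hY]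
      rfl) v
  refine ⟨x, hx ▸ LinearMap.opNorm_extendOfNorm_le de (norm_nonneg _) bd, com, fun z => ?_,
    fun z => ext_inner_left ℂ fun v => ?_⟩
  · have := xP (j z)
    rwa [hj] at this
  · have h1 : j (adjoint j (x v)) = x (j (adjoint j v)) := DFunLike.congr_fun (com _ hP) v
    have h2 : adjoint j (x v) = y (adjoint j v) := by rw [← hj (adjoint j (x v)), h1, xP, hj]
    rw [ContinuousLinearMap.star_eq_adjoint, ContinuousLinearMap.star_eq_adjoint,
      ContinuousLinearMap.adjoint_inner_right, ← ContinuousLinearMap.adjoint_inner_left j,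
      ← ContinuousLinearMap.adjoint_inner_left j, h2, ContinuousLinearMap.adjoint_inner_right]

theorem bic_row (E : Type*) [NormedAddCommGroup E] [InnerProductSpace ℂ E] : BIC E :=
  fun 𝒜 M X X' h1 hm hs hM hX h => ⟨hX, fun Z hZ v w => dns2 𝒜 h1 hm hs Z
    (fun x hx => (VonNeumannAlgebra.mem_commutant_iff.1 hZ) x (hM x hx)) _ _ _ _
      fun Y hY => h Y hY v w⟩

end

end Vale.Agent.P352X.EG
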