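import Vale.Agent.P352X.EG.Spec

/-!
# P352X, block EG, row MU2: the rules of the product
-/

set_option linter.all false

open Filter Topology
open scoped ComplexConjugate

namespace Vale.Agent.P352X.EG

open Vale.Agent.P352X.EB

open Vale.Agent.P352 Vale.Agent.P352.GF Vale.Agent.P352.BW
open UniformSpace (Completion)
open Bornology (IsBounded)

noncomputable section

variable {D : Type*} [NormedAddCommGroup D] [InnerProductSpace ℂ D] {c : Cg D}

namespace MU2

/-- all wedges that contain a large bounded set -/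
def FG : Filter (Sh c) where
  sets := {S | ∃ K, IsBounded K ∧ ∀ g : Sh c, g.Adm K → g ∈ S}
  univ_sets := ⟨∅, Bornology.isBounded_empty, fun _ _ => trivial⟩
  sets_of_superset := fun ⟨K, a, b⟩ h => ⟨K, a, fun g hg => h (b g hg)⟩
  inter_sets := fun ⟨K, a, b⟩ ⟨K', a', b'⟩ => ⟨K ∪ K', a.union a', fun g hg =>
    ⟨b g fun x hx => hg x (.inl hx), b' g fun x hx => hg x (.inr hx)⟩⟩

variable {g : Sh c} {x y : Completion D →L[ℂ] Completion D} {K K' : Set V}
  {ξ ξ' η η' θ ζ ζ' : Completion D}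

theorem _root_.Vale.Agent.P352X.EG.Cm.star (h : Cm c g x) : Cm c g (star x) := by
  simpa only [Cm, star_mul, star_star, mul_assoc] using star_mem h

section
variable (s : SG c)
include s

theorem exg {P : Sh c → Prop} (h : ∀ᶠ g in FG, P g) : ∃ g, P g :=
  let ⟨K, a, b⟩ := h
  (s.ex K a).imp b

theorem su (v : Completion D) : star (g.U c) (g.U c v) = v :=
  DFunLike.congr_fun (Unitary.mem_iff.1 (s.uni g)).1 v

theorem us (v : Completion D) : g.U c (star (g.U c) v) = v :=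
  DFunLike.congr_fun (Unitary.mem_iff.1 (s.uni g)).2 v

theorem inn (v w : Completion D) : inner ℂ (g.U c v) (g.U c w) = inner ℂ v w := by
  rw [← inner_star, su s]

theorem _root_.Vale.Agent.P352X.EG.Cm.one : Cm c g 1 := by
  rw [Cm, mul_one, (Unitary.mem_iff.1 (s.uni g)).2]
  exact one_mem _

theorem _root_.Vale.Agent.P352X.EG.Cm.mul (h : Cm c g x) (h' : Cm c g y) : Cm c g (x * y) := by
  have := mul_mem h h'
  simp only [mul_assoc] at this
  rw [← mul_assoc (Star.star (g.U c)), (Unitary.mem_iff.1 (s.uni g)).1, one_mul] at this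
  simpa only [Cm, mul_assoc] using this

theorem _root_.Vale.Agent.P352X.EG.Cm.of (h : x ∈ (M0 c).commutant) : Cm c g (Star.star (g.U c) * x * g.U c) := by
  rw [Cm, ← mul_assoc, ← mul_assoc, (Unitary.mem_iff.1 (s.uni g)).2, one_mul, mul_assoc,
    (Unitary.mem_iff.1 (s.uni g)).2, mul_one]
  exact h

theorem _root_.Vale.Agent.P352X.EG.Cm.comm (h : Cm c g x) (hg : g.Adm K) : x ∈ (c.N K).commutant := by
  have := conj_comm (s.uni g) (s.loc g K hg) h
  rwa [← mul_assoc, ← mul_assoc, (Unitary.mem_iff.1 (s.uni g)).1, one_mul, mul_assoc,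
    (Unitary.mem_iff.1 (s.uni g)).1, mul_one] at this

theorem ext (h : ∀ᶠ g in FG, ∀ x, Cm c g x → inner ℂ (x c.Om) ζ = inner ℂ (x c.Om) ζ') :
    ζ = ζ' := by
  obtain ⟨g, h⟩ := exg s h
  rw [← su s (g := g) ζ, ← su s (g := g) ζ']
  refine congrArg _ (s.dense.eq_of_inner_right ℂ fun _ ⟨Y, hY, e⟩ => ?_)
  simpa only [ContinuousLinearMap.mul_apply, (s.vac g).1, star_inner, e] using h _ (.of s hY)

theorem prd (h : Prd (M0 c) c.Om (g.U c ξ') (g.U c η) (g.U c ζ)) (hx : Cm c g x) :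
    inner ℂ (x c.Om) ζ = inner ℂ (x ξ') η := by
  simpa only [ContinuousLinearMap.mul_apply, (s.vac g).2, su s, inn s] using h _ hx

theorem prg (h : Pr (M0 c) c.Om (g.U c ξ) (g.U c ξ')) (hx : Cm c g x) :
    inner ℂ (x c.Om) ξ = inner ℂ ξ' (star x c.Om) := by
  simpa only [star_mul, star_star, ContinuousLinearMap.mul_apply, (s.vac g).2, inn s] using
    pr_iff'.1 h _ hx

theorem back {f : ℕ → Completion D} (h : Tendsto f atTop (𝓝 (g.U c ζ))) :
    Tendsto (fun n => star (g.U c) (f n)) atTop (𝓝 ζ) := by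
  simpa only [su s, Function.comp_def] using ((star (g.U c)).continuous.tendsto _).comp h

end

section
variable (m : MU1 c)
include m

theorem lsymm (h : Lp c ξ ξ') : Lp c ξ' ξ := h.imp fun K a => ⟨a.1, m.symm _ _ _ a.2⟩

theorem both (h : Lp c ξ ξ') (h' : D1 c η) :
    ∃ K η', IsBounded K ∧ Loc c K ξ ξ' ∧ Loc c K η η' :=
  let ⟨K, a, b⟩ := h
  let ⟨η', K', a', b'⟩ := h'
  ⟨K ∪ K', η', a.union a', m.mono _ _ _ _ Set.subset_union_left b,
    m.mono _ _ _ _ Set.subset_union_right b'⟩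

theorem d1 (h : Lp c ξ ξ') (h' : D1 c η) : D1 c (ml c ξ' η) :=
  let ⟨K, _, a, b, b'⟩ := both m h h'
  ⟨_, K, a, (m.prod K _ _ _ _ a b b').1⟩

variable (s : SG c)
include s

theorem evR (h : Lp c ξ ξ') (h' : D1 c η) : ∀ᶠ g in FG, ∀ x, Cm c g x →
    inner ℂ (x c.Om) (ml c ξ' η) = inner ℂ (x ξ') η :=
  let ⟨K, _, a, b, b'⟩ := both m h h'
  ⟨K, a, fun g hg _ => prd s ((m.prod K _ _ _ _ a b b').2.1 g hg)⟩

theorem evC (h : Lp c ξ ξ') (h' : D1 c η) : ∀ᶠ g in FG,
    ∃ b : ℕ → Completion D →L[ℂ] Completion D, (∀ n, Cm c g (b n)) ∧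
      Tendsto (fun n => b n c.Om) atTop (𝓝 η) ∧ Tendsto (fun n => b n ξ) atTop (𝓝 (ml c ξ' η)) := by
  obtain ⟨K, _, a, b, b'⟩ := both m h h'
  refine ⟨K, a, fun g hg => ?_⟩
  obtain ⟨b, b1, b2, b3⟩ := (m.prod K _ _ _ _ a b b').2.2 g hg
  refine ⟨fun n => star (g.U c) * b n * g.U c, fun n => .of s (b1 n), ?_, ?_⟩
  · simpa only [ContinuousLinearMap.mul_apply, (s.vac g).1] using back s b2
  · simpa only [ContinuousLinearMap.mul_apply] using back s b3

theorem evW (h : Lp c ξ ξ') (h1 : D1 c η) (h2 : D1 c θ) : ∀ᶠ g in FG, ∀ x, Cm c g x →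
    inner ℂ (x (ml c ξ θ)) η = inner ℂ (x θ) (ml c ξ' η) := by
  filter_upwards [evR m s h h1, evC m s (lsymm m h) h2] with g a ⟨b, b1, b2, b3⟩ x hx
  exact tendsto_nhds_unique (((x.continuous.tendsto _).comp b3).inner tendsto_const_nhds)
    ((((x.continuous.tendsto _).comp b2).inner tendsto_const_nhds).congr fun n =>
      a _ (hx.mul s (b1 n)))

end

theorem lgp (s : SG c) (m : MU1 c) (e : Bool) (h : Loc c K ξ ξ') :
    Loc c K (c.gp e ξ) (c.gp e ξ') := by
  have := m.U K ξ ξ' (Sh.gm c e) h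
  rw [(s.gm e).1] at this
  refine m.mono _ _ _ _ ?_ this
  rintro _ ⟨x, hx, rfl⟩
  rwa [(s.gm e).2]

theorem gp_vac (s : SG c) (e : Bool) : c.gp e c.Om = c.Om := by
  cases e
  exacts [rfl, s.gv]

theorem gp_star (s : SG c) (e : Bool) : star (c.gp e) = c.gp e := by
  cases e
  exacts [star_one _, s.gs]

theorem sg_sq (e : Bool) (z : Completion D) : sg e • sg e • z = z := by
  cases e <;> simp [sg]

theorem loc0 (t : E0 c) (m : MU1 c) (e : Bool) (hK : IsBounded K) (hK' : IsBounded K')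
    (hs : SepK K K') (h : Loc c K ξ ξ') (h' : Loc c K' η η') (p : c.Γ η = sg e • η)
    (p' : c.Γ η' = sg e • η') : ml c η ξ' = ml c (c.gp e ξ) η' := by
  have s := t.sg
  obtain ⟨g0, g0', hg, hg', sub, hs⟩ := hs
  let g : Sh c := ⟨g0, false⟩
  let g' : Sh c := ⟨g0', false⟩
  have l : Lp c ξ' ξ := ⟨K, hK, m.symm _ _ _ h⟩
  have l2 : Lp c (c.gp e ξ') (c.gp e ξ) := ⟨K, hK, m.symm _ _ _ (lgp s m e h)⟩
  have l' : Lp c η' η := ⟨K', hK', m.symm _ _ _ h'⟩
  obtain ⟨B, hB, a⟩ := (evR m s l' ⟨_, l⟩).and (evR m s l2 ⟨_, l'⟩)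
  obtain ⟨k0, hk, ne⟩ := hs B hB
  let k : Sh c := ⟨k0, false⟩
  refine (s.rsc _ (((s.opn k).inter (s.opn g)).inter (s.opn g')) ne).eq_of_inner_right ℂ
    fun _ ⟨x, q, ex⟩ => ?_
  have xk := q k fun _ hz => hz.1.1
  rw [← ex, (a k hk).1 x xk, (a k hk).2 x xk]
  obtain ⟨Z, z1, z2, z3, -⟩ := (t.stb.pr _ _ _ _ (h' g' hg')).trunc s.dense
  have lim : ∀ {f : ℕ → Completion D} {ζ}, c.Γ ζ = sg e • ζ → Tendsto f atTop (𝓝 (g'.U c ζ)) →
      Tendsto (fun n => star (g'.U c) (f n) + sg e • c.Γ (star (g'.U c) (f n))) atTop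
        (𝓝 (ζ + ζ)) := fun {f ζ} p h => by
    have := (back s h).add (((c.Γ.continuous.tendsto _).comp (back s h)).const_smul (sg e))
    rwa [p, sg_sq] at this
  have key : inner ℂ (x (η + η)) ξ' = inner ℂ (x (c.gp e ξ)) (η' + η') := by
    refine tendsto_nhds_unique (((x.continuous.tendsto _).comp (lim p z2)).inner tendsto_const_nhds)
      ((tendsto_const_nhds.inner (lim p' z3)).congr fun n => ?_)
    have y0 := s.back g' _ (z1 n)
    set y := star (g'.U c) * Z n * g'.U c with hy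
    have y1 : y + sg e • (c.Γ * y * c.Γ) ∈ c.N (g'.act ⁻¹' W0) :=
      add_mem y0 ((c.N _).toStarSubalgebra.smul_mem (c.hN.gam _ _ y0) _)
    have y2 : Cm c g ((y + sg e • (c.Γ * y * c.Γ)) * c.gp e) := by
      have y3 := c.hN.mono _ _ sub _ y0
      cases e
      · simpa [sg, Cg.gp] using s.ev g _ y3
      · simpa [sg, Cg.gp, sub_eq_add_neg] using s.od g _ y3
    have := prg s (t.stb.pr _ _ _ _ (h g hg)).symm ((q g fun _ hz => hz.1.2).mul s y2)
    rw [← mul_assoc] at this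
    nth_rw 2 [← comm_mul y1 ((q g' fun _ hz => hz.2).comm s fun _ hz => hz)] at this
    have sc : star (sg e) = sg e := by cases e <;> simp [sg]
    rw [star_mul, gp_star s, ContinuousLinearMap.mul_apply (c.gp e), ← gp_star s e, inner_star,
      gp_star s] at this
    simpa only [hy, star_mul, star_star, star_add, star_smul, sc, s.gs, gp_vac s, s.gv,
      ContinuousLinearMap.mul_apply, ContinuousLinearMap.add_apply,
      ContinuousLinearMap.smul_apply, (s.vac g').1, inner_star, Function.comp_def] using this.symm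
  rw [map_add, inner_add_left, inner_add_right] at key
  linear_combination key / 2

end MU2

open MU2 in
theorem mu2_row (t : E0 c) (m : MU1 c) : MU2 c where
  one ξ ξ' h := ext t.sg <| by
    obtain ⟨K, a, b⟩ := id h
    filter_upwards [evR m t.sg h ⟨_, m.vac⟩, show ∀ᶠ g in FG, g.Adm K from ⟨K, a, fun _ => id⟩]
      with g e hg x hx
    rw [e x hx, prg t.sg (t.stb.pr _ _ _ _ (b g hg)) hx, inner_star]
  add_r ξ ξ' η θ h h1 h2 := ext t.sg <| by
    filter_upwards [evR m t.sg h h1, evR m t.sg h h2,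
      evR m t.sg h ⟨_, m.add _ _ _ _ h1.choose_spec h2.choose_spec⟩] with g a1 a2 a3 x hx
    rw [inner_add_right, a1 x hx, a2 x hx, a3 x hx, inner_add_right]
  smul_r ξ ξ' η z h h1 := ext t.sg <| by
    filter_upwards [evR m t.sg h h1, evR m t.sg h ⟨_, m.smul z _ _ h1.choose_spec⟩]
      with g a1 a2 x hx
    rw [inner_smul_right, a1 x hx, a2 x hx, inner_smul_right]
  add_l ξ ξ' ζ ζ' η h h' h1 := ext t.sg <| by
    filter_upwards [evR m t.sg h h1, evR m t.sg h' h1, evR m t.sg (m.add _ _ _ _ h h') h1]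
      with g a1 a2 a3 x hx
    rw [inner_add_right, a1 x hx, a2 x hx, a3 x hx, map_add, inner_add_left]
  smul_l ξ ξ' η z h h1 := ext t.sg <| by
    filter_upwards [evR m t.sg h h1, evR m t.sg (m.smul z _ _ h) h1] with g a1 a2 x hx
    rw [inner_smul_right, a1 x hx, a2 x hx, map_smul, inner_smul_left, Complex.conj_conj]
  herm ξ ξ' η θ h h1 h2 :=
    let ⟨_, a⟩ := exg t.sg (evW m t.sg (lsymm m h) h2 h1)
    a 1 (.one t.sg)
  cov ξ ξ' η g h h1 := by
    obtain ⟨K, η', a, b, b'⟩ := both m h h1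
    refine (m.eq _ _ _ _ (t.sg.bdd g K a) fun k hk => ?_).symm
    have := (m.prod K _ _ _ _ a b b').2.1 (k.mul g) fun x hx => by
      rw [t.sg.act_mul]
      exact hk _ ⟨x, hx, rfl⟩
    rwa [t.sg.U_mul] at this
  loc K K' ξ ξ' η η' θ e hK hK' hs h h' p p' h1 := ext t.sg <| by
    have l : Lp c ξ ξ' := ⟨K, hK, h⟩
    have l2 : Lp c (c.gp e ξ) (c.gp e ξ') := ⟨K, hK, lgp t.sg m e h⟩
    have l' : Lp c η η' := ⟨K', hK', h'⟩
    filter_upwards [evR m t.sg l (d1 m l' h1), evR m t.sg l' (d1 m l2 h1),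
      evW m t.sg l' h1 ⟨_, lsymm m l⟩, evW m t.sg l2 h1 ⟨_, lsymm m l'⟩] with g a1 a2 a3 a4 x hx
    rw [a1 x hx, a2 x hx, ← a3 x hx, ← a4 x hx, loc0 t m e hK hK' hs h h' p p']
  aff K X X' η w hK hA h h1 := by
    obtain ⟨g, ⟨b, b1, b2, b3⟩, hg⟩ := exg t.sg ((evC m t.sg h h1).and
      (show ∀ᶠ g in FG, g.Adm K from ⟨K, hK, fun _ => id⟩))
    rw [← inner_conj_symm, ← inner_conj_symm η]
    exact congrArg _ (tendsto_nhds_unique (tendsto_const_nhds.inner b3)
      ((tendsto_const_nhds.inner b2).congr fun n => hA.2 _ ((b1 n).comm t.sg hg) _ w))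

end

end Vale.Agent.P352X.EG
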