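import Vale.Agent.P352X.EG.Spec

/-!
# P352X, block EG, row OG: analytic continuation of the boosts on one-field vectors
-/

set_option linter.all false

open MeasureTheory Filter Topology
open scoped SchwartzMap ComplexConjugate

namespace Vale.Agent.P352X.EG

open Vale.Agent.P352 Vale.Agent.P352.BW Vale.Agent.P352.BW.T
open GF (Ix V Fn Fld Theory bas sim)
open H246 H496 H746 H755 H15
open O649
open UniformSpace (Completion)

theorem og_row {D : Type*} [NormedAddCommGroup D] [InnerProductSpace ℂ D] (c : Cg D) : OG c := by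
  intro a b ha hb hab n Φ κ f W x x' hΦ hκ hf hW hx
  obtain ⟨F, rfl⟩ := exists_fl hf.1
  have hF := isTest_of_in hf
  choose μ K using fun ν => exists_cvd (Q := c.Q) (kf (hΦ ν)) (kf_cov (hΦ ν))
  set G : ℂ → Completion D := fun z => ∑ ν, κ z ν • (K ν).J (gz a b (μ ν) F z) with hG
  have hval : ∀ t : ℝ, G t = W t x := by
    intro t
    rw [(hx t).1, hG]
    refine Finset.sum_congr rfl fun ν _ => ?_
    rw [gz_real ha hb hab (K ν).temp (K ν).cone F hF, (K ν).J_toL]
    exact congrArg (fun g => κ t ν • ((Φ ν g c.Q.vac : D) : Completion D))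
      (cp_bi (ha := ha) (hb := hb) (hab := hab) t F).symm
  have hval' : ∀ t : ℝ, G (t - Complex.I / 2) = W t x' := by
    intro t
    rw [(hx t).2, hG]
    refine Finset.sum_congr rfl fun ν _ => ?_
    rw [gz_half ha hb hab (K ν).temp (K ν).cone F hF, (K ν).J_toL]
    refine congrArg (fun g => κ (t - Complex.I / 2) ν • ((Φ ν g c.Q.vac : D) : Completion D)) ?_
    rw [← cp_bi (ha := ha) (hb := hb) (hab := hab), ← cp_rq (ha := ha) (hb := hb) (hab := hab)]
    rfl
  have hc : ContinuousOn G T.Sm := by
    rw [hG]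
    refine continuousOn_finset_sum _ fun ν _ => ?_
    exact (hκ ν).cont.smul ((K ν).J.continuous.comp_continuousOn
      (cont_gz ha hb hab (K ν).temp (K ν).cone F hF))
  have hn : ∀ y : Completion D, Nice fun z => inner ℂ y (G z) := by
    intro y
    have e : (fun z => inner ℂ y (G z)) = fun z => ∑ ν, κ z ν *
        inner ℂ (ContinuousLinearMap.adjoint (K ν).J y) (gz a b (μ ν) F z) := by
      funext z
      rw [hG]
      simp only [inner_sum, inner_smul_right, ContinuousLinearMap.adjoint_inner_left]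
    rw [e]
    exact Nice.sum _ fun ν _ => (hκ ν).mul (nice_gz ha hb hab (K ν).temp (K ν).cone F hF _)
  set C : ℝ := max ‖x‖ ‖x'‖ with hC
  have hb' : ∀ z ∈ T.Sm, ‖G z‖ ≤ C := by
    intro z hz
    have h1 : ‖inner ℂ (G z) (G z)‖ ≤ ‖G z‖ * C := by
      refine (hn (G z)).pl ?_ ?_ hz.1 hz.2
      · intro t
        refine (norm_inner_le_norm _ _).trans ?_
        rw [hval, hW]
        gcongr
        exact le_max_left _ _
      · intro t
        refine (norm_inner_le_norm _ _).trans ?_
        rw [hval', hW]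
        gcongr
        exact le_max_right _ _
    have h2 : ‖inner ℂ (G z) (G z)‖ = ‖G z‖ * ‖G z‖ := by
      rw [inner_self_eq_norm_sq_to_K, norm_pow, norm_algebraMap', norm_norm, pow_two]
    rw [h2] at h1
    by_cases h3 : ‖G z‖ = 0
    · rw [h3]
      exact (norm_nonneg _).trans (le_max_left _ _)
    · exact le_of_mul_le_mul_left h1 (lt_of_le_of_ne (norm_nonneg _) (Ne.symm h3))
  have hopen : IsOpen SmI := (isOpen_lt continuous_const Complex.continuous_im).inter
    (isOpen_lt Complex.continuous_im continuous_const)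
  refine ⟨G, ?_, hc, ⟨C, hb'⟩, fun t => ⟨hval t, hval' t⟩⟩
  exact nrm_diff hopen (hc.mono fun z hz => ⟨hz.1.le, hz.2.le⟩) fun y => (hn y).diff

end Vale.Agent.P352X.EG
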