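import Vale.Agent.P352X.EG.Spec
import Vale.Agent.P352X.EB.Wire
import Vale.Agent.P352X.CA.W2

/-!
# P352X, block EG, row POT: the potential
-/

set_option linter.all false

open MeasureTheory Filter Topology
open scoped SchwartzMap ComplexConjugate ContDiff

namespace Vale.Agent.P352X.EG

open Vale.Agent.P352X.EB

open Vale.Agent.P352 Vale.Agent.P352.GF Vale.Agent.P352.BW Vale.Agent.P352.H246
open Vale.Agent.P352.H496 Vale.Agent.P352.H755 Vale.Agent.P352.H15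
open UniformSpace (Completion)
open ContinuousLinearMap (adjoint)

noncomputable section

variable {D : Type*} [NormedAddCommGroup D] [InnerProductSpace ℂ D]

namespace Pt

open CTXp in
/-- the context with a given net -/
theorem ctxN (Q : Theory D) (T : Ix → Ix → Fld D) (A : (V → V) → D → D)
    (N : Set V → VonNeumannAlgebra (Completion D)) (hT : Q.IsStress T) (hP : ND.PCh Q T A)
    (hG : TfGen Q) (hN : LNm Q A N) (hU : UVac Q) :
    ∃ c : Ctx D, c.Q = Q ∧ c.T = T ∧ c.N = N ∧ c.tp := by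
  obtain ⟨wp, wm, t, hTP⟩ := tp_of Q T hT A hP hG N hN hU
  obtain ⟨S, hS⟩ := S0.grp0 (H268.s0 hG hN)
  obtain ⟨E⟩ := hN.modW fr.ha fr.hb fr.hab
  obtain ⟨l, hl, -, -, wl, -⟩ := H246.main hT
  have e1 : (fun (y : V) (z : Completion D) => Ut Q y z) = fun y => Ue Q 1 GF.one y := by
    funext y z
    exact Ug_apply Q one_pos H496.isLor_one y z
  have e2 : (fun (y : P3) (z : Completion D) => Ut Q (y.1 • va) (Ga Q y.2 z)) =
      fun y z => Ue Q 1 GF.one (y.1 • va) (Ue Q 1 (Kin.Gm va ex y.2) 0 z) := by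
    funext y z
    rw [Ut, Ga, Ug_apply Q one_pos H496.isLor_one, gmw, Ug_apply Q one_pos (fr.lor _)]
  obtain ⟨bt⟩ : Nonempty (SN.BC (fun p y : V => GF.mdot p y) fun y z => Ut Q y z) := by
    rw [e1]
    exact Kin.exists_TC hN.toRep
  obtain ⟨a3⟩ : Nonempty (SN.BC pr3 fun (y : P3) z => Ut Q (y.1 • va) (Ga Q y.2 z)) := by
    rw [e2]
    exact SN.exists_BC pair3 ((Kin.urep_a hN.toRep va).prod (Kin.urep_G hN.toRep fr)
      fun x y v => (Kin.G_a hN.toRep fr y x v).symm)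
  refine ⟨⟨Q, T, A, N, S, l, E, wp, wm, t, bt, a3, hT, hP, hG, hN, hU, hS.grp1 hG hN,
    fun a z w ha hz => (H268.gr0 hS).pos hG hN a z w ha hz, hl, wl, fun s z => ?_, True,
    fun _ => hTP⟩, rfl, rfl, rfl, trivial⟩
  have h1 : Real.sqrt (Real.exp (-(2 * Real.pi * s)) * Real.exp (-(-(2 * Real.pi * s)))) = 1 := by
    rw [← Real.exp_add, add_neg_cancel, Real.exp_zero, Real.sqrt_one]
  have h2 : ∀ u : ℝ, Real.sqrt (Real.exp u / Real.exp (-u)) = Real.exp u := fun u => by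
    rw [← Real.exp_sub, sub_neg_eq_add, Real.exp_add, Real.sqrt_mul_self (Real.exp_pos u).le]
  have h3 : Real.sqrt (Real.exp (-(-(2 * Real.pi * s))) / Real.exp (-(2 * Real.pi * s))) =
      Real.exp (2 * Real.pi * s) := by
    rw [neg_neg]
    exact h2 _
  have hL : IsLor (bst va vb (Real.exp (-(2 * Real.pi * s)) - 1) (Real.exp (2 * Real.pi * s) - 1)) :=
    isLor_bst fr.ha fr.hb fr.hab (by linarith [Real.exp_pos (-(2 * Real.pi * s))]) (by
      rw [add_sub_cancel, add_sub_cancel, ← Real.exp_add, neg_add_cancel, Real.exp_zero])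
  rw [Bo, Usc, h1, h2, h3, Ug_apply Q one_pos hL]
  exact hN.bw hG va vb s _ E z fr.ha fr.hb fr.hab hL fun x => sim_bst _ _ _ _ x

/-- smooth tame pairs lift -/
theorem lift {H K : Type*} [NormedAddCommGroup H] [InnerProductSpace ℂ H] [CompleteSpace H]
    [NormedAddCommGroup K] [InnerProductSpace ℂ K] [CompleteSpace K] {j : K →L[ℂ] H}
    (hj : ∀ z, ‖j z‖ = ‖z‖) {M : VonNeumannAlgebra K} {M' : VonNeumannAlgebra H} {Ω ξ ξ' : K}
    (h1 : ∀ y ∈ M, ∃ x ∈ M', ‖x‖ ≤ ‖y‖ ∧ (∀ z, x (j z) = j (y z)) ∧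
      ∀ z, star x (j z) = j (star y z))
    (h2 : ∀ y ∈ M.commutant, ∃ x ∈ M'.commutant, ‖x‖ ≤ ‖y‖ ∧ ∀ z, x (j z) = j (y z))
    (h : Stm M Ω ξ ξ') : Stm M' (j Ω) (j ξ) (j ξ') := by
  obtain ⟨N, h⟩ := h
  refine ⟨N, fun k => ?_⟩
  obtain ⟨C, a, b, hC, h3, h4, h5⟩ := h k
  choose x x1 x2 x3 x4 using fun n => h1 _ (h3 n).1
  choose y y1 y2 y3 y4 using fun n => h1 _ (h3 n).2.1
  refine ⟨C, x, y, hC, fun n => ⟨x1 n, y1 n, (x2 n).trans (h3 n).2.2.1,
    (y2 n).trans (h3 n).2.2.2.1, ?_⟩, ?_, ?_⟩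
  · obtain ⟨a1, p1, a2, p2, p3, p4, p5, p6⟩ := (h3 n).2.2.2.2
    obtain ⟨b1, q1, q2, q3⟩ := h2 _ p1
    obtain ⟨b2, r1, r2, r3⟩ := h2 _ p2
    exact ⟨b1, q1, b2, r1, by rw [x3, q3, p3], by rw [x4, r3, p4], q2.trans p5, r2.trans p6⟩
  · simpa only [ContinuousLinearMap.add_apply, x3, y3, ← map_add, ← map_sub, hj] using h4
  · simpa only [star_add, ContinuousLinearMap.add_apply, x4, y4, ← map_add, ← map_sub, hj] using h5

end Pt

open Pt

theorem pot_row {c : Cg D} (t : E0 c) (T : Ix → Ix → Fld D) : POT c T := by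
  intro E q τ a j N h hN hL
  obtain ⟨k, rfl, rfl, rfl, e⟩ := ctxN q τ a N h.st h.pch (tfGen_of h.td) hN h.uv
  haveI : Fact k.tp := ⟨e⟩
  have t0 := e0_thm k (main k).1
  have st := stl_row t0 (tml_row t0 (flow_row t0) (jl_row t0) (EB.mb_row t0 h.eb))
  have G := t0.grp
  have hi : ∀ z w, inner ℂ (j z) (j w) = inner ℂ z w := fun z w => by
    rw [← ContinuousLinearMap.adjoint_inner_right, h.iso]
  have hj : ∀ z, ‖j z‖ = ‖z‖ := fun z => by
    rw [@norm_eq_sqrt_re_inner ℂ, hi]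
    exact (norm_eq_sqrt_re_inner (𝕜 := ℂ) z).symm
  have hv : (k.Q.vac : D) = c.Q.vac := Completion.coe_injective D ((h.coe _).symm.trans h.vac)
  have hT : ∀ m n f, IsTest f → ((T m n f c.Q.vac : D) : Completion D) =
      j (k.T m n f k.Q.vac : E) := fun m n f hf => by rw [h.coe, h.eq _ _ _ _ hf, hv]
  refine ⟨fun f => j (k.l f), fun f g z hf hg => ?_, j.continuous.comp k.hl.cont, fun f hf => ?_,
    fun s L y f hs hL hf => ?_, fun f _ => h.gam _, fun f hf => ?_,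
    LinearMap.range j.toLinearMap, fun m n f hf => ⟨_, (hT m n f hf).symm⟩, fun f _ => ⟨_, rfl⟩, ?_⟩
  · simp only [k.hl.lin f g z hf hg, map_add, map_smul]
  · rw [← map_smul, k.hl.trace f hf]
    simp only [GF.tr, Fin'.coe_sum, Completion.coe_smul, map_sum, map_smul, hT _ _ f hf]
  · rw [← h.U _ _ _ _ hs hL, ← map_smul]
    exact congrArg j (EB.Let.pot t0 ⟨s, L, y, hs, hL⟩ hf)
  · have := lift hj (M' := M0 c) (fun y hy => (hL va vb G.na G.nb G.nab y hy).imp fun x p =>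
      ⟨p.1, p.2.2⟩) (fun y hy => by
        rw [t0.jc.dual va vb 0 G.na G.nb (by rw [G.nab]; exact one_pos)] at hy
        exact (hL vb va G.nb G.na (by simp only [← G.nab, GF.mdot, mul_right_comm]) y hy).imp fun x p =>
          ⟨p.2.1, p.2.2.1, p.2.2.2.1⟩) (st f hf)
    rwa [show j k.Om = c.Om from h.vac] at this
  · rintro _ ⟨η, rfl⟩ w
    have h1 := CA.mix_ctx k (adjoint j w) η
    rw [ContinuousLinearMap.adjoint_inner_right, h.vac, ← hi, h.vac] at h1
    refine h1.congr' (eventually_nhdsWithin_of_forall fun r hr => ?_)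
    obtain ⟨p1, p2⟩ := CA.lsc_pos hr
    show inner ℂ η (Ue _ _ _ _ _) = inner ℂ (j η) (Ue _ _ _ _ _)
    have u := G.uni (Real.sqrt (r * 1)) (TPD.Lsc r 1) 0
    rw [← Ug_apply _ p1 p2, ← Ug_apply _ p1 p2, ← star_inner, ContinuousLinearMap.adjoint_inner_right,
      ← ContinuousLinearMap.inner_map_map_of_mem_unitary (t.sg.uni ⟨⟨_, _, 0, p1, p2⟩, false⟩)]
    show inner ℂ (Ug c.Q _ _ _ _) _ = _
    rw [← h.U _ _ _ _ p1 p2]
    exact congrArg (fun z => inner ℂ (j z) _) (DFunLike.congr_fun u.2 η)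

end

end Vale.Agent.P352X.EG
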