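import Vale.Agent.P352X.EG.Spec
import Vale.Agent.P352X.CG.REP

/-!
# P352X, block EG, row RPX: the complex boosts in a representation
-/

set_option linter.all false

open Filter Topology
open scoped ComplexConjugate

namespace Vale.Agent.P352X.EG

open Vale.Agent.P352 Vale.Agent.P352.GF Vale.Agent.P352.BW
open Vale.Agent.P352X.CA (As mm)
open Vale.Agent.P352X.CA.Mat (e0' e1 e2' e3 one_eq)
open Vale.Agent.P352X.CA.G.Rp0 (bo bo_eq bo_lor bo_add sg_lin sg_zero)
open Complex (I)
open Real (cosh sinh cos sin)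

noncomputable section

namespace Rpx

variable {n : ℕ}

/-- the one parameter group of a matrix -/
def xp (K : Matrix (Fin n) (Fin n) ℂ) (z : ℂ) : Matrix (Fin n) (Fin n) ℂ := NormedSpace.exp (z • K)

variable (K : Matrix (Fin n) (Fin n) ℂ)

theorem xp_zero : xp K 0 = 1 := by rw [xp, zero_smul, NormedSpace.exp_zero]

theorem xp_add (z z' : ℂ) : xp K (z + z') = xp K z * xp K z' := by
  rw [xp, add_smul]
  exact Matrix.exp_add_of_commute _ _ (((Commute.refl K).smul_left z).smul_right z')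

section nrm

open scoped Matrix.Norms.Operator

theorem xp_der (z : ℂ) (a b : Fin n) : HasDerivAt (fun z => xp K z a b) ((xp K z * K) a b) z :=
  (Matrix.entryLinearMap ℂ ℂ a b).toContinuousLinearMap.hasFDerivAt.comp_hasDerivAt z
    (hasDerivAt_exp_smul_const K z)

theorem xp_bd : ∃ r : ℝ, 0 ≤ r ∧ ∀ z a b, ‖xp K z a b‖ ≤ Real.exp (r * ‖z‖) := by
  refine ⟨‖K‖, norm_nonneg _, fun z a b => ?_⟩
  haveI : Nonempty (Fin n) := ⟨a⟩
  have h1 : ‖xp K z a b‖ ≤ ‖xp K z‖ := by
    have := (norm_le_pi_norm _ a).trans (Matrix.linfty_opNorm_mulVec (xp K z) (Pi.single b 1))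
    simpa [Pi.norm_single] using this
  refine h1.trans ((NormedSpace.exp_series_hasSum_exp' (𝕂 := ℂ) (z • K)).norm_le_of_bounded
    (Real.exp_eq_exp_ℝ ▸ NormedSpace.expSeries_div_hasSum_exp (‖K‖ * ‖z‖)) fun i => ?_)
  rw [norm_smul, norm_inv, Complex.norm_natCast, div_eq_inv_mul, mul_comm ‖K‖, ← norm_smul]
  gcongr
  exact norm_pow_le _ _

end nrm

theorem ent {f : ℂ → ℂ} (hf : Differentiable ℂ f) (h : ∀ t : ℝ, f t = 0) (z : ℂ) : f z = 0 := by
  have k : Tendsto (fun t : ℝ => (t : ℂ)) (𝓝[≠] 0) (𝓝[≠] 0) :=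
    tendsto_nhdsWithin_iff.2 ⟨(Complex.continuous_ofReal.tendsto' 0 0 rfl).mono_left
      nhdsWithin_le_nhds, eventually_mem_nhdsWithin.mono fun t ht => by simpa using ht⟩
  exact congrFun (AnalyticOnNhd.eq_of_frequently_eq (fun x _ => hf.analyticAt x)
    analyticOnNhd_const (k.frequently (Frequently.of_forall h))) z

variable (k : Rp)

/-- one parameter groups of Lorentz transformations -/
theorem grp {c : ℝ → Ix → V} {w : Ix → V} (h0 : c 0 = GF.one) (h1 : ∀ t, IsLor (c t))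
    (h2 : ∀ s t, mm (c s) (c t) = c (s + t)) (h3 : ∀ m n, HasDerivAt (fun e => c e m n) (w m n) 0)
    (t : ℝ) : ∃ z : ℂ, (z = 1 ∨ z = -1) ∧ k.ρ (c t) = z • xp (CA.G.sg k w) t := by
  obtain ⟨K, hK⟩ : ∃ K, K = CA.G.sg k w := ⟨_, rfl⟩
  obtain ⟨N, hN⟩ : ∃ N : ℝ → Matrix (Fin k.n) (Fin k.n) ℂ,
      N = fun t : ℝ => xp K (-t) * k.ρ (c t) := ⟨_, rfl⟩
  have N0 : N 0 = 1 := by simp [hN, xp_zero, h0, k.id]
  have dN : ∀ a b, HasDerivAt (fun t => N t a b) 0 0 := fun a b => by
    have d1 : ∀ j, HasDerivAt (fun t : ℝ => xp K (-t) a j) (-K a j) 0 := fun j => by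
      have := ((xp_der K (-((0 : ℝ) : ℂ)) a j).comp (0 : ℂ) (by
        simpa using hasDerivAt_neg' (0 : ℂ))).comp_ofReal
      simpa [xp_zero] using this
    simp only [hN, Matrix.mul_apply]
    refine (HasDerivAt.fun_sum fun j _ => (d1 j).mul (k.der c w j b h0 h1 h3)).congr_deriv ?_
    simp [xp_zero, h0, k.id, Matrix.one_apply, Finset.sum_add_distrib, hK, CA.G.sg]
  have dP : ∀ a b a' b' t, HasDerivAt (fun t => N t a b * N t a' b') 0 t := fun a b a' b' t => by
    have dG : ∀ a b, HasDerivAt (fun h => (xp K (-t) * N h * k.ρ (c t)) a b) 0 0 := fun a b => by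
      simp only [Matrix.mul_apply]
      simpa using HasDerivAt.fun_sum (u := Finset.univ) fun j _ => (HasDerivAt.fun_sum
        (u := Finset.univ) fun i _ => (dN i j).const_mul (xp K (-t) a i)).mul_const (k.ρ (c t) j b)
    have e : ∀ h, N (h + t) a b * N (h + t) a' b' =
        (xp K (-t) * N h * k.ρ (c t)) a b * (xp K (-t) * N h * k.ρ (c t)) a' b' := fun h => by
      obtain ⟨z, hz, e⟩ := CA.G.Rp0.mul k (h1 t) (h1 h)
      have e2 : N (h + t) = z • (xp K (-t) * N h * k.ρ (c t)) := by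
        simp only [hN]
        rw [← h2, e, Matrix.mul_smul, show -((h + t : ℝ) : ℂ) = -t + -h by push_cast; ring, xp_add]
        simp only [mul_assoc]
      rw [e2]
      rcases hz with rfl | rfl <;> simp
    have d : HasDerivAt (fun h => N (h + t) a b * N (h + t) a' b') 0 0 := by
      simp only [e]
      exact ((dG a b).fun_mul (dG a' b')).congr_deriv (by simp)
    simpa using HasDerivAt.comp_sub_const t t (f := fun h => N (h + t) a b * N (h + t) a' b')
      (by rwa [sub_self])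
  have P : ∀ a b a' b', N t a b * N t a' b' = (1 : Matrix _ _ ℂ) a b * (1 : Matrix _ _ ℂ) a' b' :=
    fun a b a' b' => by
      rw [← N0]
      exact is_const_of_deriv_eq_zero (fun t => (dP a b a' b' t).differentiableAt)
        (fun t => (dP a b a' b' t).deriv) t 0
  have e : k.ρ (c t) = xp K t * N t := by
    simp only [hN]
    rw [← mul_assoc, ← xp_add, add_neg_cancel, xp_zero, one_mul]
  rw [e, ← hK]
  rcases isEmpty_or_nonempty (Fin k.n) with h | ⟨⟨i⟩⟩
  · exact ⟨1, .inl rfl, Subsingleton.elim _ _⟩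
  have q := P i i i i
  rw [Matrix.one_apply_eq, mul_one] at q
  refine ⟨N t i i, mul_self_eq_one_iff.1 q, ?_⟩
  rw [show N t = N t i i • (1 : Matrix _ _ ℂ) from ?_, Matrix.mul_smul, mul_one]
  · simp
  ext a b
  have := P a b i i
  rw [Matrix.one_apply_eq, mul_one] at this
  rw [Matrix.smul_apply, ← this, smul_eq_mul, mul_left_comm, q, mul_one]

/-- the generators -/
def w1 : Ix → V := ![![0, 1, 0, 0], ![1, 0, 0, 0], ![0, 0, 0, 0], ![0, 0, 0, 0]]
def w2 : Ix → V := ![![0, 0, 1, 0], ![0, 0, 0, 0], ![1, 0, 0, 0], ![0, 0, 0, 0]]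
def wj : Ix → V := ![![0, 0, 0, 0], ![0, 0, 1, 0], ![0, -1, 0, 0], ![0, 0, 0, 0]]

/-- the boosts in the second direction -/
def b2 (u : ℝ) : Ix → V :=
  ![![cosh u, 0, sinh u, 0], ![0, 1, 0, 0], ![sinh u, 0, cosh u, 0], ![0, 0, 0, 1]]

/-- the rotations -/
def ro (u : ℝ) : Ix → V :=
  ![![1, 0, 0, 0], ![0, cos u, sin u, 0], ![0, -sin u, cos u, 0], ![0, 0, 0, 1]]

theorem b2_lor (u : ℝ) : IsLor (b2 u) := by
  have h := Real.cosh_sq u
  refine ⟨fun m n => ?_, Real.cosh_pos u, ?_⟩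
  · fin_cases m <;> fin_cases n <;>
      simp [b2, GF.mdot, bas, Fin.sum_univ_four, e0', e1, e2', e3] <;> linarith
  · change Matrix.det (Matrix.of (b2 u)) = 1
    rw [Matrix.det_succ_row_zero]
    simp [b2, Matrix.det_fin_three, Fin.sum_univ_four, Fin.succAbove]
    linarith

theorem ro_lor (u : ℝ) : IsLor (ro u) := by
  have h := Real.cos_sq_add_sin_sq u
  refine ⟨fun m n => ?_, one_pos, ?_⟩
  · fin_cases m <;> fin_cases n <;>
      simp [ro, GF.mdot, bas, Fin.sum_univ_four, e0', e1, e2', e3] <;> linarith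
  · change Matrix.det (Matrix.of (ro u)) = 1
    rw [Matrix.det_succ_row_zero]
    simp [ro, Matrix.det_fin_three, Fin.sum_univ_four, Fin.succAbove]
    linarith

theorem g1 (t : ℝ) : ∃ z : ℂ, (z = 1 ∨ z = -1) ∧ k.ρ (bo t) = z • xp (CA.G.sg k w1) t := by
  refine grp k (by rw [bo_eq, one_eq]; simp) bo_lor bo_add (fun m n => ?_) t
  have c := Real.hasDerivAt_cosh 0
  have s := Real.hasDerivAt_sinh 0
  rw [Real.sinh_zero] at c
  rw [Real.cosh_zero] at s
  simp only [bo_eq]
  fin_cases m <;> fin_cases n <;> first | exact c | exact s | exact hasDerivAt_const _ _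

theorem g2 (t : ℝ) : ∃ z : ℂ, (z = 1 ∨ z = -1) ∧ k.ρ (b2 t) = z • xp (CA.G.sg k w2) t := by
  refine grp k (by rw [b2, one_eq]; simp) b2_lor (fun s t => ?_) (fun m n => ?_) t
  · rw [b2, b2, b2, Real.cosh_add, Real.sinh_add]
    funext m n
    fin_cases m <;> fin_cases n <;> simp [mm, Fin.sum_univ_four] <;> ring
  have c := Real.hasDerivAt_cosh 0
  have s := Real.hasDerivAt_sinh 0
  rw [Real.sinh_zero] at c
  rw [Real.cosh_zero] at s
  fin_cases m <;> fin_cases n <;> first | exact c | exact s | exact hasDerivAt_const _ _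

theorem g3 (t : ℝ) : ∃ z : ℂ, (z = 1 ∨ z = -1) ∧ k.ρ (ro t) = z • xp (CA.G.sg k wj) t := by
  refine grp k (by rw [ro, one_eq]; simp) ro_lor (fun s t => ?_) (fun m n => ?_) t
  · rw [ro, ro, ro, Real.cos_add, Real.sin_add]
    funext m n
    fin_cases m <;> fin_cases n <;> simp [mm, Fin.sum_univ_four] <;> ring
  have c := Real.hasDerivAt_cos 0
  have s := Real.hasDerivAt_sin 0
  rw [Real.sin_zero, neg_zero] at c
  rw [Real.cos_zero] at s
  fin_cases m <;> fin_cases n <;>
    first | exact c | exact s | exact s.neg | exact hasDerivAt_const _ _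

theorem cnj (z : ℂ) : xp (CA.G.sg k w2) z * CA.G.sg k wj =
    (Complex.cosh z • CA.G.sg k wj - Complex.sinh z • CA.G.sg k w1) * xp (CA.G.sg k w2) z := by
  have d := fun a b z => (xp_der (CA.G.sg k w2) z a b).differentiableAt
  ext a b
  refine sub_eq_zero.1 (ent (f := fun z => (xp (CA.G.sg k w2) z * CA.G.sg k wj) a b -
    ((Complex.cosh z • CA.G.sg k wj - Complex.sinh z • CA.G.sg k w1) * xp (CA.G.sg k w2) z) a b)
    (fun z => ?_) (fun t => ?_) z)
  · simp only [Matrix.mul_apply, Matrix.sub_apply, Matrix.smul_apply, smul_eq_mul]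
    exact (DifferentiableAt.fun_sum fun j _ => (d a j z).mul_const _).sub
      (DifferentiableAt.fun_sum fun j _ => DifferentiableAt.mul (by fun_prop) (d j b z))
  obtain ⟨y, hy, e⟩ := g2 k t
  have h := CA.G.rep_row.int k (b2 t) wj (0 + cosh t • wj + (-sinh t) • w1) (b2_lor t)
    (fun m n => by fin_cases m <;> fin_cases n <;> simp [wj, e0', e1, e2', e3])
    (fun m n => by fin_cases m <;> fin_cases n <;> simp [wj, w1, e0', e1, e2', e3]) (by
      have h := Real.cosh_sq t
      funext m n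
      fin_cases m <;> fin_cases n <;> simp [mm, Fin.sum_univ_four, wj, w1, b2] <;> linarith)
  rw [sg_lin, sg_lin, sg_zero, zero_add, e, Matrix.smul_mul, Matrix.mul_smul] at h
  rw [smul_right_injective _ (show y ≠ 0 by rcases hy with rfl | rfl <;> simp) h]
  simp [sub_eq_add_neg]

theorem per : ∃ σ, xp ((-(2 * Real.pi) : ℂ) • CA.G.sg k w1) I = sg σ • (1 : Matrix _ _ ℂ) := by
  obtain ⟨y, hy, e⟩ := g3 k (2 * Real.pi)
  rw [show ro (2 * Real.pi) = GF.one by rw [ro, one_eq]; simp, k.id] at e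
  have h := cnj k (Real.pi / 2 * I)
  rw [Complex.cosh_mul_I, Complex.sinh_mul_I, Complex.cos_pi_div_two, Complex.sin_pi_div_two,
    zero_smul, zero_sub, one_mul] at h
  obtain ⟨U, hU⟩ : ∃ U, U = xp (CA.G.sg k w2) (Real.pi / 2 * I) := ⟨_, rfl⟩
  rw [← hU] at h
  have u : IsUnit U := hU ▸ Matrix.isUnit_exp _
  have u' := Matrix.mul_nonsing_inv U ((Matrix.isUnit_iff_isUnit_det U).1 u)
  have e2 : I • (-(2 * Real.pi) : ℂ) • CA.G.sg k w1 =
      U * (((2 * Real.pi : ℝ) : ℂ) • CA.G.sg k wj) * U⁻¹ := by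
    rw [Matrix.mul_smul, h, Matrix.smul_mul, mul_assoc, u', mul_one, smul_smul, ← neg_smul,
      smul_smul]
    congr 1
    push_cast
    ring
  rw [xp, e2, Matrix.exp_conj _ _ u]
  rcases hy with rfl | rfl
  · exact ⟨false, by rw [one_smul, xp] at e; rw [← e, mul_one, u', sg, cond_false, one_smul]⟩
  · refine ⟨true, ?_⟩
    rw [neg_one_smul, xp, ← neg_eq_iff_eq_neg] at e
    rw [← e, mul_neg, mul_one, neg_mul, u', sg, cond_true, neg_one_smul]

theorem bq_eq (t : ℝ) : T.bq va vb t = bo (-(2 * Real.pi * t)) := by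
  rw [bo_eq, Real.cosh_eq, Real.sinh_eq, neg_neg]
  funext m n
  simp only [T.bq, H755.bst, Pi.add_apply, Pi.smul_apply, bas]
  fin_cases m <;> fin_cases n <;> simp [va, vb, e0', e1, e2', e3] <;> ring

end Rpx

open Rpx in
/-- row RPX -/
theorem rpx_row : RPX where
  ex k := by
    obtain ⟨σ, hσ⟩ := per k
    obtain ⟨r, r0, hr⟩ := xp_bd ((-(2 * Real.pi) : ℂ) • CA.G.sg k w1)
    refine ⟨xp _, σ, xp_zero _, xp_add _, fun a b z => (xp_der _ z a b).differentiableAt,
      ⟨Real.exp r, r, (Real.exp_pos r).le, r0, fun z a b hz => (hr z a b).trans ?_⟩, hσ,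
      fun t => ?_⟩
    · rw [← Real.exp_add]
      have := mul_le_mul_of_nonneg_left (Complex.norm_le_abs_re_add_abs_im z) r0
      exact Real.exp_le_exp.2 (by nlinarith)
    obtain ⟨y, hy, e⟩ := g1 k (-(2 * Real.pi * t))
    have e2 : xp (CA.G.sg k w1) ((-(2 * Real.pi * t) : ℝ) : ℂ) =
        xp ((-(2 * Real.pi) : ℂ) • CA.G.sg k w1) t := by
      rw [xp, xp, smul_smul]
      congr 2
      push_cast
      ring
    rw [bq_eq, e, e2]
    exact hy.imp (fun h => by rw [h, one_smul]) fun h => by rw [h, neg_one_smul]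
  cj k W σ h := by
    have s2 : sg σ * sg σ = 1 := by cases σ <;> simp [sg]
    have s3 : conj (sg σ) = sg σ := by cases σ <;> simp [sg]
    obtain ⟨C, r, C0, r0, hb⟩ := h.bd
    refine ⟨?_, fun z z' => ?_, fun a b z => differentiableAt_conj_conj_iff.2 (h.diff a b _),
      ⟨C, r, C0, r0, fun z a b hz => ?_⟩, ?_, fun t => ?_⟩
    · rw [map_zero, h.zero]
      exact Matrix.map_one _ (map_zero _) (map_one _)
    · rw [map_add, h.add]
      exact Matrix.map_mul
    · exact (Complex.norm_conj _).trans_le (by simpa using hb (conj z) a b (by simpa using hz))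
    · have e := h.add (-I) I
      rw [neg_add_cancel, h.zero, h.per, Matrix.mul_smul, mul_one] at e
      have e2 : W (-I) = sg σ • (1 : Matrix _ _ ℂ) := by rw [e, smul_smul, s2, one_smul]
      rw [Complex.conj_I, e2]
      ext a b
      change conj (sg σ * (1 : Matrix _ _ ℂ) a b) = sg σ * (1 : Matrix _ _ ℂ) a b
      rw [map_mul, s3, Matrix.one_apply]
      split_ifs <;> simp
    · rw [Complex.conj_ofReal]
      refine (h.rho t).imp (fun e => congrArg (Matrix.map · conj) e) fun e => ?_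
      refine (congrArg (Matrix.map · conj) e).trans ?_
      ext a b
      exact map_neg conj (W t a b)

end

end Vale.Agent.P352X.EG
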