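import Vale.Agent.P352X.EG.Spec

/-!
# P352X, block EG, row SEC: the sector of the stress tensor
-/

set_option linter.all false

open MeasureTheory Filter Topology
open scoped SchwartzMap ComplexConjugate ContDiff

namespace Vale.Agent.P352X.EG

open Vale.Agent.P352 Vale.Agent.P352.GF Vale.Agent.P352.BW Vale.Agent.P352.H246
open Vale.Agent.P352.H496 Vale.Agent.P352.H755 Vale.Agent.P352.H15
open Vale.Agent.P352X.EB
open UniformSpace (Completion)
open Complex (I)
open ContinuousLinearMap (adjoint)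

noncomputable section

namespace Sct

/-! ## general facts -/

lemma ev_sch {f : Fn} (hf : IsTest f) : ev (sch f) = f := by
  obtain ⟨g, rfl⟩ := hf
  have h : ∃ G : Sch, ∀ x, G x = ev g x := ⟨g, fun _ => rfl⟩
  funext x
  rw [sch, dif_pos h]
  exact h.choose_spec x

lemma test_cur {r : ℝ} {X : V → V} (hX : IsSim r X) (n : Ix) {g : Fn} (hg : IsTest g) :
    IsTest fun x => (eta n : ℂ) * X x n * g x := by
  obtain ⟨a, w, -, h⟩ := hX
  obtain ⟨g, rfl⟩ := hg
  let l : V →L[ℝ] ℝ := r • ContinuousLinearMap.proj n +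
    ∑ m, w m n • ContinuousLinearMap.proj m
  have hl : ∀ x, X x n = a n + l x := fun x => by
    simp [l, h, add_assoc, mul_comm]
  have hu : (fun x : V => (eta n : ℂ) * X x n).HasTemperateGrowth := by
    simp only [hl, Complex.ofReal_add]
    exact (Function.HasTemperateGrowth.const _).mul ((Function.HasTemperateGrowth.const _).add
      (Complex.ofRealCLM ∘L l).hasTemperateGrowth)
  exact ⟨SchwartzMap.smulLeftCLM ℂ _ g, funext fun z => SchwartzMap.smulLeftCLM_apply_apply hu g z⟩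

lemma der_iso {E F : Type*} [NormedAddCommGroup E] [InnerProductSpace ℂ E] [NormedAddCommGroup F]
    [InnerProductSpace ℂ F] (ι : E →ₗᵢ[ℂ] F) {f : ℝ → E} {f' : E}
    (h : HasDerivAt (fun e => ι (f e)) (ι f') 0) : HasDerivAt f f' 0 := by
  rw [hasDerivAt_iff_tendsto] at h ⊢
  refine h.congr fun e => ?_
  rw [← ι.norm_map, map_sub, map_sub, ← Complex.coe_smul, ← Complex.coe_smul, map_smul]

lemma der_mem {F : Type*} [NormedAddCommGroup F] [InnerProductSpace ℂ F]
    (K : Submodule ℂ (Completion F)) [K.HasOrthogonalProjection] {f : ℝ → F} {f' : F}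
    (h : HasDerivAt f f' 0) (hf : ∀ e, (f e : Completion F) ∈ K) : (f' : Completion F) ∈ K := by
  let P : F →L[ℂ] Completion F := (1 - K.starProjection) ∘L Completion.toComplL
  have hP : ∀ v, P v = (v : Completion F) - K.starProjection v := fun v => rfl
  have h1 := (P.restrictScalars ℝ).hasFDerivAt.comp_hasDerivAt (0 : ℝ) h
  have h2 : (P.restrictScalars ℝ) ∘ f = fun _ => 0 := funext fun e => by
    change P (f e) = 0
    rw [hP, Submodule.starProjection_eq_self_iff.2 (hf e), sub_self]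
  rw [h2] at h1
  have h3 : P f' = 0 := h1.unique (hasDerivAt_const _ _)
  rw [hP, sub_eq_zero] at h3
  exact Submodule.starProjection_eq_self_iff.1 h3.symm

variable {D : Type*} [NormedAddCommGroup D] [InnerProductSpace ℂ D] {c : Cg D}
  {T : Ix → Ix → Fld D}

/-! ## the domain -/

variable (c T) in
/-- the vectors of `D` in the sector -/
def ES : Submodule ℂ D := (HB c T).comap (Completion.toComplL : D →L[ℂ] Completion D).toLinearMap

lemma mem_EE {v : D} : v ∈ ES c T ↔ (v : Completion D) ∈ HB c T := Iff.rfl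

lemma S0_le {S : Submodule ℂ D} (h0 : c.Q.vac ∈ S)
    (h : ∀ m n f v, IsTest f → v ∈ S → T m n f v ∈ S) : S0 c T ≤ S := sInf_le ⟨h0, h⟩

lemma vac_S0 : c.Q.vac ∈ S0 c T := Submodule.mem_sInf.2 fun _ h => h.1

lemma S0_EE : S0 c T ≤ ES c T := fun v hv =>
  Submodule.le_topologicalClosure _ (Submodule.mem_map_of_mem hv)

lemma HB_ind {A : Set (Completion D)} (hA : IsClosed A)
    (h : ∀ v ∈ S0 c T, (v : Completion D) ∈ A) : ∀ z ∈ HB c T, z ∈ A := fun z hz =>
  closure_minimal (by rintro _ ⟨v, hv, rfl⟩; exact h v hv) hA hz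

lemma HB_closed : IsClosed (HB c T : Set (Completion D)) := Submodule.isClosed_topologicalClosure _

/-- the hypotheses -/
structure Hy (c : Cg D) (T : Ix → Ix → Fld D) : Prop where
  t : E0 c
  st : c.Q.IsStress T
  pj : Pj c T ∈ Wc T Set.univ

variable (h : Hy c T)
include h

lemma Hy.T0 (m n : Ix) {f : Fn} (hf : In Set.univ f) {v : D} (hv : v ∈ ES c T) :
    T m n f v ∈ ES c T := by
  refine mem_EE.2 (Submodule.starProjection_eq_self_iff.1 (ext_inner_left ℂ fun z => ?_))
  refine Completion.induction_on z (isClosed_eq (by fun_prop) (by fun_prop)) fun w => ?_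
  have h1 := h.pj m n f hf v w
  rw [Pj, Submodule.starProjection_eq_self_iff.2 (mem_EE.1 hv), Completion.inner_coe,
    h.st.herm m n _ _ _ (isTest_bar hf.1), bar_bar] at h1
  exact h1.symm.trans (Completion.inner_coe _ _).symm

lemma Hy.Tm (m n : Ix) {f : Fn} (hf : IsTest f) {v : D} (hv : v ∈ ES c T) :
    T m n f v ∈ ES c T := by
  obtain ⟨g, rfl⟩ := hf
  have h1 := ((Completion.continuous_coe D).comp
    (c.Q.cont _ v (Grp.T_fld h.st m n))).continuousAt.tendsto.comp (h.t.ana.lim g)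
  refine HB_closed.mem_of_tendsto h1 (Eventually.of_forall fun R => ?_)
  have h2 := h.t.ana.inn R (ev g) ⟨g, rfl⟩
  change ((T m n (ev (sch (cutf R (ev g)))) v : D) : Completion D) ∈ HB c T
  rw [ev_sch h2.1]
  exact h.T0 m n ⟨h2.1, h2.2.1, Set.subset_univ _⟩ hv

lemma Hy.gam : ∀ z ∈ HB c T, c.Γ z = z := by
  let S : Submodule ℂ D :=
    { carrier := {v | c.G v = v}
      add_mem' := fun {a b} ha hb => by
        change c.G _ = _ at ha hb ⊢
        rw [h.t.bas.gadd, ha, hb]
      zero_mem' := by simpa using h.t.bas.gsmul 0 0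
      smul_mem' := fun z a ha => by
        change c.G _ = _ at ha ⊢
        rw [h.t.bas.gsmul, ha] }
  have h1 : S0 c T ≤ S := S0_le c.hN.vac fun m n f v hf hv => by
    change c.G _ = _ at hv ⊢
    rw [← c.hN.bose _ f v (h.st.bose m n) hf, hv]
  refine HB_ind (A := {z | c.Γ z = z}) (isClosed_eq c.Γ.continuous continuous_id) fun v hv => ?_
  change c.Γ _ = _
  rw [c.hN.ext, show c.G v = v from h1 hv]

lemma Hy.gamv {v : D} (hv : v ∈ ES c T) : c.G v = v :=
  Completion.coe_injective D ((c.hN.ext v).symm.trans (h.gam _ hv))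

lemma Hy.star0 (g : Sg) : ∀ z ∈ HB c T, star (Ug c.Q g.s g.L g.a) z ∈ HB c T := by
  let g0 : Sh c := ⟨g, false⟩
  have hu : ∀ z, star (g0.U c) (g0.U c z) = z := fun z =>
    congrArg (fun X : Completion D →L[ℂ] Completion D => X z) (h.t.sg.uni g0).1
  have hu' : ∀ z, g0.U c (star (g0.U c) z) = z := fun z =>
    congrArg (fun X : Completion D →L[ℂ] Completion D => X z) (h.t.sg.uni g0).2
  have hc : ∀ v : D, g0.U c v = (c.Q.U g.s g.L g.a v : D) := fun v =>
    h.t.sg.coe _ _ _ v g.hs g.hL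
  let S : Submodule ℂ D :=
    (HB c T).comap (star (g0.U c) ∘L (Completion.toComplL : D →L[ℂ] Completion D)).toLinearMap
  have hS : ∀ v : D, v ∈ S ↔ star (g0.U c) (v : Completion D) ∈ HB c T := fun v => Iff.rfl
  have h1 : S0 c T ≤ S := by
    refine S0_le ((hS _).2 ?_) fun m n f v hf hv => (hS _).2 ?_
    · rw [show star (g0.U c) (c.Q.vac : Completion D) = c.Om from (h.t.sg.vac g0).2]
      exact S0_EE vac_S0
    · obtain ⟨w, hw⟩ := h.t.sg.sur g0.inv v
      rw [h.t.sg.U_inv] at hw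
      have hw' : w ∈ ES c T := by
        rw [mem_EE, ← hw]
        exact (hS _).1 hv
      have hv' : v = c.Q.U g.s g.L g.a w := Completion.coe_injective D (by rw [← hc, ← hw, hu'])
      rw [hv', h.st.cov m n _ _ _ f w g.hs g.hL hf]
      change star (g0.U c) ((Completion.toComplL : D →L[ℂ] Completion D) _) ∈ _
      simp only [map_sum, map_smul]
      refine Submodule.sum_mem _ fun k _ => Submodule.sum_mem _ fun l _ =>
        Submodule.smul_mem _ _ ?_
      rw [Completion.coe_toComplL, ← hc, hu]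
      exact h.Tm k l (Grp.test_sim g.hs g.hL g.a hf) hw'
  exact HB_ind (A := {z | star (g0.U c) z ∈ HB c T})
    (HB_closed.preimage (star (g0.U c)).continuous) fun v hv => (hS v).1 (h1 hv)

lemma Hy.star1 (g : Sh c) : ∀ z ∈ HB c T, star (g.U c) z ∈ HB c T := by
  obtain ⟨g, e⟩ := g
  cases e
  · exact h.star0 g
  · intro z hz
    change star (c.Γ * Ug c.Q g.s g.L g.a) z ∈ _
    rw [star_mul, h.t.sg.gs, ContinuousLinearMap.mul_apply, h.gam z hz]
    exact h.star0 g z hz

lemma Hy.Um {s : ℝ} {L : Ix → V} (hs : 0 < s) (hL : IsLor L) (a : V) {v : D} (hv : v ∈ ES c T) :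
    c.Q.U s L a v ∈ ES c T := by
  have h1 := h.star1 (Sh.inv ⟨⟨s, L, a, hs, hL⟩, false⟩) _ hv
  rw [h.t.sg.U_inv, star_star] at h1
  rw [mem_EE, ← h.t.sg.coe s L a v hs hL]
  exact h1

lemma Hy.Ad {s : ℝ → ℝ} {L : ℝ → Ix → V} {a : ℝ → V} {X : V → V} {v : D} (hv : v ∈ ES c T)
    (h1 : ∀ e, 0 < s e ∧ IsLor (L e))
    (h2 : HasDerivAt (fun e => c.Q.U (s e) (L e) (a e) v) (I • c.A X v) 0) :
    c.A X v ∈ ES c T :=
  ((ES c T).smul_mem_iff Complex.I_ne_zero).1
    (der_mem (HB c T) h2 fun e => h.Um (h1 e).1 (h1 e).2 _ hv)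

lemma Hy.Am {r : ℝ} {X : V → V} (hX : IsSim r X) {v : D} (hv : v ∈ ES c T) :
    c.A X v ∈ ES c T := by
  obtain ⟨b, w, hw, hX⟩ := hX
  obtain ⟨s, L, a, K⟩ := H746.exists_crv hw r b
  exact h.Ad hv (fun e => ⟨K.sp e, K.lor e⟩) (c.hN.der s L a X v K.s0 K.L0 K.a0
    (fun e => ⟨K.sp e, K.lor e⟩) fun n x => K.dX hX n x)

omit h

/-! ## the theory -/

open Classical in
variable (c T) in
/-- restriction to the sector -/
def rs (v : D) : ES c T := if hv : v ∈ ES c T then ⟨v, hv⟩ else 0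

lemma rs_coe {v : D} (hv : v ∈ ES c T) : (rs c T v : D) = v := by rw [rs, dif_pos hv]

variable (c T) in
/-- the fields -/
def tt (m n : Ix) : Fld (ES c T) := fun f v => rs c T (T m n f v)

variable (c T) in
/-- the similitudes -/
def uu (s : ℝ) (L : Ix → V) (a : V) (v : ES c T) : ES c T := rs c T (c.Q.U s L a v)

variable (c T) in
/-- the generators -/
def aa (X : V → V) (v : ES c T) : ES c T := rs c T (c.A X v)

include h

lemma Hy.tc (m n : Ix) {f : Fn} (hf : IsTest f) (v : ES c T) :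
    (tt c T m n f v : D) = T m n f v := rs_coe (h.Tm m n hf v.2)

lemma Hy.uc {s : ℝ} {L : Ix → V} (hs : 0 < s) (hL : IsLor L) (a : V) (v : ES c T) :
    (uu c T s L a v : D) = c.Q.U s L a v := rs_coe (h.Um hs hL a v.2)

lemma Hy.ac {r : ℝ} {X : V → V} (hX : IsSim r X) (v : ES c T) :
    (aa c T X v : D) = c.A X v := rs_coe (h.Am hX v.2)

lemma Hy.cyc (S : Submodule ℂ (ES c T)) (h0 : ⟨c.Q.vac, S0_EE vac_S0⟩ ∈ S)
    (h1 : ∀ m n f v, IsTest f → v ∈ S → tt c T m n f v ∈ S) : Dense (S : Set (ES c T)) := by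
  have h2 : S0 c T ≤ S.map (ES c T).subtype := by
    refine S0_le ⟨_, h0, rfl⟩ ?_
    rintro m n f _ hf ⟨v, hv, rfl⟩
    exact ⟨_, h1 m n f v hf hv, h.tc m n hf v⟩
  intro v
  refine Metric.mem_closure_iff.2 fun ε hε => ?_
  obtain ⟨_, ⟨w, hw, rfl⟩, hd⟩ := Metric.mem_closure_iff.1 (mem_EE.1 v.2) ε hε
  obtain ⟨u, hu, rfl⟩ := h2 hw
  exact ⟨u, hu, (Completion.dist_eq (v : D) (u : D)).symm.trans_lt hd⟩

/-- the theory of the sector -/
def Hy.q : Theory (ES c T) where
  vac := ⟨c.Q.vac, S0_EE vac_S0⟩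
  fld B := ∃ m n, B = tt c T m n
  bose B := ∃ m n, B = tt c T m n
  U := uu c T
  norm_vac := c.Q.norm_vac
  cyclic S h0 h1 := h.cyc S h0 fun m n f v hf hv => h1 _ f v ⟨m, n, rfl⟩ hf hv
  lin := by
    rintro _ f g z v ⟨m, n, rfl⟩ hf hg
    refine Subtype.ext ?_
    have h1 := c.Q.lin _ f g z v (Grp.T_fld h.st m n) hf hg
    rw [Submodule.coe_add, Submodule.coe_smul, h.tc m n hf, h.tc m n hg, ← h1]
    refine rs_coe ?_
    rw [h1]
    exact add_mem (h.Tm m n hf v.2) (Submodule.smul_mem _ _ (h.Tm m n hg v.2))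
  cont := by
    rintro _ v ⟨m, n, rfl⟩
    refine continuous_induced_rng.2 ((c.Q.cont _ v (Grp.T_fld h.st m n)).congr fun g => ?_)
    exact (h.tc m n ⟨g, rfl⟩ v).symm
  adj := by
    rintro _ ⟨m, n, rfl⟩
    refine ⟨_, ⟨m, n, rfl⟩, fun f v w hf => ?_⟩
    rw [Submodule.coe_inner, Submodule.coe_inner, h.tc m n hf, h.tc m n (isTest_bar hf)]
    exact h.st.herm m n f v w hf
  bose_fld _ h := h
  loc := by
    rintro _ _ f g v ⟨m, n, rfl⟩ ⟨k, l, rfl⟩ hf hg hs
    refine Subtype.ext ?_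
    rw [h.tc m n hf, h.tc k l hg, h.tc k l hg, h.tc m n hf]
    exact c.Q.loc _ _ f g v (h.st.bose m n) (Grp.T_fld h.st k l) hf hg hs
  U_inner s L a v w hs hL := by
    rw [Submodule.coe_inner, Submodule.coe_inner, h.uc hs hL, h.uc hs hL]
    exact c.Q.U_inner s L a v w hs hL
  U_vac s L a hs hL := Subtype.ext ((h.uc hs hL a _).trans (c.Q.U_vac s L a hs hL))
  transl := by
    rintro _ a f v ⟨m, n, rfl⟩ hf
    refine Subtype.ext ?_
    rw [h.tc m n hf, h.uc one_pos H496.isLor_one, h.uc one_pos H496.isLor_one,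
      h.tc m n (Grp.test_sim one_pos H496.isLor_one a hf)]
    exact c.Q.transl _ a f v (Grp.T_fld h.st m n) hf
  spectrum v := by
    obtain ⟨ν, h1, h2, h3⟩ := c.Q.spectrum v
    exact ⟨ν, h1, h2, fun a => by rw [Submodule.coe_inner, h.uc one_pos H496.isLor_one, h3]⟩

lemma Hy.qU {s : ℝ} {L : Ix → V} (hs : 0 < s) (hL : IsLor L) (a : V) (v : ES c T) :
    (h.q.U s L a v : D) = c.Q.U s L a v := h.uc hs hL a v

lemma Hy.rep : Rep h.q (aa c T) where
  mul s L a s' L' a' v hs hs' hL hL' := by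
    refine Subtype.ext ?_
    rw [h.qU hs hL, h.qU hs' hL', h.qU (mul_pos hs hs') (ue_lor hL hL')]
    rcases c.hN.mul s L a s' L' a' hs hs' hL hL' with h1 | h1
    · exact h1 v
    · rw [h1.2.2 v]
      exact h.gamv (h.Um (mul_pos hs hs') (ue_lor hL hL') _ v.2)
  add r r' z X X' v hX hX' := by
    refine Subtype.ext ?_
    have h1 := c.hN.add r r' z X X' v hX hX'
    rw [Submodule.coe_add, Submodule.coe_smul, h.ac hX, h.ac hX', ← h1]
    refine rs_coe ?_
    rw [h1]
    exact add_mem (h.Am hX v.2) (Submodule.smul_mem _ _ (h.Am hX' v.2))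
  der s L a X v h0 h1 h2 h3 h4 := by
    have h5 := c.hN.der s L a X v h0 h1 h2 h3 h4
    refine der_iso (ES c T).subtypeₗᵢ ?_
    have h6 : ((I • aa c T X v : ES c T) : D) = I • c.A X v := by
      rw [Submodule.coe_smul, aa, rs_coe (h.Ad v.2 h3 h5)]
    simp only [Submodule.coe_subtypeₗᵢ, Submodule.coe_subtype, h6, fun e =>
      h.qU (h3 e).1 (h3 e).2 (a e) v]
    exact h5

lemma Hy.stq : h.q.IsStress (tt c T) where
  bose m n := ⟨m, n, rfl⟩
  symm m n f v hf := Subtype.ext (by rw [h.tc m n hf, h.tc n m hf, h.st.symm m n f v hf])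
  herm m n f v w hf := by
    rw [Submodule.coe_inner, Submodule.coe_inner, h.tc m n hf, h.tc m n (isTest_bar hf)]
    exact h.st.herm m n f v w hf
  cov m n s L a f v hs hL hf := by
    refine Subtype.ext ?_
    simp only [Submodule.coe_sum, Submodule.coe_smul, h.tc _ _ hf, h.qU hs hL,
      h.tc _ _ (Grp.test_sim hs hL a hf)]
    exact h.st.cov m n s L a f v hs hL hf
  conserved n f v hf := by
    refine Subtype.ext ?_
    simp only [Submodule.coe_sum, fun m => h.tc m n (Grp.test_pd m hf)]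
    exact h.st.conserved n f v hf
  charge := by
    rintro F n _ f v w hF ⟨k, l, rfl⟩ hf hc
    have h1 := h.st.charge F n _ f v w hF (Grp.T_fld h.st k l) hf hc
    obtain ⟨_, _, -, -, -, -, hF⟩ := hF
    rw [Submodule.coe_inner, Submodule.coe_smul, h.tc k l (Grp.test_pd n hf)]
    refine h1.congr' ((eventually_gt_atTop 0).mono fun R hR => ?_)
    simp only [Submodule.coe_inner, Submodule.coe_sub, h.tc _ _ hf, h.tc _ _ (hF R hR).1]

lemma Hy.pch (hP : ND.PCh c.Q T c.A) : ND.PCh h.q (tt c T) (aa c T) := by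
  rintro F X _ f v w hF hX ⟨k, l, rfl⟩ hf hc
  have h1 := hP F X _ f v w hF hX (Grp.T_fld h.st k l) hf hc
  obtain ⟨_, _, -, -, -, -, hF⟩ := hF
  rw [Submodule.coe_inner, Submodule.coe_sub, h.ac hX, h.tc k l hf, h.tc k l hf, h.ac hX]
  refine h1.congr' ((eventually_gt_atTop 0).mono fun R hR => ?_)
  simp only [Submodule.coe_inner, Submodule.coe_sub, h.tc _ _ hf, ND.cur, Submodule.coe_sum,
    fun n => h.tc o n (test_cur hX n (hF R hR).1)]

lemma Hy.td : TdAll h.q := by
  rintro _ ⟨m, n, rfl⟩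
  refine ⟨1, fun _ => tt c T m n, fun _ => ⟨2, 4, fun μ => tt c T (μ 0) (μ 1), ![m, n],
    ⟨⟨fun μ => ⟨_, _, rfl⟩, fun μ L f v hL hf => ?_⟩, fun μ s f v hs hf => ?_⟩, rfl⟩,
    fun f v _ => by simp⟩
  · beta_reduce
    rw [h.stq.cov _ _ 1 L 0 f v one_pos hL hf, ← Fintype.sum_prod_type']
    refine (Fintype.sum_equiv (finTwoArrowEquiv Ix) _ _ fun ν => ?_).symm
    simp [Fin.prod_univ_two]
  · beta_reduce
    rw [h.stq.cov _ _ s GF.one 0 f v hs H496.isLor_one hf]
    simp only [mul_smul, ← Finset.smul_sum, H746.sum_one', sub_self, Complex.cpow_zero, one_smul]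

lemma Hy.dv (m : Ix) (v : ES c T) : ((Dv h.q m v : ES c T) : D) = Dv c.Q m v := by
  have h1 := h.t.wb.der m v
  have h2 : Dv c.Q m v ∈ ES c T := der_mem (HB c T) h1 fun e => h.Um one_pos H496.isLor_one _ v.2
  have h3 : HasDerivAt (fun t : ℝ => h.q.U 1 GF.one (bas m t) v) ⟨_, h2⟩ 0 := by
    refine der_iso (ES c T).subtypeₗᵢ ?_
    simp only [Submodule.coe_subtypeₗᵢ, Submodule.coe_subtype, h.qU one_pos H496.isLor_one]
    exact h1
  exact congrArg Subtype.val h3.deriv

lemma Hy.enq (k : ℕ) : ∀ v : ES c T, en h.q k v = en c.Q k v := by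
  induction k with
  | zero => exact fun v => rfl
  | succ k ih => exact fun v => by simp only [en, ih, h.dv]

lemma Hy.eb (hE : EBd c.Q) : EBd h.q := by
  rintro _ ⟨m, n, rfl⟩
  obtain ⟨k, hk⟩ := hE _ (Grp.T_fld h.st m n)
  refine ⟨k, fun f hf => (hk f hf).imp fun C hC v => ?_⟩
  rw [h.enq, Submodule.coe_norm, h.tc m n hf.1]
  exact hC v

omit h

/-! ## the embedding -/

variable (c T) in
/-- the embedding of the sector -/
def jj : Completion (ES c T) →L[ℂ] Completion D := (ES c T).subtypeL.completion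

lemma jj_coe (v : ES c T) : jj c T v = ((v : D) : Completion D) :=
  (ES c T).subtypeL.completion_apply_coe v

lemma jj_inner (z w : Completion (ES c T)) : inner ℂ (jj c T z) (jj c T w) = inner ℂ z w :=
  Completion.induction_on₂ z w (isClosed_eq (by fun_prop) (by fun_prop)) fun a b => by
    rw [jj_coe, jj_coe, Completion.inner_coe, Completion.inner_coe, Submodule.coe_inner]

lemma jj_iso (z : Completion (ES c T)) : adjoint (jj c T) (jj c T z) = z :=
  ext_inner_left ℂ fun w => by rw [ContinuousLinearMap.adjoint_inner_right, jj_inner]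

lemma jj_mem (z : Completion (ES c T)) : jj c T z ∈ HB c T :=
  Completion.induction_on z (HB_closed.preimage (jj c T).continuous) fun v => by
    rw [jj_coe]
    exact v.2

lemma jj_pj (z : Completion D) : jj c T (adjoint (jj c T) z) = Pj c T z := by
  refine (Submodule.eq_starProjection_of_mem_of_inner_eq_zero (jj_mem _) ?_).symm
  refine HB_ind (A := {w | inner ℂ (z - jj c T (adjoint (jj c T) z)) w = 0})
    (isClosed_eq (by fun_prop) continuous_const) fun v hv => ?_
  change inner ℂ _ _ = _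
  rw [← jj_coe ⟨v, S0_EE hv⟩, inner_sub_left, jj_inner, ContinuousLinearMap.adjoint_inner_left,
    sub_self]

include h

lemma Hy.jU {s : ℝ} {L : Ix → V} (hs : 0 < s) (hL : IsLor L) (y : V) (z : Completion (ES c T)) :
    jj c T (Ue h.q s L y z) = Ue c.Q s L y (jj c T z) :=
  Completion.induction_on z (isClosed_eq ((jj c T).continuous.comp (ue_cont _ _ _))
    ((ue_cont _ _ _).comp (jj c T).continuous)) fun v => by
      rw [ue_coe hs hL, jj_coe, jj_coe, ue_coe hs hL, h.qU hs hL]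

lemma Hy.uv (hU : UVac c.Q) : UVac h.q := fun z hz => by
  obtain ⟨a, ha⟩ := hU (jj c T z) fun y => by rw [← h.jU one_pos H496.isLor_one, hz]
  refine ⟨a, ?_⟩
  rw [← jj_iso z, ha, ← jj_iso (a • om h.q), map_smul (jj c T)]
  exact congrArg (fun w => adjoint (jj c T) (a • w)) (jj_coe h.q.vac).symm

end Sct

open Sct in
theorem sec_row {D : Type*} [NormedAddCommGroup D] [InnerProductSpace ℂ D] {c : Cg D} (t : E0 c)
    (T : Ix → Ix → Fld D) : SEC c T := fun hT hP hU hE hpj =>
  have h : Hy c T := ⟨t, hT, hpj⟩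
  ⟨ES c T, h.q, tt c T, aa c T, jj c T, jj_coe, jj_iso, jj_pj, jj_coe h.q.vac,
    fun s L y z hs hL => by rw [Ug_apply _ hs hL, Ug_apply _ hs hL, h.jU hs hL],
    fun z => h.gam _ (jj_mem z), fun m n f v hf => h.tc m n hf v, fun _ hB => hB, h.rep, h.stq,
    h.pch hP, h.td, h.uv hU, h.eb hE⟩

end

end Vale.Agent.P352X.EG
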