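import Vale.Agent.P352X.EG.Spec
import Vale.Agent.P352X.EB.SG
import Vale.Agent.P352X.R.GRP.C
import Vale.Agent.P352X.Kin.Tr
import Vale.Agent.P352.BW.W1
import Vale.Agent.P132.Bd8.B6

/-!
# P352X, block EG, row SG: the graded group of similitudes
-/

set_option linter.all false

open MeasureTheory Filter Topology
open scoped SchwartzMap ComplexConjugate ContDiff

namespace Vale.Agent.P352X.EG

open Vale.Agent.P352 Vale.Agent.P352.GF Vale.Agent.P352.BW Vale.Agent.P352.H246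
open Vale.Agent.P352.H496 Vale.Agent.P352.H755 Vale.Agent.P352.H15
open Vale.Agent.P352X.EB
open UniformSpace (Completion)
open Bornology (IsBounded)

variable {D : Type*} [NormedAddCommGroup D] [InnerProductSpace ℂ D]

namespace SGx

section tr

variable (Q : Theory D)

lemma dext {A B : Completion D →L[ℂ] Completion D} (h : ∀ v : D, A v = B v) : A = B := by
  ext z
  exact Completion.induction_on z (isClosed_eq A.continuous B.continuous) h

lemma ut_coe (y : V) (v : D) : Ut Q y (v : Completion D) = (Q.U 1 GF.one y v : D) :=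
  Grp.coe one_pos H496.isLor_one y v

lemma ut_inn (y : V) (z w : Completion D) : inner ℂ (Ut Q y z) (Ut Q y w) = inner ℂ z w :=
  Grp.ug_inner one_pos H496.isLor_one y z w

lemma ut_add (x y : V) : Ut Q (x + y) = Ut Q x * Ut Q y := dext fun v => by
  rw [mul_apply_eq_comp, ut_coe, ut_coe, ut_coe, Uadd1]

lemma ut_zero (z : Completion D) : Ut Q 0 z = z := by rw [Grp.ut0]; rfl

lemma tends_coe (y : V) (v : D) :
    Tendsto (fun t : ℝ => Ut Q (t • y) (v : Completion D)) (𝓝 0) (𝓝 v) := by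
  obtain ⟨ν, hν, -, h2⟩ := Q.spectrum v
  have h3 : Continuous fun t : ℝ => inner ℂ (v : Completion D) (Ut Q (t • y) v) := by
    simp only [ut_coe, Completion.inner_coe, h2]
    refine continuous_of_dominated (bound := fun _ => 1) (fun t => ?_)
      (fun t => .of_forall fun p => ?_) (integrable_const _) (.of_forall fun p => ?_)
    · refine Continuous.aestronglyMeasurable ?_
      unfold GF.mdot
      fun_prop
    · rw [mul_comm, Complex.norm_exp_ofReal_mul_I]
    · unfold GF.mdot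
      fun_prop
  have h4 : ∀ t : ℝ, ‖Ut Q (t • y) (v : Completion D) - v‖ =
      Real.sqrt (2 * ‖(v : Completion D)‖ ^ 2 -
        2 * (inner ℂ (v : Completion D) (Ut Q (t • y) v)).re) := fun t => by
    have a := SN.norm_of_inn (ut_inn Q (t • y)) v 0
    rw [map_zero, sub_zero, sub_zero] at a
    rw [← Real.sqrt_sq (norm_nonneg _), norm_sub_rev, @norm_sub_sq ℂ, a]
    congr 1
    simp only [RCLike.re_to_complex]
    ring
  rw [tendsto_iff_norm_sub_tendsto_zero]
  simp only [h4]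
  have h5 : Continuous fun t : ℝ => Real.sqrt (2 * ‖(v : Completion D)‖ ^ 2 -
      2 * (inner ℂ (v : Completion D) (Ut Q (t • y) v)).re) := by fun_prop
  have h6 := h5.tendsto 0
  rwa [← h4, zero_smul, ut_zero, sub_self, norm_zero] at h6

lemma tends (y : V) (z : Completion D) :
    Tendsto (fun t : ℝ => Ut Q (t • y) z) (𝓝 0) (𝓝 z) := by
  refine Metric.tendsto_nhds.2 fun ε hε => ?_
  obtain ⟨v, hv⟩ := Completion.denseRange_coe.exists_dist_lt z (show 0 < ε / 3 by positivity)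
  filter_upwards [Metric.tendsto_nhds.1 (tends_coe Q y v) (ε / 3) (by positivity)] with t ht
  have a := SN.norm_of_inn (ut_inn Q (t • y)) z v
  have b := dist_triangle4 (Ut Q (t • y) z) (Ut Q (t • y) v) v z
  rw [← dist_eq_norm, ← dist_eq_norm] at a
  rw [a, dist_comm (v : Completion D) z] at b
  linarith

lemma urep : SN.URep fun y z => Ut Q y z :=
  SN.URep.of_lines (ut_zero Q) (fun x y z => by rw [ut_add]; rfl) (ut_inn Q) (tends Q)

lemma spec (z : Completion D) : ∃ ν : Measure V, IsFiniteMeasure ν ∧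
    (∀ᵐ p ∂ν, 0 ≤ p o ∧ 0 ≤ GF.mdot p p) ∧
      ∀ a, inner ℂ z (Ut Q a z) = ∫ p, Complex.exp (Complex.I * GF.mdot p a) ∂ν := by
  have e : (fun y z => Ut Q y z) = fun y => Ue Q 1 GF.one y :=
    funext₂ fun y z => Ug_apply Q one_pos H496.isLor_one y z
  obtain ⟨b⟩ := SN.exists_BC SN.isPair_mdot (e ▸ urep Q)
  refine ⟨b.nu z, b.fin z, Kin.cone b z, fun a => ?_⟩
  rw [congrFun₂ e a z, ← b.Phi_ch, b.inner (SN.isPair_mdot.bd a)]
  rfl

end tr

variable (c : Cg D)

lemma g2 : c.Γ * c.Γ = 1 := dext fun v => by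
  rw [mul_apply_eq_comp, c.hN.ext, c.hN.ext, c.hN.inv]; rfl

lemma gs : star c.Γ = c.Γ := by
  refine ((ContinuousLinearMap.eq_adjoint_iff _ _).2 fun z w => ?_).symm
  refine Completion.induction_on₂ z w (isClosed_eq (by fun_prop) (by fun_prop)) fun v w => ?_
  rw [c.hN.ext, c.hN.ext, Completion.inner_coe, Completion.inner_coe, c.hN.herm]

lemma gv : c.Γ c.Om = c.Om := by rw [Cg.Om, om, c.hN.ext, c.hN.vac]

lemma gg (X : Completion D →L[ℂ] Completion D) : c.Γ * (c.Γ * X) = X := by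
  rw [← mul_assoc, g2, one_mul]

/-- the similitudes without the grading -/
noncomputable abbrev U0 (g : Sg) : Completion D →L[ℂ] Completion D := Ug c.Q g.s g.L g.a

lemma gU0 (g : Sg) : c.Γ * U0 c g = U0 c g * c.Γ := dext fun v => by
  rw [mul_apply_eq_comp, mul_apply_eq_comp, Grp.coe g.hs g.hL, c.hN.ext, c.hN.ext,
    Grp.coe g.hs g.hL, c.hN.GU _ _ _ _ g.hs g.hL]

lemma mul0 (g h : Sg) : U0 c g * U0 c h = U0 c (g.mul h) ∨ U0 c g * U0 c h = c.Γ * U0 c (g.mul h) :=
  (c.hN.mul _ _ g.a _ _ h.a g.hs h.hs g.hL h.hL).imp (fun e => dext fun v => by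
    rw [mul_apply_eq_comp, Grp.coe h.hs h.hL, Grp.coe g.hs g.hL, e,
      Grp.coe (g.mul h).hs (g.mul h).hL]; rfl) fun e => dext fun v => by
    rw [mul_apply_eq_comp, mul_apply_eq_comp, Grp.coe h.hs h.hL, Grp.coe g.hs g.hL, e.2.2,
      Grp.coe (g.mul h).hs (g.mul h).hL, c.hN.ext]; rfl

lemma one0 (g : Sg) : U0 c (g.mul g.inv) = 1 := by
  have e0 : g.act (g.inv.act 0) = 0 := g.act_inv 0
  have e1 : g.inv.act 0 = g.inv.a := Grp.sim_zero _ _ _
  rw [e1] at e0
  show Ug c.Q (g.s * g.s⁻¹) (fun m => sim 1 g.L 0 (linv g.L m)) (g.act g.inv.a) = 1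
  rw [mul_inv_cancel₀ g.hs.ne', linv_id g.hL, e0]
  exact Grp.ug_one

lemma uni0 (g : Sg) : U0 c g ∈ unitary (Completion D →L[ℂ] Completion D) ∧
    (star (U0 c g) = U0 c g.inv ∨ star (U0 c g) = c.Γ * U0 c g.inv) := by
  rcases mul0 c g g.inv with h | h <;> rw [one0] at h
  · exact (Grp.uni_of (Grp.ug_inner g.hs g.hL g.a) h).imp_right .inl
  · exact (Grp.uni_of (U' := c.Γ * U0 c g.inv) (Grp.ug_inner g.hs g.hL g.a) (by
      rw [gU0, ← mul_assoc, h, mul_one, g2])).imp_right .inr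

variable {c}

lemma cas (g : Sh c) : g.U c = U0 c g.toSg ∨ g.U c = c.Γ * U0 c g.toSg := by
  obtain ⟨g, _ | _⟩ := g
  exacts [.inl rfl, .inr rfl]

open Classical in
lemma pick {X Y : Completion D →L[ℂ] Completion D} (h : X = Y ∨ X = c.Γ * Y) :
    cond (decide (X ≠ Y)) (c.Γ * Y) Y = X := by
  by_cases e : X = Y
  · simp [e]
  · simp [e, ← h.resolve_left e]

lemma gU (g : Sh c) : c.Γ * g.U c = g.U c * c.Γ := by
  rcases cas g with h | h <;> rw [h]
  · exact gU0 c _
  · rw [mul_assoc, gU0]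

lemma U_mul (g h : Sh c) : (g.mul h).U c = g.U c * h.U c := pick <| by
  have k : ∀ X, U0 c g.toSg * (c.Γ * X) = c.Γ * (U0 c g.toSg * X) := fun X => by
    rw [← mul_assoc, ← gU0, mul_assoc]
  rcases cas g with a | a <;> rcases cas h with b | b <;> rcases mul0 c g.toSg h.toSg with e | e <;>
    simp only [a, b, mul_assoc, k, e, gg, true_or, or_true]

lemma U_inv (g : Sh c) : g.inv.U c = star (g.U c) := pick <| by
  rcases cas g with a | a <;> rcases (uni0 c g.toSg).2 with e | e <;>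
    simp only [a, star_mul, gs, e, ← gU0, mul_assoc, gg, true_or, or_true]

lemma uni (g : Sh c) : g.U c ∈ unitary (Completion D →L[ℂ] Completion D) := by
  rcases cas g with h | h <;> rw [h]
  · exact (uni0 c _).1
  · exact mul_mem ⟨by rw [gs, g2], by rw [gs, g2]⟩ (uni0 c _).1

lemma vac (g : Sh c) : g.U c c.Om = c.Om := by
  have e : U0 c g.toSg c.Om = c.Om := by
    rw [Cg.Om, om, Grp.coe g.hs g.hL, c.Q.U_vac _ _ _ g.hs g.hL]
  rcases cas g with h | h <;> rw [h]
  · exact e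
  · rw [mul_apply_eq_comp, e, gv]

lemma alg1 (g : Sh c) {O : Set V} {X : Completion D →L[ℂ] Completion D} (hX : X ∈ c.N O) :
    g.U c * X * star (g.U c) ∈ c.N (g.act '' O) := by
  obtain ⟨Y, hY, e⟩ := c.hN.cov g.s g.L g.a O X hX g.hs g.hL
  have e1 : Y * U0 c g.toSg = U0 c g.toSg * X := by
    ext z
    rw [mul_apply_eq_comp, mul_apply_eq_comp, Ug_apply _ g.hs g.hL, Ug_apply _ g.hs g.hL, e]
  have e2 : U0 c g.toSg * X * star (U0 c g.toSg) = Y := by
    rw [← e1, mul_assoc, (uni0 c _).1.2, mul_one]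
  rcases cas g with h | h <;> rw [h]
  · rwa [e2]
  · rw [star_mul, gs, ← mul_assoc, mul_assoc c.Γ, mul_assoc c.Γ, e2]
    exact c.hN.gam _ _ hY

lemma alg (g : Sh c) (O : Set V) (X : Completion D →L[ℂ] Completion D) :
    X ∈ c.N O ↔ g.U c * X * star (g.U c) ∈ c.N (g.act '' O) := by
  refine ⟨alg1 g, fun hX => ?_⟩
  have h1 := alg1 g.inv hX
  rw [U_inv, star_star, ← mul_assoc, ← mul_assoc, (uni g).1, one_mul, mul_assoc, (uni g).1,
    mul_one, Set.image_image] at h1
  have h3 : ∀ x, g.inv.act (g.act x) = x := g.toSg.inv_act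
  simpa only [h3, Set.image_id'] using h1

lemma evod (g : Sh c) (X : Completion D →L[ℂ] Completion D) (hX : X ∈ c.N g.Op) :
    Cm c g (X + c.Γ * X * c.Γ) ∧ Cm c g ((X - c.Γ * X * c.Γ) * c.Γ) := by
  have h := alg1 g hX
  rw [Sg.Op, g.img_pre] at h
  have k1 : ∀ Y, g.U c * (c.Γ * Y) = c.Γ * (g.U c * Y) := fun Y => by
    rw [← mul_assoc, ← gU, mul_assoc]
  have k2 : c.Γ * star (g.U c) = star (g.U c) * c.Γ := U_inv g ▸ gU g.inv
  have k3 : ∀ Y, c.Γ * (star (g.U c) * Y) = star (g.U c) * (c.Γ * Y) := fun Y => by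
    rw [← mul_assoc, k2, mul_assoc]
  have := c.hN.loc va vb _ Grp.na Grp.nb Grp.nab h
  simpa only [Cm, mul_add, add_mul, mul_sub, sub_mul, mul_assoc, k1, k2, k3] using this

lemma tw (X : Completion D →L[ℂ] Completion D) :
    ((1 / 2 : ℂ) • (X + c.Γ * X * c.Γ + (X - c.Γ * X * c.Γ) * c.Γ)) c.Om = X c.Om := by
  simp only [ContinuousLinearMap.smul_apply, ContinuousLinearMap.add_apply,
    ContinuousLinearMap.sub_apply, mul_apply_eq_comp, gv]
  module

lemma rs {O : Set V} (hO : IsOpen O) (hne : O.Nonempty) : Dense {z | ∃ X ∈ c.N O, X c.Om = z} :=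
  rs_gen hO hne fun B f => c.hN.fld O B f

lemma wne {a b : V} (ha : IsNull a) (hb : IsNull b) (hab : GF.mdot a b = 1) :
    (Wdg b a 0).Nonempty := ⟨b - a, by
  rw [sub_zero, H755.md_sub, hb.1, H755.md_comm b a, hab]; norm_num, by
  rw [sub_zero, H755.md_sub, ha.1, hab]; norm_num⟩

lemma dns (a b : V) (ha : IsNull a) (hb : IsNull b) (hab : GF.mdot a b = 1) :
    Dense {z | ∃ Y ∈ (c.N (Wdg a b 0)).commutant, Y c.Om = z} :=
  (rs (c := c) (open_Wdg b a 0) (wne ha hb hab)).mono <| by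
    rintro _ ⟨X, hX, e⟩
    have h := c.hN.loc a b X ha hb hab hX
    exact ⟨_, (c.N (Wdg a b 0)).commutant.toStarSubalgebra.smul_mem (add_mem h.1 h.2) _,
      (tw X).trans e⟩

lemma affa {O : Set V} {X X' : D → D} (h : Al c.Q O X X') : BW.T.Afs (c.N O) X X' := by
  induction h with
  | one => exact Grp.afs_one
  | add X X' Y Y' _ _ h1 h2 => exact Grp.afs_add h1 h2
  | smul z X X' _ h1 => exact Grp.afs_smul z h1
  | fld B B' g X X' hB _ hadj hg _ h1 =>
    exact Grp.afs_comp (afs_of_aff (fun v w => hadj g v w hg.1) (c.hN.fld O B g hB hg)) h1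

lemma bdd (g : Sg) (K : Set V) (hK : IsBounded K) : IsBounded (g.act '' K) := by
  have h1 := ((conf_sim g.hs g.hL).cle : V →L[ℝ] V).lipschitz.isBounded_image hK
  have h2 := (LipschitzWith.of_dist_le_mul (K := 1) (f := fun x : V => x + g.a)
    fun x y => by simp).isBounded_image h1
  refine h2.subset ?_
  rintro _ ⟨x, hx, rfl⟩
  exact ⟨_, ⟨x, hx, rfl⟩, (sim_zero _ _).symm⟩

lemma exa (K : Set V) (hK : IsBounded K) : ∃ g : Sg, g.Adm K := by
  obtain ⟨R, hR⟩ := hK.exists_norm_le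
  refine ⟨⟨1, GF.one, pt (R + 1) (-(2 * R + 1)) 0, one_pos, H496.isLor_one⟩, fun z hz => ?_⟩
  have h1 := abs_le.1 ((abs_be_le z).trans (mul_le_mul_of_nonneg_left (hR z hz) zero_le_two))
  have h2 := abs_le.1 ((abs_al_le z).trans (hR z hz))
  show sim 1 GF.one _ z ∈ W0
  rw [HM.sim_tr, Ap.mem_W]
  simp only [be_add, be_pt, al_add, al_pt, be_zero, al_zero]
  constructor <;> linarith [h1.2, h2.1]

end SGx

open SGx in
theorem sg_row (c : Cg D) : SG c where
  act_mul g h := g.toSg.act_mul h.toSg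
  inv_act g := g.toSg.inv_act
  act_inv g := g.toSg.act_inv
  U_mul := U_mul
  U_inv := U_inv
  uni := uni
  vac g := ⟨vac g, U_inv g ▸ vac g.inv⟩
  test g f hf := Ap.test_sim g.hs g.hL g.a hf
  inn g O f hf := Ap.in_sim g.hs g.hL g.a hf
  clm g := ⟨(SchwartzMap.compCLMOfContinuousLinearEquiv ℂ (conf_sim g.hs g.hL).cle).comp
    (ST.tsl (-g.a)), fun f => funext fun x => by
      show f (sim g.s g.L 0 x - -g.a) = f (sim g.s g.L g.a x)
      rw [sim_zero g.a, sub_neg_eq_add]⟩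
  bdd g := bdd g.toSg
  ex K hK := (exa K hK).elim fun g h => ⟨⟨g, false⟩, h⟩
  opn g := (open_Wdg _ _ _).preimage g.cont
  ev g X hX := (evod g X hX).1
  od g X hX := (evod g X hX).2
  rsc O hO hne := (rs (c := c) hO hne).mono <| by
    rintro _ ⟨X, hX, e⟩
    refine ⟨_, fun g hg => ?_, (tw X).trans e⟩
    have h := evod g X (c.hN.mono _ _ hg X hX)
    rw [Cm, mul_smul_comm, smul_mul_assoc, mul_add, add_mul]
    exact (M0 c).commutant.toStarSubalgebra.smul_mem (add_mem h.1 h.2) _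
  alg := alg
  loc g K hK X hX := c.hN.mono _ _ (by rintro _ ⟨x, hx, rfl⟩; exact hK x hx) _ (alg1 g hX)
  back g X hX := (alg g _ _).2 (by
    rw [g.img_pre, ← mul_assoc, ← mul_assoc, (uni g).2, one_mul, mul_assoc, (uni g).2, mul_one]
    exact hX)
  dense := dns va vb Grp.na Grp.nb Grp.nab
  dns := dns
  g2 := g2 c
  gs := gs c
  gv := gv c
  gU := gU
  gm e := ⟨by cases e <;> simp [Sh.U, Sh.gm, Cg.gp, Grp.ug_one], H26.sim_one0⟩
  coe s L a v hs hL := Grp.coe hs hL a v
  sur g v := by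
    rcases cas g with h | h <;> rw [h]
    · exact ⟨_, Grp.coe g.hs g.hL g.a v⟩
    · exact ⟨_, by rw [mul_apply_eq_comp, Grp.coe g.hs g.hL, c.hN.ext]⟩
  mul1 s L a s' L' a' v hs hs' hL hL' h := (c.hN.mul s L a s' L' a' hs hs' hL hL').elim (· v)
    fun e => h.elim (absurd · e.1) (absurd · e.2.1)
  ut0 := Grp.ut0
  ut := ut_add c.Q
  utc := (urep c.Q).cont
  spec := spec c.Q
  affa O X X' := affa
  md := P132.exists_modData _ _ Kin.norm_om
    (rs (open_Wdg _ _ _) (wne Grp.nb Grp.na (by rw [H755.md_comm]; exact Grp.nab))) fun a ha h0 => by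
      ext z
      refine Dense.induction (P := fun z => a z = 0) (dns (c := c) va vb Grp.na Grp.nb Grp.nab) ?_
        (isClosed_eq a.continuous continuous_const) z
      rintro _ ⟨Y, hY, rfl⟩
      rw [← mul_apply_eq_comp, VonNeumannAlgebra.mem_commutant_iff.1 hY a ha, mul_apply_eq_comp, h0,
        map_zero]

end Vale.Agent.P352X.EG
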