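import Vale.Agent.P352X.EG.Spec
import Vale.Agent.P352.BW.H234.StripU

/-!
# P352X, block EG, row SST: spin and statistics
-/

set_option linter.all false

open scoped ComplexConjugate

namespace Vale.Agent.P352X.EG

open Vale.Agent.P352.BW Vale.Agent.P352.BW.H234U
open Complex (I)

variable {H : Type*} [NormedAddCommGroup H] [InnerProductSpace ℂ H] [CompleteSpace H]

theorem sst_bd {F : ℂ → ℂ} {C : ℝ} (h1 : DifferentiableOn ℂ F So) (h2 : ContinuousOn F Sc)
    (h3 : ∀ z ∈ Sc, ‖F z‖ ≤ C) : Bd F :=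
  ⟨⟨h1, closure_So ▸ h2⟩, C, h3⟩

theorem sst_mid {V : ℝ → H → H} {x x' : H} {φ : ℂ → H} {C : ℝ}
    (hV : ∀ t u v, inner ℂ (V t u) (V t v) = inner ℂ u v) (h1 : DifferentiableOn ℂ φ So)
    (h2 : ContinuousOn φ Sc) (h3 : ∀ z ∈ Sc, ‖φ z‖ ≤ C)
    (h4 : ∀ t : ℝ, φ t = V t x ∧ φ (t - I / 2) = V t x') (t : ℝ) :
    inner ℂ x' x = ((‖φ (t - I / 4)‖ ^ 2 : ℝ) : ℂ) := by
  have m1 : ∀ z ∈ Sc, conj z - I / 2 ∈ Sc := fun z hz => by
    constructor <;> simp <;> linarith [hz.1, hz.2]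
  have m2 : ∀ z ∈ So, conj z - I / 2 ∈ So := fun z hz => by
    constructor <;> simp <;> linarith [hz.1, hz.2]
  have hb : Bd fun z => inner ℂ (φ (conj z - I / 2)) (φ z) - inner ℂ x' x := by
    refine sst_bd (C := C * C + ‖inner ℂ x' x‖) (fun z hz => ?_) ?_ fun z hz => ?_
    · have d1 : DifferentiableAt ℂ (fun w => φ (w - I / 2)) (conj z) :=
        (h1.differentiableAt (isOpen_So.mem_nhds (m2 z hz))).comp (conj z)
          (f := fun w => w - I / 2) (differentiableAt_id.sub_const _)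
      have d2 := d1.comp_semilinear₁ (σ := starRingEnd ℂ) (starRingEnd ℂ) (innerSL ℂ)
      rw [Complex.conj_conj] at d2
      exact ((d2.clm_apply (h1.differentiableAt (isOpen_So.mem_nhds hz))).sub_const
        _).differentiableWithinAt
    · exact (ContinuousOn.inner (𝕜 := ℂ) (h2.comp (by fun_prop) m1) h2).sub continuousOn_const
    · refine (norm_sub_le _ _).trans (add_le_add ((norm_inner_le_norm _ _).trans ?_) le_rfl)
      exact mul_le_mul (h3 _ (m1 z hz)) (h3 z hz) (norm_nonneg _) ((norm_nonneg _).trans (h3 z hz))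
  have k := uniq0 hb (fun s => by
    simp only [Complex.conj_ofReal, (h4 s).1, (h4 s).2, hV, sub_self]) (z := t - I / 4)
    (by constructor <;> simp <;> norm_num)
  have e : conj ((t : ℂ) - I / 4) - I / 2 = t - I / 4 := by
    simp only [map_sub, map_div₀, Complex.conj_ofReal, Complex.conj_I, map_ofNat]; ring
  rw [e, sub_eq_zero, inner_self_eq_norm_sq_to_K] at k
  rw [← k]; norm_cast

theorem sst_row (H : Type*) [NormedAddCommGroup H] [InnerProductSpace ℂ H] [CompleteSpace H] :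
    SST H := by
  rintro V x x' y y' hV ⟨φ, h1, h2, ⟨C, h3⟩, h4⟩ ⟨ψ, g1, g2, ⟨C', g3⟩, g4⟩ h
  have k2 := sst_mid hV g1 g2 g3 g4 0
  have k3 : ∀ t : ℝ, φ (t - I / 4) = 0 := fun t => by
    have k1 := sst_mid hV h1 h2 h3 h4 t
    rw [← inner_conj_symm, h, k2, map_neg, Complex.conj_ofReal, ← Complex.ofReal_neg,
      Complex.ofReal_inj] at k1
    exact norm_eq_zero.1 (by nlinarith [sq_nonneg ‖ψ ((0 : ℝ) - I / 4)‖, norm_nonneg (φ (t - I / 4))])
  have m1 : ∀ z ∈ Sc, -z / 2 - I / 4 ∈ Sc := fun z hz => by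
    constructor <;> simp <;> linarith [hz.1, hz.2]
  have m2 : ∀ z ∈ So, -z / 2 - I / 4 ∈ So := fun z hz => by
    constructor <;> simp <;> linarith [hz.1, hz.2]
  have hb : Bd fun z => inner ℂ (φ 0) (φ (-z / 2 - I / 4)) :=
    sst_bd (C := ‖φ 0‖ * C) ((innerSL ℂ (φ 0)).differentiable.comp_differentiableOn
      (DifferentiableOn.comp h1 (by fun_prop) m2))
      (ContinuousOn.inner (𝕜 := ℂ) continuousOn_const (ContinuousOn.comp h2 (by fun_prop) m1)) fun z hz =>
      (norm_inner_le_norm _ _).trans (mul_le_mul_of_nonneg_left (h3 _ (m1 z hz)) (norm_nonneg _))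
  have k := uniq0 hb (fun s => by
    rw [show -(s : ℂ) / 2 = ((-s / 2 : ℝ) : ℂ) by push_cast; ring, k3, inner_zero_right])
    (low_mem 0)
  rw [show -(((0 : ℝ) : ℂ) - I / 2) / 2 - I / 4 = ((0 : ℝ) : ℂ) by push_cast; ring] at k
  rw [show φ 0 = φ ((0 : ℝ) : ℂ) from rfl, (h4 0).1, hV] at k
  exact inner_self_eq_zero.1 k

end Vale.Agent.P352X.EG
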