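import Vale.Agent.P352X.EG.Spec
import Vale.Agent.P352X.EB.STF

/-!
# P352X, block EG, row STF: the multiplets are smooth tame
-/

set_option linter.all false

open MeasureTheory Filter Topology
open scoped SchwartzMap ComplexConjugate ContDiff

namespace Vale.Agent.P352X.EG

open Vale.Agent.P352 Vale.Agent.P352.GF Vale.Agent.P352.BW Vale.Agent.P352.H246
open Vale.Agent.P352.H496 Vale.Agent.P352.H755 Vale.Agent.P352.H15
open Vale.Agent.P352.SubConf (IsAdj)
open Vale.Agent.P352X.EB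
open H746 (Crv vf vfS fl_vfS)
open UniformSpace (Completion)
open Complex (I)

noncomputable section

variable {D : Type*} [NormedAddCommGroup D] [InnerProductSpace ℂ D] {c : Cg D}

namespace Stfg

/-- the generator of the boosts on test functions -/
def bg (f : Fn) : Fn := fun x => ((2 * Real.pi : ℝ) : ℂ) * Bc f x

theorem in_bg {f : Fn} (hf : In W0 f) : In W0 (bg f) := Ap.in_cmul _ (Ap.in_Bc hf)

theorem bar_bg {f : Fn} (hf : GF.IsTest f) : bg (bar f) = bar (bg f) := by
  unfold bg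
  rw [Stf.bar_rm, Stf.bar_Bc hf]

theorem crv : Crv (fun _ => 1) (O649.bi va vb) (fun _ => 0) (fun m n =>
    2 * Real.pi * (eta m * vb m) * va n - 2 * Real.pi * (eta m * va m) * vb n) 0 0 := by
  refine ⟨rfl, ?_, rfl, fun _ => one_pos, O649.isLor_bi null_va null_vb md_ab,
    hasDerivAt_const _ _, fun m n => ?_, fun _ => hasDerivAt_const _ _⟩
  · funext m
    simp [O649.bi, bst, GF.one]
  · have h := (hasDerivAt_id' (0 : ℝ)).const_mul (2 * Real.pi)
    simp only [O649.bi, bst, Pi.add_apply, Pi.smul_apply, smul_eq_mul]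
    refine (((((h.exp.sub_const 1).mul_const _).mul_const _).const_add _).fun_add
      (((h.fun_neg.exp.sub_const 1).mul_const _).mul_const _)).congr_deriv ?_
    simp
    ring

theorem der1 {B : Fld D} (hB : c.Q.fld B) {f : Fn} (hf : GF.IsTest f) :
    HasDerivAt (fun t => ((B (fun y => f (sim 1 (O649.bi va vb t) 0 y)) c.Q.vac : D) :
      Completion D)) (B (bg f) c.Q.vac : D) 0 := by
  obtain ⟨l, hl⟩ := Stf.clm hB
  obtain ⟨F, rfl⟩ := exists_fl hf
  have h := crv.der (l.restrictScalars ℝ) F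
  simp only [ContinuousLinearMap.coe_restrictScalars', hl, Crv.cs, ← fl_sim] at h
  rw [fl_vfS (X := fun z => (2 * Real.pi) • (al z • va - be z • vb)) (fun z n => by
    simp only [al, be, GF.mdot, Pi.smul_apply, Pi.sub_apply, smul_eq_mul, Pi.zero_apply, zero_mul,
      zero_add, Fin.sum_univ_four]
    ring)] at h
  refine h.congr_deriv (congrArg (fun g => ((B g c.Q.vac : D) : Completion D)) ?_)
  unfold bg
  rw [← Gen.vf_bo]
  funext x
  simp only [vf, Finset.mul_sum, Pi.smul_apply, smul_eq_mul]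
  refine Finset.sum_congr rfl fun n _ => ?_
  push_cast
  ring

theorem der2 {n : ℕ} {Φ : Fin n → Fld D} (hΦ : ∀ a, c.Q.fld (Φ a)) {f : Fn} (hf : GF.IsTest f)
    {W : ℝ → Matrix (Fin n) (Fin n) ℂ} {K : Matrix (Fin n) (Fin n) ℂ} (h0 : W 0 = 1)
    (hW : ∀ a b, HasDerivAt (fun t => W t a b) (-K a b) 0) (z : Fin n → ℂ) :
    HasDerivAt (fun t => ov c Φ ((W t).mulVec z) fun y => f (sim 1 (O649.bi va vb t) 0 y))
      (ov c Φ z f - (ov c Φ z f + ov c Φ (K.mulVec z) f + ov c Φ (-z) (bg f))) 0 := by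
  have e : (fun y => f (sim 1 (O649.bi va vb 0) 0 y)) = f := by
    funext y
    rw [crv.L0, sim_one]
    simp
  have h1 : ∀ a, HasDerivAt (fun t => (W t).mulVec z a) (-K.mulVec z a) 0 := fun a => by
    simp only [Matrix.mulVec, dotProduct, ← Finset.sum_neg_distrib, ← neg_mul]
    exact HasDerivAt.fun_sum fun b _ => (hW a b).mul_const _
  refine (HasDerivAt.fun_sum fun a _ => (h1 a).fun_smul (der1 (hΦ a) hf)).congr_deriv ?_
  simp only [ov, e, h0, Matrix.one_mulVec, Finset.sum_add_distrib, Pi.neg_apply, neg_smul,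
    Finset.sum_neg_distrib]
  abel

theorem derW {k : Rp} {W : ℂ → Matrix (Fin k.n) (Fin k.n) ℂ} {σ : Bool} (h : OneP k W σ)
    (a b : Fin k.n) :
    HasDerivAt (fun t : ℝ => W (-t) a b) (-deriv (fun z => W z a b) 0) 0 := by
  have h1 : HasDerivAt (fun z => W z a b) (deriv (fun z => W z a b) 0) (-((0 : ℝ) : ℂ)) := by
    simpa using (h.diff a b 0).hasDerivAt
  simpa using (h1.comp ((0 : ℝ) : ℂ) (hasDerivAt_neg' _)).comp_ofReal

end Stfg

open Stfg

/-- row STF -/
theorem stf_row (t : E0 c) : STF c := by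
  intro r hb hM e k Φ Φ' h hp h' a f hf
  obtain ⟨E⟩ := t.sg.md
  obtain ⟨W, σ, hW⟩ := r.ex k
  have hW' := r.cj k W σ hW
  have hm' := t.bas.madj k Φ Φ' h h'
  have hp' : ∀ a, Pa c e (Φ' a) := fun a => t.bas.padj e _ _ (h' a).2 (hp a)
  have h'' : ∀ a, c.Q.fld (Φ a) ∧ IsAdj (Φ' a) (Φ a) := fun a => ⟨h.1 a, fun g v w hg => by
    rw [← inner_conj_symm, ← inner_conj_symm v, (h' a).2 _ _ _ (Ap.test_bar hg), Ap.bar_bar]⟩
  choose N hN using fun a => hM (Φ a) (Φ' a) (h.1 a) (h' a).1 (h' a).2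
  set S := AddSubmonoid.closure {p : Completion D × Completion D | ∃ z f, In W0 f ∧
    p = (ov c Φ z f, ov c Φ' (star z) (bar f))}
  have hS : ∀ z f, In W0 f → (ov c Φ z f, ov c Φ' (star z) (bar f)) ∈ S := fun z f hf =>
    AddSubmonoid.subset_closure ⟨z, f, hf, rfl⟩
  refine t.smo _ _ E (fun ξ ξ' => (ξ, ξ') ∈ S) (Finset.univ.sup N) ?_ _ _ (by
    simpa [ov, Pi.single_apply] using hS (Pi.single a 1) f hf)
  suffices H : ∀ p ∈ S, Tm (M0 c) c.Om (Finset.univ.sup N) p.1 p.2 ∧ ∃ η η', (η, η') ∈ S ∧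
      HasDerivAt (fun t => E.U t p.1) (p.1 - η) 0 ∧
      HasDerivAt (fun t => E.U t p.2) (p.2 - η') 0 from fun ξ ξ' hp => H _ hp
  intro p hp0
  induction hp0 using AddSubmonoid.closure_induction with
  | mem p hp0 =>
    obtain ⟨z, f, hf, rfl⟩ := hp0
    let K : Matrix (Fin k.n) (Fin k.n) ℂ := fun a b => deriv (fun z => W z a b) 0
    refine ⟨t.tmb.sum _ _ _ _ Finset.univ _ _ fun a _ => t.tmb.smul _ _ _ (z a) _ _
      (t.tmb.mono _ _ _ _ _ _ (Finset.le_sup (Finset.mem_univ a))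
        (hN a _ f (Ap.open_wdg _ _ _) hf)), _, _,
      S.add_mem (S.add_mem (hS z f hf) (hS (K.mulVec z) f hf)) (hS (-z) _ (in_bg hf)), ?_, ?_⟩
    · simp only [hb E e k W σ Φ Φ' hW h hp h' _ z f hf]
      exact der2 h.1 hf.1 (by simpa using hW.zero) (derW hW) z
    · have e1 : ∀ s : ℝ, E.U s (ov c Φ' (star z) (bar f)) = ov c Φ'
          (((W (-(s : ℂ))).map conj).mulVec (star z))
          fun y => bar f (sim 1 (O649.bi va vb s) 0 y) := fun s => by
        have := hb E e (cj k) _ σ Φ' Φ hW' hm' hp' h'' s (star z) _ (Ap.in_bar hf)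
        simp only [map_neg, Complex.conj_ofReal] at this
        exact this
      have e2 : (K.map conj).mulVec (star z) = star (K.mulVec z) := by
        funext a
        simp [Matrix.mulVec, dotProduct]
      have := der2 (c := c) (Φ := Φ') (K := K.map conj)
        (W := fun t : ℝ => (W (-(t : ℂ))).map conj) (fun a => (h' a).1) (Ap.test_bar hf.1)
        (by simp [hW.zero])
        (fun a b => (derW hW a b).star.congr_deriv (star_neg _)) (star z)
      rw [bar_bg hf.1, e2, ← star_neg z] at this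
      simp only [e1]
      exact this
  | zero =>
    exact ⟨t.tmb.zero _ _ _, 0, 0, S.zero_mem, by simpa using hasDerivAt_const _ _,
      by simpa using hasDerivAt_const _ _⟩
  | add p q _ _ hp hq =>
    obtain ⟨a1, η, η', a2, a3, a4⟩ := hp
    obtain ⟨b1, θ, θ', b2, b3, b4⟩ := hq
    refine ⟨t.tmb.add _ _ _ _ _ _ _ a1 b1, η + θ, η' + θ', S.add_mem a2 b2, ?_, ?_⟩
    · simp only [Prod.fst_add, map_add]
      exact (a3.fun_add b3).congr_deriv (by abel)
    · simp only [Prod.snd_add, map_add]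
      exact (a4.fun_add b4).congr_deriv (by abel)

end

end Vale.Agent.P352X.EG
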