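import Vale.Agent.P352X.EG.Defs
import Vale.Agent.P352.BW.T.O

/-!
# P352X, block EG: the rows (see notes/P352/eg.md)
-/

set_option linter.all false

open MeasureTheory Filter Topology
open scoped SchwartzMap ComplexConjugate ContDiff

namespace Vale.Agent.P352X.EG

open Vale.Agent.P352 Vale.Agent.P352.GF Vale.Agent.P352.BW Vale.Agent.P352.H246
open Vale.Agent.P352.H496 Vale.Agent.P352.H755 Vale.Agent.P352.H15
open Vale.Agent.P352.SubConf (IsAdj)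
open Vale.Agent.P352X.EB
open Vale.Agent.P132 (ModData jconj)
open UniformSpace (Completion)
open Complex (I)
open Bornology (IsBounded)
open ContinuousLinearMap (adjoint)

noncomputable section

/-! ## level A: Hilbert space, matrices -/

section hilbert

variable (H : Type*) [NormedAddCommGroup H] [InnerProductSpace ℂ H] [CompleteSpace H]
variable (K : Type*) [NormedAddCommGroup K] [InnerProductSpace ℂ K] [CompleteSpace K]

variable {H} in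
/-- `t ↦ V t x` extends to the strip `-1/2 ≤ Im z ≤ 0`, with the values `V t x'` at `t - i/2` -/
def Hol (V : ℝ → H → H) (x x' : H) : Prop := ∃ φ : ℂ → H, DifferentiableOn ℂ φ T.SmI ∧
  ContinuousOn φ T.Sm ∧ (∃ C, ∀ z ∈ T.Sm, ‖φ z‖ ≤ C) ∧
    ∀ t : ℝ, φ t = V t x ∧ φ (t - I / 2) = V t x'

/-- row SST: spin and statistics -/
def SST : Prop := ∀ (V : ℝ → H → H) (x x' y y' : H),
  (∀ t u v, inner ℂ (V t u) (V t v) = inner ℂ u v) → Hol V x x' → Hol V y y' →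
    inner ℂ x x' = -inner ℂ y' y → x = 0

/-- row LIFT: the commutant of a reduced algebra -/
def LIFT : Prop := ∀ (j : K →L[ℂ] H) (𝒜 : Set (H →L[ℂ] H)) (w0 : K) (y : K →L[ℂ] K),
  (∀ z, adjoint j (j z) = z) → (∀ Y ∈ 𝒜, ∀ Y' ∈ 𝒜, Y + Y' ∈ 𝒜 ∧ Y * Y' ∈ 𝒜) →
  (∀ Y ∈ 𝒜, star Y ∈ 𝒜 ∧ ∀ s : ℂ, s • Y ∈ 𝒜) → j ∘L adjoint j ∈ 𝒜 →
  Dense {z | ∃ Y ∈ 𝒜, Y (j w0) = z} →
  (∀ Y ∈ 𝒜, ∀ z, y (adjoint j (Y (j z))) = adjoint j (Y (j (y z)))) →
  ∃ x : H →L[ℂ] H, ‖x‖ ≤ ‖y‖ ∧ (∀ Y ∈ 𝒜, Y * x = x * Y) ∧ (∀ z, x (j z) = j (y z)) ∧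
    ∀ z, star x (j z) = j (star y z)

end hilbert

/-- row BIC (in the file LIFT): weak commutation passes to the bicommutant -/
def BIC (E : Type*) [NormedAddCommGroup E] [InnerProductSpace ℂ E] : Prop :=
  ∀ (𝒜 : Set (Completion E →L[ℂ] Completion E)) (M : VonNeumannAlgebra (Completion E))
    (X X' : E → E), (1 : Completion E →L[ℂ] Completion E) ∈ 𝒜 →
    (∀ Y ∈ 𝒜, ∀ Y' ∈ 𝒜, Y * Y' ∈ 𝒜) → (∀ Y ∈ 𝒜, star Y ∈ 𝒜) →
    (∀ x, (∀ Y ∈ 𝒜, Y * x = x * Y) → x ∈ M) → (∀ v w, inner ℂ (X v) w = inner ℂ v (X' w)) →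
    (∀ Y ∈ 𝒜, ∀ v w : E, inner ℂ ((X' w : E) : Completion E) (Y (v : Completion E)) =
      inner ℂ (w : Completion E) (Y ((X v : E) : Completion E))) → T.Afs M X X'

/-- row RPX: the complex boosts -/
structure RPX : Prop where
  ex : ∀ k : Rp, ∃ W σ, OneP k W σ
  cj : ∀ (k : Rp) W σ, OneP k W σ → OneP (cj k) (fun z => (W (conj z)).map conj) σ

/-! ## level C: fields -/

section fields

variable {D : Type*} [NormedAddCommGroup D] [InnerProductSpace ℂ D] (c : Cg D)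

/-- row WB: energy norms, bounds on words -/
structure WB : Prop where
  der : ∀ m v, HasDerivAt (fun t : ℝ => c.Q.U 1 GF.one (bas m t) v) (Dv c.Q m v) 0
  add : ∀ m v w, Dv c.Q m (v + w) = Dv c.Q m v + Dv c.Q m w
  smul : ∀ m (z : ℂ) v, Dv c.Q m (z • v) = z • Dv c.Q m v
  tra : ∀ m y v, Dv c.Q m (c.Q.U 1 GF.one y v) = c.Q.U 1 GF.one y (Dv c.Q m v)
  inv : ∀ k y v, en c.Q k (c.Q.U 1 GF.one y v) = en c.Q k v
  vac : ∀ k, en c.Q k c.Q.vac = 1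
  le : ∀ k v, ‖v‖ ≤ en c.Q k v
  mono : ∀ k k' v, k ≤ k' → en c.Q k v ≤ en c.Q k' v
  wb : ∀ B B', c.Q.fld B → c.Q.fld B' → IsAdj B B' →
    ∀ (k n : ℕ) (b κ : ℝ) (g : Fn), IsTest g → 0 ≤ b → 1 ≤ κ →
    (∀ α : List Ix, α.length ≤ k * (2 * n + 1) → ∀ v,
      ‖B (pw α g) v‖ ≤ b * κ ^ α.length * en c.Q k v ∧
      ‖B' (bar (pw α g)) v‖ ≤ b * κ ^ α.length * en c.Q k v) →
    ‖(B g ∘ B' (bar g))^[n] (B g c.Q.vac)‖ ≤ (b * (5 * (2 * n + 1) * κ) ^ k) ^ (2 * n + 1) ∧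
    ‖(B' (bar g) ∘ B g)^[n] (B' (bar g) c.Q.vac)‖ ≤ (b * (5 * (2 * n + 1) * κ) ^ k) ^ (2 * n + 1)

/-- row SG: the group of similitudes -/
structure SG : Prop where
  act_mul : ∀ (g h : Sh c) x, (g.mul h).act x = g.act (h.act x)
  inv_act : ∀ (g : Sh c) x, g.inv.act (g.act x) = x
  act_inv : ∀ (g : Sh c) x, g.act (g.inv.act x) = x
  U_mul : ∀ g h : Sh c, (g.mul h).U c = g.U c * h.U c
  U_inv : ∀ g : Sh c, g.inv.U c = star (g.U c)
  uni : ∀ g : Sh c, g.U c ∈ unitary (Completion D →L[ℂ] Completion D)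
  vac : ∀ g : Sh c, g.U c c.Om = c.Om ∧ star (g.U c) c.Om = c.Om
  test : ∀ (g : Sh c) f, IsTest f → IsTest (g.pull f)
  inn : ∀ (g : Sh c) O f, In O f → In (g.act ⁻¹' O) (g.pull f)
  clm : ∀ g : Sh c, ∃ P : Sch →L[ℂ] Sch, ∀ f, ev (P f) = g.pull (ev f)
  bdd : ∀ (g : Sh c) K, IsBounded K → IsBounded (g.act '' K)
  ex : ∀ K, IsBounded K → ∃ g : Sh c, g.Adm K
  opn : ∀ g : Sh c, IsOpen g.Op
  ev : ∀ g : Sh c, ∀ X ∈ c.N g.Op, Cm c g (X + c.Γ * X * c.Γ)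
  od : ∀ g : Sh c, ∀ X ∈ c.N g.Op, Cm c g ((X - c.Γ * X * c.Γ) * c.Γ)
  rsc : ∀ O : Set V, IsOpen O → O.Nonempty →
    Dense {z | ∃ x, (∀ g : Sh c, O ⊆ g.Op → Cm c g x) ∧ x c.Om = z}
  alg : ∀ (g : Sh c) O X, X ∈ c.N O ↔ g.U c * X * star (g.U c) ∈ c.N (g.act '' O)
  loc : ∀ (g : Sh c) K, g.Adm K → ∀ X ∈ c.N K, g.U c * X * star (g.U c) ∈ M0 c
  back : ∀ (g : Sh c), ∀ X ∈ M0 c, star (g.U c) * X * g.U c ∈ c.N (g.act ⁻¹' W0)
  dense : Dense {z | ∃ Y ∈ (M0 c).commutant, Y c.Om = z}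
  dns : ∀ a b, IsNull a → IsNull b → GF.mdot a b = 1 →
    Dense {z | ∃ Y ∈ (c.N (Wdg a b 0)).commutant, Y c.Om = z}
  g2 : c.Γ * c.Γ = 1
  gs : star c.Γ = c.Γ
  gv : c.Γ c.Om = c.Om
  gU : ∀ g : Sh c, c.Γ * g.U c = g.U c * c.Γ
  gm : ∀ e, (Sh.gm c e).U c = c.gp e ∧ ∀ x, (Sh.gm c e).act x = x
  coe : ∀ s L a (v : D), 0 < s → IsLor L → Ug c.Q s L a v = (c.Q.U s L a v : D)
  sur : ∀ (g : Sh c) (v : D), ∃ w : D, g.U c v = w
  mul1 : ∀ s L a s' L' a' v, 0 < s → 0 < s' → IsLor L → IsLor L' → (L = GF.one ∨ L' = GF.one) →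
    c.Q.U s L a (c.Q.U s' L' a' v) =
      c.Q.U (s * s') (fun m => sim 1 L 0 (L' m)) (sim s L a a') v
  ut0 : Ut c.Q 0 = 1
  ut : ∀ x y, Ut c.Q (x + y) = Ut c.Q x * Ut c.Q y
  utc : ∀ z, Continuous fun y => Ut c.Q y z
  spec : ∀ z : Completion D, ∃ ν : Measure V, IsFiniteMeasure ν ∧
    (∀ᵐ p ∂ν, 0 ≤ p o ∧ 0 ≤ GF.mdot p p) ∧
      ∀ a, inner ℂ z (Ut c.Q a z) = ∫ p, Complex.exp (I * GF.mdot p a) ∂ν
  affa : ∀ O X X', Al c.Q O X X' → T.Afs (c.N O) X X'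
  md : Nonempty (ModData (M0 c) c.Om)

/-- row BAS: parities, adjoints -/
structure BAS : Prop where
  gadd : ∀ v w, c.G (v + w) = c.G v + c.G w
  gsmul : ∀ (z : ℂ) v, c.G (z • v) = z • c.G v
  padj : ∀ e B B', IsAdj B B' → Pa c e B → Pa c e B'
  pvac : ∀ e B f, Pa c e B → IsTest f →
    c.Γ (B f c.Q.vac : D) = sg e • ((B f c.Q.vac : D) : Completion D)
  comm : ∀ e e' B C f g v, c.Q.fld B → c.Q.fld C → Pa c e B → Pa c e' C → IsTest f → IsTest g →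
    Sep f g → B f (C g v) = sg (e && e') • C g (B f v)
  sadj : ∀ s L a (n : ℕ) (κ : Fin n → ℂ) (B B' : Fld D) (Φ Φ' : Fin n → Fld D), 0 < s → IsLor L →
    IsAdj B B' → (∀ i, IsAdj (Φ i) (Φ' i)) → (∀ f v, IsTest f → B f (c.Q.U s L a v) =
      ∑ i, κ i • c.Q.U s L a (Φ i (fun x => f (sim s L a x)) v)) → ∀ f v, IsTest f →
    B' f (c.Q.U s L a v) = ∑ i, conj (κ i) • c.Q.U s L a (Φ' i (fun x => f (sim s L a x)) v)
  madj : ∀ (k : Rp) (Φ Φ' : Fin k.n → Fld D), IsMf c.Q k Φ →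
    (∀ a, c.Q.fld (Φ' a) ∧ IsAdj (Φ a) (Φ' a)) → IsMf c.Q (cj k) Φ'
  padj' : ∀ e (k : Rp) d (Φ : Fin k.n → Fld D), Mp c e k d Φ →
    ∃ Φ' : Fin k.n → Fld D, Mp c e (cj k) (conj d) Φ' ∧ ∀ a, IsAdj (Φ a) (Φ' a)
  aff : ∀ e B B' f, c.Q.fld B → c.Q.fld B' → IsAdj B B' → Pa c e B → In W1 f →
    T.Afs (M0 c).commutant (fun v => B f (cond e (c.G v) v))
      fun v => cond e (c.G (B' (bar f) v)) (B' (bar f) v)

/-- row OG: analytic continuation of the boosts on one-field vectors -/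
def OG : Prop := ∀ a b, IsNull a → IsNull b → GF.mdot a b = 1 → ∀ (n : ℕ) (Φ : Fin n → Fld D)
  (κ : ℂ → Fin n → ℂ) (f : Fn) (V : ℝ → Completion D → Completion D) x x', (∀ i, c.Q.fld (Φ i)) →
  (∀ i, O649.Nice fun z => κ z i) → In (Wdg a b 0) f → (∀ t z, ‖V t z‖ = ‖z‖) →
  (∀ t : ℝ, V t x = ov c Φ (κ t) (fun y => f (sim 1 (O649.bi a b t) 0 y)) ∧
    V t x' = ov c Φ (κ (t - I / 2))
      fun y => f (sim 1 (T.rq a b) 0 (sim 1 (O649.bi a b t) 0 y))) → Hol V x x'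

/-- the tools for the rows of level C -/
structure E0 : Prop where
  tmb : TMB (Completion D)
  stb : STB (Completion D)
  prod : PROD (Completion D)
  smo : SMO (Completion D)
  mom : MOM D
  dec : DEC
  ana : ANA
  dy : DY
  pou : POU (Completion D)
  geo : GEO
  sg : SG c
  wb : WB c
  bas : BAS c

/-- row BWS: the modular group on one-field vectors -/
def BWS : Prop := ∀ (E : ModData (M0 c) c.Om) e (k : Rp) W σ (Φ Φ' : Fin k.n → Fld D),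
  OneP k W σ → IsMf c.Q k Φ → (∀ a, Pa c e (Φ a)) → (∀ a, c.Q.fld (Φ' a) ∧ IsAdj (Φ a) (Φ' a)) →
  ∀ (t : ℝ) z f, In W0 f → E.U t (ov c Φ z f) =
    ov c Φ ((W (-t)).mulVec z) fun y => f (sim 1 (O649.bi va vb t) 0 y)

/-- the fields are tame -/
def MB0 : Prop := ∀ B B', c.Q.fld B → c.Q.fld B' → IsAdj B B' → ∃ N, ∀ O f, IsOpen O → In O f →
  Tm (c.N O) c.Om N (B f c.Q.vac : D) (B' (bar f) c.Q.vac : D)

/-- row MB -/
def MB : Prop := EBd c.Q → MB0 c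

/-- the multiplets are smooth tame -/
def STF0 : Prop := ∀ e (k : Rp) (Φ Φ' : Fin k.n → Fld D), IsMf c.Q k Φ → (∀ a, Pa c e (Φ a)) →
  (∀ a, c.Q.fld (Φ' a) ∧ IsAdj (Φ a) (Φ' a)) → ∀ a f, In W0 f →
    Stm (M0 c) c.Om (Φ a f c.Q.vac : D) (Φ' a (bar f) c.Q.vac : D)

/-- row STF -/
def STF : Prop := RPX → BWS c → MB0 c → STF0 c

/-- row FSG: scaling dimensions -/
structure FSG : Prop where
  st : ∀ T, FSS c.Q → Stress0 c.Q T → ND.PCh c.Q T c.A →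
    ∃ T', c.Q.IsStress T' ∧ ND.PCh c.Q T' c.A
  md : FSS c.Q → MfAll c.Q → MdAll c

/-- row GR: Gaarding vectors are in the closure of the graph -/
def GR : Prop := EBd c.Q → ∀ (S : Submodule ℂ D) (B B' : Fld D) (f : Fn) (u : Completion D)
  (z : V → Completion D) (ε : ℝ), 0 < ε → c.Q.fld B → c.Q.fld B' → IsAdj B B' → In Set.univ f →
  (∀ a, ∀ s ∈ S, c.Q.U 1 GF.one a s ∈ S) → (∀ s ∈ S, B f s ∈ S) →
  u ∈ closure ((fun s : D => (s : Completion D)) '' S) → Continuous z →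
  (∀ a, ‖a‖ < ε → z a ∈ closure ((fun s : D => (s : Completion D)) '' S) ∧ ∀ s ∈ S,
    inner ℂ ((B' (bar fun x => f (sim 1 GF.one a x)) s : D) : Completion D) u =
      inner ℂ (s : Completion D) (z a)) →
  (u, z 0) ∈ closure ((fun s : D => ((s : Completion D), ((B f s : D) : Completion D))) '' S)

section st

variable (T : Ix → Ix → Fld D)

/-- the weak commutant of the stress tensor -/
structure WC0 : Prop where
  one : ∀ O, 1 ∈ Wc T O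
  add : ∀ O, ∀ Y ∈ Wc T O, ∀ Y' ∈ Wc T O, Y + Y' ∈ Wc T O
  smul : ∀ O (s : ℂ), ∀ Y ∈ Wc T O, s • Y ∈ Wc T O
  star : ∀ O, ∀ Y ∈ Wc T O, star Y ∈ Wc T O
  mul : ∀ O, IsOpen O → ∀ Y ∈ Wc T O, ∀ Y' ∈ Wc T O, Y * Y' ∈ Wc T O
  anti : ∀ O O', O ⊆ O' → ∀ Y ∈ Wc T O', Y ∈ Wc T O
  com : ∀ O, ∀ Y ∈ (c.N O).commutant, Y ∈ Wc T O
  gam : ∀ O, c.Γ ∈ Wc T O
  pj : ∀ O, Pj c T ∈ Wc T O
  cov : ∀ (g : Sh c) O, ∀ Y ∈ Wc T O, Star.star (g.U c) * Y * g.U c ∈ Wc T (g.act ⁻¹' O)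

/-- row WC -/
def WC : Prop := GR c → EBd c.Q → c.Q.IsStress T → WC0 c T

/-- row SEC: the sector -/
def SEC : Prop := c.Q.IsStress T → ND.PCh c.Q T c.A → UVac c.Q → EBd c.Q →
  Pj c T ∈ Wc T Set.univ → ∃ E q t a j, Sec c T E q t a j

variable {T} in
/-- the operators of `N W` lift to even operators of `c.N W` -/
def Lf {E : Submodule ℂ D} (j : Completion E →L[ℂ] Completion D)
    (N : Set V → VonNeumannAlgebra (Completion E)) : Prop :=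
  ∀ a b, IsNull a → IsNull b → GF.mdot a b = 1 → ∀ y ∈ N (Wdg a b 0), ∃ x ∈ c.N (Wdg a b 0),
    x ∈ (c.N (Wdg b a 0)).commutant ∧ ‖x‖ ≤ ‖y‖ ∧ (∀ z, x (j z) = j (y z)) ∧
      ∀ z, star x (j z) = j (star y z)

/-- row NB: the net of the sector -/
def NB : Prop := ∀ (E : Submodule ℂ D) q t a j, LIFT (Completion D) (Completion E) → BIC E → WC0 c T →
  Sec c T E q t a j → ∃ N, LNm q a N ∧ Lf c j N

/-- row POT: the potential -/
def POT : Prop := ∀ E q t a j N, Sec c T E q t a j → LNm q a N → Lf c j N → ∃ l, Pot c T l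

/-- row LET: the letters -/
def LET : Prop := ∀ l, Pot c T l → STF0 c → ∃ x : Lt c (Lab c), x.dag none = none ∧
  x.φ none = l ∧ x.p none = false ∧
  (∀ p : Lb c, x.Is (some p) p.B p.B' ∧ x.dag (some p) ≠ none) ∧
  ∀ e B, Cmp c e B → ∃ p : Lb c, p.B = B

/-- row STR: the stress tensor of an extension -/
def STR : Prop := ∀ (D' : Submodule ℂ (Completion D)) (Q' : Theory D') G' e,
  c.Q.IsStress T → ExtG c.Q c.Γ Q' G' e → (∀ A, Q'.fld A → ∃ (n : ℕ) (B : Fin n → Fld D),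
    (∀ i, c.Q.fld (B i)) ∧ ∀ f v, IsTest f → A f v = ∑ i, e (B i) f v) →
  Q'.IsStress fun m n => e (T m n)

end st

/-- row MU1: the product of local pairs -/
structure MU1 : Prop where
  mono : ∀ K K' ξ ξ', K ⊆ K' → Loc c K ξ ξ' → Loc c K' ξ ξ'
  U : ∀ K ξ ξ' (g : Sh c), Loc c K ξ ξ' → Loc c (g.act '' K) (g.U c ξ) (g.U c ξ')
  vac : Lp c c.Om c.Om
  zero : Lp c 0 0
  add : ∀ ξ ξ' η η', Lp c ξ ξ' → Lp c η η' → Lp c (ξ + η) (ξ' + η')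
  smul : ∀ (z : ℂ) ξ ξ', Lp c ξ ξ' → Lp c (z • ξ) (conj z • ξ')
  symm : ∀ K ξ ξ', Loc c K ξ ξ' → Loc c K ξ' ξ
  uniq : ∀ ξ ξ' ξ'', Lp c ξ ξ' → Lp c ξ ξ'' → ξ' = ξ''
  eq : ∀ K ξ' η ζ, IsBounded K → Rl c K ξ' η ζ → ml c ξ' η = ζ
  prod : ∀ K ξ ξ' η η', IsBounded K → Loc c K ξ ξ' → Loc c K η η' →
    Loc c K (ml c ξ' η) (ml c η ξ') ∧ Rl c K ξ' η (ml c ξ' η) ∧
      ∀ g : Sh c, g.Adm K → Core (M0 c) c.Om (g.U c η) (g.U c ξ) (g.U c (ml c ξ' η))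

/-- row MU2: the rules of the product -/
structure MU2 : Prop where
  one : ∀ ξ ξ', Lp c ξ ξ' → ml c ξ' c.Om = ξ
  add_r : ∀ ξ ξ' η θ, Lp c ξ ξ' → D1 c η → D1 c θ → ml c ξ' (η + θ) = ml c ξ' η + ml c ξ' θ
  smul_r : ∀ ξ ξ' η (z : ℂ), Lp c ξ ξ' → D1 c η → ml c ξ' (z • η) = z • ml c ξ' η
  add_l : ∀ ξ ξ' ζ ζ' η, Lp c ξ ξ' → Lp c ζ ζ' → D1 c η →
    ml c (ξ' + ζ') η = ml c ξ' η + ml c ζ' η
  smul_l : ∀ ξ ξ' η (z : ℂ), Lp c ξ ξ' → D1 c η → ml c (conj z • ξ') η = z • ml c ξ' η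
  herm : ∀ ξ ξ' η θ, Lp c ξ ξ' → D1 c η → D1 c θ →
    inner ℂ (ml c ξ' η) θ = inner ℂ η (ml c ξ θ)
  cov : ∀ ξ ξ' η (g : Sh c), Lp c ξ ξ' → D1 c η → g.U c (ml c ξ' η) = ml c (g.U c ξ') (g.U c η)
  loc : ∀ K K' ξ ξ' η η' θ e, IsBounded K → IsBounded K' → SepK K K' → Loc c K ξ ξ' →
    Loc c K' η η' → c.Γ η = sg e • η → c.Γ η' = sg e • η' → D1 c θ →
    ml c ξ' (ml c η' θ) = ml c η' (ml c (c.gp e ξ') θ)
  aff : ∀ K (X X' : D → D) η (w : D), IsBounded K → T.Afs (c.N K) X X' →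
    Lp c (X c.Q.vac : D) (X' c.Q.vac : D) → D1 c η →
    inner ℂ (ml c (X' c.Q.vac : D) η) (w : Completion D) = inner ℂ η ((X' w : D) : Completion D)

variable {c} {Λ : Type*} (x : Lt c Λ)

/-- row OPS: the letters act on the local vectors -/
structure OPS : Prop where
  d_vac : D1 c c.Om
  d_zero : D1 c 0
  d_add : ∀ v w, D1 c v → D1 c w → D1 c (v + w)
  d_smul : ∀ (z : ℂ) v, D1 c v → D1 c (z • v)
  d_U : ∀ (g : Sh c) v, D1 c v → D1 c (g.U c v)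
  mem : ∀ a f v, In Set.univ f → D1 c v → D1 c (x.op a f v)
  vac : ∀ a f, In Set.univ f → x.op a f c.Om = x.φ a f
  add : ∀ a f v w, In Set.univ f → D1 c v → D1 c w → x.op a f (v + w) = x.op a f v + x.op a f w
  smul : ∀ a f (z : ℂ) v, In Set.univ f → D1 c v → x.op a f (z • v) = z • x.op a f v
  lin : ∀ a (f g : Fn) (z : ℂ) v, In Set.univ f → In Set.univ g → D1 c v →
    x.op a (fun y => f y + z * g y) v = x.op a f v + z • x.op a g v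
  herm : ∀ a f v w, In Set.univ f → D1 c v → D1 c w →
    inner ℂ (x.op a f v) w = inner ℂ v (x.op (x.dag a) (bar f) w)
  cov : ∀ a (g : Sh c) n (κ : Fin n → ℂ) b f v, x.Cv a g κ b → In Set.univ f → D1 c v →
    x.op a f (g.U c v) = ∑ i, κ i • g.U c (x.op (b i) (g.pull f) v)
  loc : ∀ a b f g v, In Set.univ f → In Set.univ g → Sep f g → D1 c v →
    x.op a f (x.op b g v) = x.sn a b • x.op b g (x.op a f v)
  aff : ∀ a B B' f v (w : D), x.Is a B B' → In Set.univ f → D1 c v →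
    inner ℂ (x.op a f v) (w : Completion D) = inner ℂ v ((B' (bar f) w : D) : Completion D)
  zero : ∀ n (κ : Fin n → ℂ) (b : Fin n → Λ) (f : Fin n → Fn) v, (∀ i, In Set.univ (f i)) →
    ∑ i, κ i • x.φ (b i) (f i) = 0 → D1 c v → ∑ i, κ i • x.op (b i) (f i) v = 0 ∧
      ∑ i, conj (κ i) • x.op (x.dag (b i)) (bar (f i)) v = 0
  cont : ∀ a R v, D1 c v → Continuous fun f : Sch => x.op a (cutf R (ev f)) v

/-- the tools for the rows on words -/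
structure E1 : Prop extends E0 c where
  ops : OPS x

/-- row JB: joint bounds for supports in the unit ball -/
def JB : Prop := ∀ (ls : List Λ) v, D1 c v → ∃ (m : ℕ) (C : ℝ), 0 ≤ C ∧
  ∀ u : List (Λ × Sch), u.map Prod.fst = ls → ‖x.ap (cutw 0 (evw u)) v‖ ≤ C * snw m u

/-- row TMP: tempered bounds -/
def TMP : Prop := ∀ ls : List Λ, ∃ (m : ℕ) (C : ℝ), 0 ≤ C ∧
  ∀ u : List (Λ × Sch), u.map Prod.fst = ls → CW (evw u) → ‖x.ap (evw u) c.Om‖ ≤ C * snw m u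

/-- row EXT: extension to Schwartz functions -/
structure EXT : Prop where
  lim : ∀ u, TW u → Tendsto (fun R => x.ap (cutw R u) c.Om) atTop (𝓝 (x.W u))
  cw : ∀ u, CW u → x.W u = x.ap u c.Om
  bd : ∀ ls : List Λ, ∃ (m : ℕ) (C : ℝ), 0 ≤ C ∧
    ∀ u : List (Λ × Sch), u.map Prod.fst = ls → ‖x.W (evw u)‖ ≤ C * snw m u

/-- row FS (first part): the vector valued Wightman distributions -/
structure WP : Prop where
  nil : x.W [] = c.Om
  lin : ∀ a (f g : Fn) (z : ℂ) u, IsTest f → IsTest g → TW u →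
    x.W ((a, fun y => f y + z * g y) :: u) = x.W ((a, f) :: u) + z • x.W ((a, g) :: u)
  cont : ∀ a u, TW u → Continuous fun g : Sch => x.W ((a, ev g) :: u)
  herm : ∀ a f u w, IsTest f → TW u → TW w →
    inner ℂ (x.W ((a, f) :: u)) (x.W w) = inner ℂ (x.W u) (x.W ((x.dag a, bar f) :: w))
  loc : ∀ a b f g u, IsTest f → IsTest g → Sep f g → TW u →
    x.W ((a, f) :: (b, g) :: u) = x.sn a b • x.W ((b, g) :: (a, f) :: u)
  aff : ∀ a B B' f u (w : D), x.Is a B B' → IsTest f → TW u →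
    inner ℂ (x.W ((a, f) :: u)) (w : Completion D) =
      inner ℂ (x.W u) ((B' (bar f) w : D) : Completion D)

/-- row FS (second part): the new fields -/
structure FS : Prop where
  vac : c.Om ∈ x.Dn
  oW : ∀ a f u (v : x.Dn), IsTest f → TW u → (v : Completion D) = x.W u →
    (x.o a f v : Completion D) = x.W ((a, f) :: u)
  add : ∀ a f v w, x.o a f (v + w) = x.o a f v + x.o a f w
  smul : ∀ a f (z : ℂ) v, x.o a f (z • v) = z • x.o a f v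
  lin : ∀ a (f g : Fn) (z : ℂ) v, IsTest f → IsTest g →
    x.o a (fun y => f y + z * g y) v = x.o a f v + z • x.o a g v
  cont : ∀ a v, Continuous fun g : Sch => x.o a (ev g) v
  herm : ∀ a, IsAdj (x.o a) (x.o (x.dag a))
  loc : ∀ a b f g v, IsTest f → IsTest g → Sep f g →
    x.o a f (x.o b g v) = x.sn a b • x.o b g (x.o a f v)
  aff : ∀ a B B' f (v : x.Dn) (w : D), x.Is a B B' → IsTest f →
    inner ℂ (x.o a f v : Completion D) (w : Completion D) =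
      inner ℂ (v : Completion D) ((B' (bar f) w : D) : Completion D)

/-- row CV: covariance and relations of the new fields -/
structure CV : Prop where
  mem : ∀ (g : Sh c) v, v ∈ x.Dn → g.U c v ∈ x.Dn
  cov : ∀ a (g : Sh c) n (κ : Fin n → ℂ) b f (v w : x.Dn), x.Cv a g κ b → IsTest f →
    (w : Completion D) = g.U c v →
    (x.o a f w : Completion D) = ∑ i, κ i • g.U c (x.o (b i) (g.pull f) v)
  zero : ∀ n (κ : Fin n → ℂ) (b : Fin n → Λ) (f : Fin n → Fn) v, (∀ i, In Set.univ (f i)) →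
    ∑ i, κ i • x.φ (b i) (f i) = 0 → ∑ i, κ i • x.o (b i) (f i) v = 0

/-- row REC: the new theory -/
def REC : Prop := ∀ P : Λ → Prop, (∀ a, P a → P (x.dag a)) →
  (∀ S : Submodule ℂ x.Dn, (∀ v : x.Dn, (v : Completion D) = c.Om → v ∈ S) →
    (∀ a f v, P a → IsTest f → v ∈ S → x.o a f v ∈ S) → Dense (S : Set x.Dn)) →
  ∃ Q' : Theory x.Dn, (Q'.vac : Completion D) = c.Om ∧ Q'.U = x.Ud ∧
    (∀ B, Q'.fld B ↔ x.Fs P B) ∧
    (∀ B, Q'.bose B ↔ x.Fs P B ∧ ∀ f v, IsTest f → B f (x.Gd v) = x.Gd (B f v)) ∧ Gr Q' x.Gd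

variable (c)

/-- the fields of `Q'` are sums of `L` and extended components -/
def Gen {D' : Submodule ℂ (Completion D)} (Q' : Theory D') (e : Fld D → Fld D')
    (L : Fld D') : Prop := ∀ A, Q'.fld A → ∃ (n : ℕ) (B : Fin n → Fld D'),
  (∀ i, B i = L ∨ ∃ p C, Cmp c p C ∧ ∀ f v, IsTest f → B i f v = e C f v) ∧
    ∀ f v, A f v = ∑ i, B i f v

/-- row FIN: the extension with the local potential -/
def FIN (T : Ix → Ix → Fld D) (l : Fn → Completion D) : Prop :=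
  ∃ (D' : Submodule ℂ (Completion D)) (Q' : Theory D') (G' : D' → D')
    (e : Fld D → Fld D') (L : Fld D'), ExtG c.Q c.Γ Q' G' e ∧
    Q'.IsStress (fun m n => e (T m n)) ∧ Q'.IsScalar L 2 ∧ (∀ f v, IsTest f →
      GF.tr (fun m n => e (T m n)) f v = (3 : ℂ) • L (box f) v) ∧
    (∀ f, IsTest f → (L f Q'.vac : Completion D) = l f) ∧ Gen c Q' e L

end fields

end

end Vale.Agent.P352X.EG
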