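import Vale.Agent.P352X.EG.Spec

/-!
# P352X, block EG, row TMP: tempered bounds for words
-/

set_option linter.all false

open Filter Topology Metric
open scoped SchwartzMap ComplexConjugate

namespace Vale.Agent.P352X.EG

open Vale.Agent.P352X.EB

open Vale.Agent.P352 Vale.Agent.P352.GF Vale.Agent.P352.H246
open UniformSpace (Completion)

noncomputable section

namespace Tmp

variable {Λ : Type*}

theorem sn0 (m : ℕ) (f : Sch) : 0 ≤ sn m f := apply_nonneg _ _

theorem snw_cons (m : ℕ) (p : Λ × Sch) (u : List (Λ × Sch)) :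
    snw m (p :: u) = sn m p.2 * snw m u := by simp [snw]

theorem snw0 (m : ℕ) (u : List (Λ × Sch)) : 0 ≤ snw m u := by
  induction u with
  | nil => simp [snw]
  | cons p u ih => rw [snw_cons]; exact mul_nonneg (sn0 _ _) ih

/-- compact supports -/
def CS (u : List (Λ × Sch)) : Prop := ∀ p ∈ u, HasCompactSupport p.2

/-- supports in a ball -/
def BS (R : ℝ) (u : List (Λ × Sch)) : Prop := ∀ p ∈ u, tsupport p.2 ⊆ closedBall 0 R

theorem BS.cs {R : ℝ} {u : List (Λ × Sch)} (h : BS R u) : CS u := fun p hp =>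
  (isCompact_closedBall _ _).of_isClosed_subset (isClosed_tsupport _) (h p hp)

/-- `DY` slot by slot -/
theorem slots (dy : DY) (m M : ℕ) : ∃ (m' : ℕ) (C : ℝ), 0 ≤ C ∧ ∀ (ls : List Λ)
    (q : List (Λ × Sch) → ℝ) (κ : ℝ), 0 ≤ κ →
    (∀ u a (f g : Sch) w, CS u → HasCompactSupport f → HasCompactSupport g → CS w →
      q (u ++ (a, f + g) :: w) ≤ q (u ++ (a, f) :: w) + q (u ++ (a, g) :: w)) →
    (∀ (R : ℝ) u, 1 ≤ R → u.map Prod.fst = ls → BS R u → q u ≤ κ * R ^ M * snw m u) →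
    ∀ u, u.map Prod.fst = ls → CS u → q u ≤ C ^ ls.length * κ * snw m' u := by
  obtain ⟨m', C, hC, dy⟩ := dy m M
  refine ⟨m', C, hC, fun ls => ?_⟩
  induction ls with
  | nil =>
    intro q κ _ _ hb u hu _
    obtain rfl := List.map_eq_nil_iff.1 hu
    simpa [snw] using hb 1 [] le_rfl rfl fun _ h => by simp at h
  | cons a ls ih =>
    intro q κ hκ hs hb u hu hc
    obtain ⟨p, w, rfl, hp, hw⟩ := List.map_eq_cons_iff.1 hu
    obtain ⟨a', f⟩ := p
    obtain rfl : a' = a := hp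
    have hcw : CS w := fun p hp => hc p (List.mem_cons_of_mem _ hp)
    have h0 := snw0 m' w
    have := dy (fun f => q ((a', f) :: w)) (C ^ ls.length * κ * snw m' w) (by positivity)
      (fun f g hf hg => hs [] a' f g w (fun _ h => by simp at h) hf hg hcw)
      (fun R f hR hf => ?_) f (hc _ List.mem_cons_self)
    · rw [snw_cons, List.length_cons]
      refine this.trans (le_of_eq ?_)
      ring
    have hf' : HasCompactSupport f :=
      (isCompact_closedBall _ _).of_isClosed_subset (isClosed_tsupport _) hf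
    have h1 := sn0 m f
    refine (ih (fun w => q ((a', f) :: w)) (κ * R ^ M * sn m f) (by positivity)
      (fun u b g g' w hu hg hg' hw => hs ((a', f) :: u) b g g' w
        (List.forall_mem_cons.2 ⟨hf', hu⟩) hg hg' hw)
      (fun R' u hR' hu hB => ?_) w hw hcw).trans (le_of_eq (by ring))
    refine (hb (R * R') ((a', f) :: u) (one_le_mul_of_one_le_of_one_le hR hR') (by simp [hu])
      (List.forall_mem_cons.2 ⟨hf.trans (closedBall_subset_closedBall ?_), fun p hp =>
        (hB p hp).trans (closedBall_subset_closedBall ?_)⟩)).trans (le_of_eq ?_)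
    · exact le_mul_of_one_le_right (by linarith) hR'
    · exact le_mul_of_one_le_left (by linarith) hR
    · rw [snw_cons, mul_pow]
      ring

theorem inn {f : Sch} (h : HasCompactSupport f) : In Set.univ (ev f) :=
  ⟨⟨f, rfl⟩, h, Set.subset_univ _⟩

variable {D : Type*} [NormedAddCommGroup D] [InnerProductSpace ℂ D] {c : Cg D} {x : Lt c Λ}

theorem ap_cons (p : Λ × Sch) (u : List (Λ × Sch)) (v : Completion D) :
    x.ap (evw (p :: u)) v = x.op p.1 (ev p.2) (x.ap (evw u) v) := rfl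

theorem ap_app (u w : List (Λ × Sch)) (v : Completion D) :
    x.ap (evw (u ++ w)) v = x.ap (evw u) (x.ap (evw w) v) := by
  simp [Lt.ap, evw, List.foldr_append]

theorem ap_mem (o : OPS x) {u : List (Λ × Sch)} (hu : CS u) {v : Completion D} (hv : D1 c v) :
    D1 c (x.ap (evw u) v) := by
  induction u with
  | nil => exact hv
  | cons p u ih =>
    obtain ⟨h1, h2⟩ := List.forall_mem_cons.1 hu
    exact o.mem _ _ _ (inn h1) (ih h2)

theorem ap_add (o : OPS x) {u : List (Λ × Sch)} (hu : CS u) {v w : Completion D} (hv : D1 c v)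
    (hw : D1 c w) : x.ap (evw u) (v + w) = x.ap (evw u) v + x.ap (evw u) w := by
  induction u with
  | nil => rfl
  | cons p u ih =>
    obtain ⟨h1, h2⟩ := List.forall_mem_cons.1 hu
    rw [ap_cons, ap_cons, ap_cons, ih h2,
      o.add _ _ _ _ (inn h1) (ap_mem o h2 hv) (ap_mem o h2 hw)]

theorem sub (o : OPS x) (u : List (Λ × Sch)) (a : Λ) (f g : Sch) (w : List (Λ × Sch)) (hu : CS u)
    (hf : HasCompactSupport f) (hg : HasCompactSupport g) (hw : CS w) :
    ‖x.ap (evw (u ++ (a, f + g) :: w)) c.Om‖ ≤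
      ‖x.ap (evw (u ++ (a, f) :: w)) c.Om‖ + ‖x.ap (evw (u ++ (a, g) :: w)) c.Om‖ := by
  have hv := ap_mem o hw o.d_vac
  have e : ev (f + g) = fun y => ev f y + 1 * ev g y := by
    funext y
    simp [ev]
  have h := o.lin a (ev f) (ev g) 1 _ (inn hf) (inn hg) hv
  rw [one_smul, ← e] at h
  simp only [ap_app, ap_cons]
  rw [h, ap_add o hu (o.mem _ _ _ (inn hf) hv) (o.mem _ _ _ (inn hg) hv)]
  exact norm_add_le _ _

/-- the dilations -/
def dl (c : Cg D) (s : ℝ) (hs : 1 ≤ s) : Sh c :=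
  ⟨⟨s, GF.one, 0, by linarith, H496.isLor_one⟩, false⟩

theorem dl_act {s : ℝ} (hs : 1 ≤ s) (y : V) : (dl c s hs).act y = s • y := by
  funext n
  simp [dl, Sg.act, sim, GF.one, bas]

theorem dil (t : E1 x) (ls : List Λ) : ∃ e : ℕ, ∀ (s : ℝ) (hs : 1 ≤ s) (P : Sch → Sch),
    (∀ f, ev (P f) = (dl c s hs).pull (ev f)) → ∀ u : List (Λ × Sch), u.map Prod.fst = ls → CS u →
      CS (u.map fun p => (p.1, P p.2)) ∧ ∃ κ : ℂ, ‖κ‖ ≤ s ^ e ∧ x.ap (evw u) c.Om =
        κ • (dl c s hs).U c (x.ap (evw (u.map fun p => (p.1, P p.2))) c.Om) := by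
  induction ls with
  | nil =>
    refine ⟨0, fun s hs P _ u hu _ => ?_⟩
    obtain rfl := List.map_eq_nil_iff.1 hu
    refine ⟨fun _ h => by simp at h, 1, by simp, ?_⟩
    rw [one_smul]
    exact (t.sg.vac _).1.symm
  | cons a ls ih =>
    obtain ⟨e, ih⟩ := ih
    obtain ⟨e', he'⟩ := x.dil (x.dag a)
    refine ⟨e' + e, fun s hs P hP u hu hc => ?_⟩
    obtain ⟨p, w, rfl, hp, hw⟩ := List.map_eq_cons_iff.1 hu
    obtain ⟨a', f⟩ := p
    obtain rfl : a' = a := hp
    obtain ⟨h1, h2⟩ := List.forall_mem_cons.1 hc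
    obtain ⟨h3, κ, hκ, h4⟩ := ih s hs P hP w hw h2
    obtain ⟨κ', hκ', h5⟩ := he' s hs
    have h6 : HasCompactSupport (P f) := by
      have := (t.sg.inn (dl c s hs) _ _ (inn h1)).2.1
      rwa [← hP] at this
    have hv := ap_mem t.ops h3 t.ops.d_vac
    have hcv : x.Cv a' (dl c s hs) (fun _ : Fin 1 => conj κ') fun _ => a' := fun g hg => by
      rw [Fin.sum_univ_one, Complex.conj_conj]
      exact h5 g hg
    refine ⟨List.forall_mem_cons.2 ⟨h6, h3⟩, κ * conj κ', ?_, ?_⟩
    · rw [norm_mul, Complex.norm_conj, add_comm, pow_add]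
      gcongr
    · rw [List.map_cons, ap_cons, ap_cons, h4, t.ops.smul _ _ _ _ (inn h1) (t.ops.d_U _ _ hv),
        t.ops.cov _ _ _ _ _ _ _ hcv (inn h1) hv, Fin.sum_univ_one, smul_smul, hP]

theorem ball (t : E1 x) (j : JB x) (ls : List Λ) : ∃ (m M : ℕ) (κ : ℝ), 0 ≤ κ ∧
    ∀ (R : ℝ) (u : List (Λ × Sch)), 1 ≤ R → u.map Prod.fst = ls → BS R u →
      ‖x.ap (evw u) c.Om‖ ≤ κ * R ^ M * snw m u := by
  obtain ⟨m, C, hC, j⟩ := j ls _ t.ops.d_vac
  obtain ⟨e, he⟩ := dil t ls
  obtain ⟨C', hC', hd⟩ := t.ana.dil m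
  refine ⟨m, e + m * ls.length, C * C' ^ ls.length, by positivity, fun R u hR hu hB => ?_⟩
  obtain ⟨P, hP⟩ := t.sg.clm (dl c R hR)
  obtain ⟨-, κ, hκ, h⟩ := he R hR P hP u hu hB.cs
  have h1 : cutw 0 (evw (u.map fun p => (p.1, P p.2))) = evw (u.map fun p => (p.1, P p.2)) := by
    simp only [cutw, evw, List.map_map]
    refine List.map_congr_left fun p hp => Prod.ext rfl (t.ana.eq 0 _ fun y hy => ?_)
    simp only [Function.comp, hP] at hy
    have h2 := (t.sg.inn (dl c R hR) _ _ ⟨⟨p.2, rfl⟩, hB.cs p hp, hB p hp⟩).2.2 hy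
    rw [Set.mem_preimage, dl_act, mem_closedBall_zero_iff, norm_smul,
      Real.norm_of_nonneg (by linarith)] at h2
    rw [mem_closedBall_zero_iff]
    have : ‖y‖ ≤ 1 := le_of_mul_le_mul_left (by linarith) (by linarith : 0 < R)
    simpa using this
  have h2 := j (u.map fun p => (p.1, P p.2)) (by rw [← hu, List.map_map]; rfl)
  rw [h1] at h2
  have h3 : ∀ w : List (Λ × Sch), snw m (w.map fun p => (p.1, P p.2)) ≤
      (C' * R ^ m) ^ w.length * snw m w := by
    intro w
    induction w with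
    | nil => simp [snw]
    | cons p w ih =>
      have a := hd R p.2 (P p.2) hR fun y => congrFun (hP p.2) y
      have b := sn0 m p.2
      have b' := snw0 m w
      rw [List.map_cons, snw_cons, snw_cons, List.length_cons]
      refine (mul_le_mul a ih (snw0 _ _) (by positivity)).trans (le_of_eq (by ring))
  have h4 := h3 u
  have h5 : u.length = ls.length := by rw [← hu, List.length_map]
  rw [h, norm_smul, ContinuousLinearMap.norm_map_of_mem_unitary (t.sg.uni _)]
  calc _ ≤ R ^ e * (C * ((C' * R ^ m) ^ u.length * snw m u)) :=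
        mul_le_mul hκ (h2.trans (by gcongr)) (norm_nonneg _) (by positivity)
    _ = _ := by rw [h5, mul_pow, ← pow_mul, pow_add]; ring

end Tmp

variable {D : Type*} [NormedAddCommGroup D] [InnerProductSpace ℂ D] {c : Cg D} {Λ : Type*}
  {x : Lt c Λ}

open Tmp in
theorem tmp_row (t : E1 x) (j : JB x) : TMP x := by
  intro ls
  obtain ⟨m, M, κ, hκ, h⟩ := Tmp.ball t j ls
  obtain ⟨m', C, hC, h'⟩ := slots (Λ := Λ) t.dy m M
  refine ⟨m', C ^ ls.length * κ, by positivity, fun u hu hc => ?_⟩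
  exact h' ls (fun u => ‖x.ap (evw u) c.Om‖) κ hκ (Tmp.sub t.ops) h u hu fun p hp =>
    (hc (p.1, ev p.2) (List.mem_map.2 ⟨p, hp, rfl⟩)).2.1

end

end Vale.Agent.P352X.EG
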