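import Vale.Agent.P352X.EG.Spec

/-!
# P352X, block EG, row WC: the weak commutant of the stress tensor
-/

set_option linter.all false

open MeasureTheory Filter Topology
open scoped SchwartzMap ComplexConjugate ContDiff

namespace Vale.Agent.P352X.EG

open Vale.Agent.P352 Vale.Agent.P352.GF Vale.Agent.P352.BW Vale.Agent.P352.H246
open Vale.Agent.P352.H496 Vale.Agent.P352.H755 Vale.Agent.P352.H15
open Vale.Agent.P352.SubConf (IsAdj)
open Vale.Agent.P352X.EB
open UniformSpace (Completion)

noncomputable section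

namespace WCp

variable {D : Type*} [NormedAddCommGroup D] [InnerProductSpace ℂ D] {c : Cg D}
  {T : Ix → Ix → Fld D}

theorem herm' (hT : c.Q.IsStress T) (m n : Ix) {f : Fn} (hf : IsTest f) (v w : D) :
    inner ℂ ((T m n (bar f) w : D) : Completion D) (v : Completion D) =
      inner ℂ (w : Completion D) ((T m n f v : D) : Completion D) := by
  rw [Completion.inner_coe, Completion.inner_coe, hT.herm m n _ w v (isTest_bar hf), bar_bar]

theorem tr0 (f : Fn) : (fun x => f (sim 1 GF.one 0 x)) = f := by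
  funext x; rw [HM.sim_tr, add_zero]

theorem test_tr {f : Fn} (hf : IsTest f) (a : V) : IsTest fun x => f (sim 1 GF.one a x) := by
  obtain ⟨g, rfl⟩ := hf
  refine ⟨SchwartzMap.compSubConstCLM ℂ (-a) g, funext fun x => ?_⟩
  rw [HM.sim_tr]
  exact congrArg g (sub_neg_eq_add x a)

theorem cont_tr {B : Fld D} (hB : c.Q.fld B) {f : Fn} (hf : IsTest f) (v : D) :
    Continuous fun a : V => ((B (fun x => f (sim 1 GF.one a x)) v : D) : Completion D) := by
  obtain ⟨g, rfl⟩ := hf
  refine (Completion.continuous_coe D).comp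
    (((c.Q.cont B v hB).comp ((continuous_shift g).comp continuous_neg)).congr fun a => ?_)
  refine congrArg (fun h => B h v) (funext fun x => ?_)
  rw [HM.sim_tr]
  exact congrArg g (sub_neg_eq_add x a)

theorem in_tr {O : Set V} (hO : IsOpen O) {f : Fn} (hf : In O f) :
    ∃ ε > (0 : ℝ), ∀ a : V, ‖a‖ < ε → In O fun x => f (sim 1 GF.one a x) := by
  obtain ⟨ε, hε, h⟩ := hf.2.1.exists_thickening_subset_open hO hf.2.2
  refine ⟨ε, hε, fun a ha => ?_⟩
  have e : (fun x => f (sim 1 GF.one a x)) = f ∘ Homeomorph.addRight a := by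
    funext x; rw [HM.sim_tr]; rfl
  refine ⟨test_tr hf.1 a, e ▸ hf.2.1.comp_homeomorph _, fun x hx => h ?_⟩
  rw [e] at hx
  have := tsupport_comp_subset_preimage f (Homeomorph.addRight a).continuous hx
  exact Metric.mem_thickening_iff.2 ⟨x + a, this, by simpa [dist_eq_norm] using ha⟩

theorem of_cl {S : Set D} {X : D → D} {φ ψ : Completion D →L[ℂ] ℂ} {u z : Completion D}
    (h : (u, z) ∈ closure ((fun s : D => ((s : Completion D), ((X s : D) : Completion D))) '' S))
    (e : ∀ s : D, φ s = ψ (X s : D)) : φ u = ψ z := by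
  have hc : IsClosed {p : Completion D × Completion D | φ p.1 = ψ p.2} :=
    isClosed_eq (by fun_prop) (by fun_prop)
  exact closure_minimal (by rintro _ ⟨s, -, rfl⟩; exact e s) hc h

theorem s0_T {m n : Ix} {f : Fn} (hf : IsTest f) {s : D} (hs : s ∈ S0 c T) : T m n f s ∈ S0 c T :=
  Submodule.mem_sInf.2 fun S hS => hS.2 m n f s hf (Submodule.mem_sInf.1 hs S hS)

theorem s0_U (t : E0 c) (hT : c.Q.IsStress T) (a : V) {s : D} (hs : s ∈ S0 c T) :
    c.Q.U 1 GF.one a s ∈ S0 c T := by
  have k := fun v => t.sg.coe 1 GF.one a v one_pos H496.isLor_one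
  let l : D →ₗ[ℂ] D :=
    { toFun := c.Q.U 1 GF.one a
      map_add' := fun v w => Completion.coe_injective D (by
        simp only [Completion.coe_add, ← k, map_add])
      map_smul' := fun z v => Completion.coe_injective D (by
        simp only [Completion.coe_smul, ← k, map_smul, RingHom.id_apply]) }
  refine Submodule.mem_sInf.1 hs ((S0 c T).comap l) ⟨?_, fun m n f v hf hv => ?_⟩
  · show c.Q.U 1 GF.one a c.Q.vac ∈ S0 c T
    rw [c.Q.U_vac 1 _ a one_pos H496.isLor_one]
    exact Submodule.mem_sInf.2 fun S hS => hS.1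
  · have h1 := c.Q.transl (T m n) a _ v (c.Q.bose_fld _ (hT.bose m n)) (test_tr hf (-a))
    have h2 : (fun x => f (sim 1 GF.one (-a) (sim 1 GF.one a x))) = f := by
      funext x; rw [HM.sim_tr, HM.sim_tr, add_neg_cancel_right]
    rw [h2] at h1
    show c.Q.U 1 GF.one a (T m n f v) ∈ S0 c T
    rw [← h1]
    exact s0_T (test_tr hf (-a)) hv

theorem pj_mem (u : Completion D) :
    Pj c T u ∈ closure ((fun s : D => (s : Completion D)) '' S0 c T) :=
  (HB c T).starProjection_apply_mem u

theorem pj_fix {s : D} (hs : s ∈ S0 c T) (u : Completion D) :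
    inner ℂ (s : Completion D) (Pj c T u) = inner ℂ (s : Completion D) u := by
  have : (s : Completion D) ∈ HB c T := subset_closure ⟨s, hs, rfl⟩
  rw [Pj, ← Submodule.inner_starProjection_left_eq_right, Submodule.starProjection_eq_self_iff.2 this]

theorem cov (t : E0 c) (hT : c.Q.IsStress T) (h : Sh c) (m n : Ix) {f : Fn} (hf : IsTest f)
    {v v' : D} (e : (v : Completion D) = h.U c v') : ((T m n f v : D) : Completion D) =
      h.U c (∑ k, ∑ l, (h.L k m * h.L l n : ℂ) • ((T k l (h.pull f) v' : D) : Completion D)) := by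
  have k := fun v => t.sg.coe h.s h.L h.a v h.hs h.hL
  have h1 : ((T m n f (c.Q.U h.s h.L h.a v') : D) : Completion D) = Ug c.Q h.s h.L h.a
      (∑ k, ∑ l, (h.L k m * h.L l n : ℂ) • ((T k l (h.pull f) v' : D) : Completion D)) := by
    rw [hT.cov m n h.s h.L h.a f v' h.hs h.hL hf]
    simp only [map_sum, map_smul, k]
    change Completion.toComplL (𝕜 := ℂ) _ = _
    simp only [map_sum, map_smul]
    rfl
  unfold Sh.U at e ⊢
  cases he : h.e
  · rw [he, cond_false, k] at e
    rw [cond_false, ← h1, Completion.coe_injective D e]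
  · rw [he, cond_true, ContinuousLinearMap.mul_apply, k, c.hN.ext] at e
    rw [cond_true, ContinuousLinearMap.mul_apply, ← h1, Completion.coe_injective D e, c.hN.ext,
      c.hN.bose _ _ _ (hT.bose m n) hf]

end WCp

open WCp in
theorem wc_row {D : Type*} [NormedAddCommGroup D] [InnerProductSpace ℂ D] {c : Cg D} (t : E0 c)
    (T : Ix → Ix → Fld D) : WC c T := by
  intro gr eb hT
  have fl := fun m n => c.Q.bose_fld _ (hT.bose m n)
  refine ⟨fun O m n f hf v w => herm' hT m n hf.1 v w, fun O Y hY Y' hY' m n f hf v w => ?_,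
    fun O s Y hY m n f hf v w => ?_, fun O Y hY m n f hf v w => ?_,
    fun O hO Y hY Y' hY' m n f hf v w => ?_,
    fun O O' h Y hY m n f hf => hY m n f ⟨hf.1, hf.2.1, hf.2.2.trans h⟩,
    fun O Y hY m n f hf v w => ?_, fun O m n f hf v w => ?_, fun O m n f hf v w => ?_,
    fun g O Y hY m n f hf v w => ?_⟩
  · simp only [ContinuousLinearMap.add_apply, inner_add_right, hY m n f hf, hY' m n f hf]
  · simp only [ContinuousLinearMap.smul_apply, inner_smul_right, hY m n f hf]
  · have := hY m n _ hf.bar w v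
    rw [bar_bar] at this
    rw [ContinuousLinearMap.star_eq_adjoint, ContinuousLinearMap.adjoint_inner_right,
      ContinuousLinearMap.adjoint_inner_right, ← inner_conj_symm, ← this, inner_conj_symm]
  · obtain ⟨ε, hε, h⟩ := in_tr hO hf
    have := gr eb ⊤ (T m n) (T m n) f (Y' v)
      (fun a => Y' (T m n (fun x => f (sim 1 GF.one a x)) v : D)) ε hε (fl m n) (fl m n)
      (hT.herm m n) ⟨hf.1, hf.2.1, Set.subset_univ _⟩ (fun _ _ _ => trivial) (fun _ _ => trivial)
      (by simpa using Completion.denseRange_coe _) (Y'.continuous.comp (cont_tr (fl m n) hf.1 v))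
      fun a ha => ⟨by simpa using Completion.denseRange_coe _, fun s _ => hY' m n _ (h a ha) v s⟩
    simp only [tr0] at this
    exact of_cl (φ := innerSL ℂ ((T m n (bar f) w : D) : Completion D) ∘L Y)
      (ψ := innerSL ℂ (w : Completion D) ∘L Y) this fun s => hY m n f hf s w
  · obtain ⟨X', h1, h2⟩ := c.hN.fld O (T m n) f (fl m n) hf
    rw [← h2 Y hY, show X' w = T m n (bar f) w from
      ext_inner_left ℂ fun u => by rw [← h1, hT.herm m n f u w hf.1]]
  · rw [c.hN.ext, c.hN.ext, herm' hT m n hf.1, c.hN.bose _ _ _ (hT.bose m n) hf.1]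
  · have := gr eb (S0 c T) (T m n) (T m n) f (Pj c T v)
      (fun a => Pj c T (T m n (fun x => f (sim 1 GF.one a x)) v : D)) 1 one_pos (fl m n) (fl m n)
      (hT.herm m n) ⟨hf.1, hf.2.1, Set.subset_univ _⟩ (fun a _ => s0_U t hT a)
      (fun _ => s0_T hf.1) (pj_mem _) ((Pj c T).continuous.comp (cont_tr (fl m n) hf.1 v))
      fun a _ => ⟨pj_mem _, fun s hs => by
        rw [pj_fix hs, pj_fix (s0_T (isTest_bar (test_tr hf.1 a)) hs), herm' hT m n (test_tr hf.1 a)]⟩
    simp only [tr0] at this
    exact of_cl (φ := innerSL ℂ ((T m n (bar f) w : D) : Completion D))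
      (ψ := innerSL ℂ (w : Completion D)) this fun s => herm' hT m n hf.1 s w
  · have u1 : ∀ z, g.inv.U c (g.U c z) = z := fun z => by
      rw [t.sg.U_inv, ← ContinuousLinearMap.mul_apply, (t.sg.uni g).1]; rfl
    have u2 : ∀ z, g.U c (g.inv.U c z) = z := fun z => by
      rw [t.sg.U_inv, ← ContinuousLinearMap.mul_apply, (t.sg.uni g).2]; rfl
    obtain ⟨v', hv⟩ := t.sg.sur g v
    obtain ⟨w', hw⟩ := t.sg.sur g w
    have hi : In O (g.inv.pull f) := by
      obtain ⟨h1, h2, h3⟩ := t.sg.inn g.inv _ f hf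
      exact ⟨h1, h2, fun x hx => t.sg.act_inv g x ▸ h3 hx⟩
    have e1 := cov t hT g.inv m n hf.1 (v := v) (v' := v') (by rw [← hv, u1])
    have e2 := cov t hT g.inv m n (isTest_bar hf.1) (v := w) (v' := w') (by rw [← hw, u1])
    simp only [ContinuousLinearMap.mul_apply, ContinuousLinearMap.star_eq_adjoint,
      ContinuousLinearMap.adjoint_inner_right]
    rw [e1, e2, u2, u2, hv, hw]
    simp only [sum_inner, inner_sum, map_sum, map_smul, inner_smul_left, inner_smul_right, map_mul,
      Complex.conj_ofReal]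
    exact Finset.sum_congr rfl fun k _ => Finset.sum_congr rfl fun l _ =>
      congrArg _ (hY k l _ hi v' w')

end

end Vale.Agent.P352X.EG
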