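import Vale.Agent.P352X.EG.BAS
import Vale.Agent.P352X.EG.BWS
import Vale.Agent.P352X.EG.EXT
import Vale.Agent.P352X.EG.FIN
import Vale.Agent.P352X.EG.FS
import Vale.Agent.P352X.EG.FSG
import Vale.Agent.P352X.EG.GR
import Vale.Agent.P352X.EG.JB
import Vale.Agent.P352X.EG.LET
import Vale.Agent.P352X.EG.LIFT
import Vale.Agent.P352X.EG.MB
import Vale.Agent.P352X.EG.MU1
import Vale.Agent.P352X.EG.MU2
import Vale.Agent.P352X.EG.NB
import Vale.Agent.P352X.EG.OG
import Vale.Agent.P352X.EG.OPS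
import Vale.Agent.P352X.EG.POT
import Vale.Agent.P352X.EG.RPX
import Vale.Agent.P352X.EG.SEC
import Vale.Agent.P352X.EG.SG
import Vale.Agent.P352X.EG.SST
import Vale.Agent.P352X.EG.STF
import Vale.Agent.P352X.EG.TMP
import Vale.Agent.P352X.EG.WB
import Vale.Agent.P352X.EG.WC
import Vale.Agent.P352X.CG.W

/-!
# P352X, block EG: the wiring
-/

set_option linter.all false

open Filter Topology
open scoped ComplexConjugate

namespace Vale.Agent.P352X.EG

open Vale.Agent.P352X.EB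

open Vale.Agent.P352 Vale.Agent.P352.GF Vale.Agent.P352.BW Vale.Agent.P352.H246
open Vale.Agent.P352.H496 Vale.Agent.P352.H755 Vale.Agent.P352.H15
open Vale.Agent.P352.SubConf (IsAdj)
open UniformSpace (Completion)

noncomputable section

variable {D : Type*} [NormedAddCommGroup D] [InnerProductSpace ℂ D]

theorem e0_thm (c : Cg D) : E0 c where
  tmb := tmb_row _
  stb := stb_row _
  prod := prod_row _
  smo := smo_row _ (key_row _)
  mom := mom_row D
  dec := dec_row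
  ana := ana_row
  dy := dy_row ana_row
  pou := pou_row _
  geo := geo_row
  sg := sg_row c
  wb := wb_row c
  bas := bas_row (sg_row c)

theorem fin_thm (c : Cg D) {T : Ix → Ix → Fld D} (hT : c.Q.IsStress T) (hA : ND.PCh c.Q T c.A)
    (hD : MdAll c) (hU : UVac c.Q) (hE : EBd c.Q) : ∃ l, Pot c T l ∧ FIN c T l := by
  have t := e0_thm c
  have w0 := wc_row t T (gr_row t) hE hT
  obtain ⟨E, q, τ, a, j, hS⟩ := sec_row t T hT hA hU hE (w0.pj _)
  obtain ⟨N, hN, hL⟩ := nb_row t T E q τ a j (lift_row _ _) (bic_row E) w0 hS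
  obtain ⟨l, hl⟩ := pot_row t T E q τ a j N hS hN hL
  obtain ⟨x, h0, h1, hp, h2, h3⟩ := let_row t T l hl
    (stf_row t rpx_row (bws_row t rpx_row (og_row c) (sst_row _)) (mb_row t hE))
  have t1 : E1 x := { t with ops := ops_row t (mu1_row t) (mu2_row t (mu1_row t)) x }
  have e := ext_row t1 (tmp_row t1 (jb_row t1))
  have w := wp_row t1 e
  have v := cv_row t1 e w (fs_row w)
  exact ⟨l, hl, fin_row t hT hD hl x h0 h1 hp h2 h3 t1.ops e w (fs_row w) v
    (rec_row t (fs_row w) v)⟩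

section ext

variable {c : Cg D} {D' : Submodule ℂ (Completion D)} {Q' : Theory D'} {G' : D' → D'}
  {e : Fld D → Fld D'} (t : E0 c) (E : ExtG c.Q c.Γ Q' G' e)
include t E

/-- covariance relations pass to the extension -/
theorem ext_cov {n : ℕ} {B : Fld D} {C : Fin n → Fld D} {κ : Fin n → ℂ} {s : ℝ} {L : Ix → V}
    (hs : 0 < s) (hL : IsLor L) (hB : c.Q.fld B) (hC : ∀ i, c.Q.fld (C i))
    (h : ∀ f v, IsTest f → B f (c.Q.U s L 0 v) =
      ∑ i, κ i • c.Q.U s L 0 (C i (fun x => f (sim s L 0 x)) v)) {f : Fn} (hf : IsTest f)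
    (v : D') : e B f (Q'.U s L 0 v) =
      ∑ i, κ i • Q'.U s L 0 (e (C i) (fun x => f (sim s L 0 x)) v) := by
  obtain ⟨B', -, hB'⟩ := c.Q.adj B hB
  choose C' _ hC' using fun i => c.Q.adj (C i) (hC i)
  have hg := Ap.test_sim hs hL 0 hf
  have h0 := fun w => t.bas.sadj s L 0 n κ B B' C C' hs hL hB' hC' h _ w (Ap.test_bar hf)
  have hU := t.sg.uni ⟨⟨s, L, 0, hs, hL⟩, false⟩
  let W := Ug c.Q s L 0
  have hW : ∀ x y, inner ℂ (W x) (W y) = inner ℂ x y :=
    ContinuousLinearMap.inner_map_map_of_mem_unitary hU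
  refine EB.STRa.ext_dense (u := fun w : D => W w)
    ((Function.Surjective.denseRange fun z => ⟨star W z, DFunLike.congr_fun hU.2 z⟩).comp
      Completion.denseRange_coe W.continuous) fun w => ?_
  have h1 : W w = (c.Q.U s L 0 w : D) := t.sg.coe s L 0 w hs hL
  have h2 : ∀ z : D', (Q'.U s L 0 z : Completion D) = W z := fun z =>
    (E.U s L 0 z hs hL).trans (Ug_apply _ hs hL 0 _).symm
  have h3 : ∀ z : D, ((c.Q.U s L 0 z : D) : Completion D) = W z := fun z =>
    (t.sg.coe s L 0 z hs hL).symm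
  conv_lhs => rw [h1, E.adj B B' f _ _ hB hB' hf, h0, h2]
  simp only [Fin'.coe_sum, Completion.coe_smul, Submodule.coe_sum, Submodule.coe_smul, inner_sum,
    sum_inner, inner_smul_left, inner_smul_right, h2, h3, hW,
    fun i => E.adj (C i) (C' i) _ v w (hC i) (hC' i) hg]
  rfl

theorem ext_odd {B : Fld D} (h : Fer c.Q c.G B) : Fer Q' G' (e B) := by
  refine ⟨E.fld _ h.1, fun f v hf => EB.STRa.ext_D fun y => ?_⟩
  obtain ⟨B', -, hA⟩ := c.Q.adj B h.1
  have pa := t.bas.padj true B B' hA (fun f v hf => (h.2 f v hf).trans (neg_one_smul ℂ _).symm) _ y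
    (Ap.test_bar hf)
  rw [show sg true = -1 from rfl, neg_one_smul] at pa
  rw [E.adj B B' f _ y h.1 hA hf, Submodule.coe_neg, inner_neg_left, E.G, E.G, ← t.sg.gs,
    star_inner, star_inner, c.hN.ext, c.hN.ext, E.adj B B' f _ _ h.1 hA hf, pa, Completion.coe_neg,
    inner_neg_right, neg_neg]

theorem desc_cmp {Q'' : Theory D'} (n : IsEnl Q' Q'') {τ : Ix → Ix → Fld D'} (h : CFS Q'' G' τ)
    {p : Bool} {C : Fld D} (hC : Cmp c p C) :
    ∃ C', DescS Q'' G' τ p C' ∧ ∀ f v, IsTest f → e C f v = C' f v := by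
  obtain ⟨k, d, Φ, a, m, rfl⟩ := hC
  have key : ∀ b, ∃ B, c.Q.fld B ∧ (if p then Fer Q'' G' (e B) else Q''.bose (e B)) ∧
      ∀ f v, IsTest f → Φ b f v = B f v := fun b => by
    cases p
    · obtain ⟨B, h1, h2⟩ := Bas.even (m.mf.1 b) (m.par b)
      exact ⟨B, c.Q.bose_fld _ h1, n.bose _ (E.bos _ h1), h2⟩
    · have h1 := ext_odd t E (Bas.odd (m.mf.1 b) (m.par b))
      exact ⟨Φ b, m.mf.1 b, ⟨n.fld _ h1.1, h1.2⟩, fun _ _ _ => rfl⟩
  choose Ψ h1 h2 h3 using key
  choose Ψ' _ h4 using fun b => Q'.adj _ (E.fld _ (h1 b))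
  refine ⟨e (Ψ a), (h.mp p k d (fun b => e (Ψ b)) Ψ' (fun b L f v hL hf => ?_)
    fun b => ⟨fun s f v hs hf => ?_, h2 b, h4 b⟩).2 a, fun f v hf => EB.STRa.ext_D fun y => ?_⟩
  · rw [n.U]
    exact ext_cov t E one_pos hL (h1 b) h1 (fun g w hg => by
      simp only [← h3 _ _ _ hg, ← h3 _ _ _ (Ap.test_sim one_pos hL 0 hg), m.mf.2 b L g w hL hg])
      hf v
  · rw [n.U]
    have o := H496.isLor_one
    simpa using ext_cov t E (C := fun _ : Fin 1 => Ψ b) (κ := fun _ => (s : ℂ) ^ (4 - d)) hs o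
      (h1 b) (fun _ => h1 b) (fun g w hg => by
        simp only [← h3 _ _ _ hg, ← h3 _ _ _ (Ap.test_sim hs o 0 hg), m.dim b s g w hs hg,
          Fin.sum_univ_one]) hf v
  · obtain ⟨B', -, hA⟩ := c.Q.adj _ (m.mf.1 a)
    rw [E.adj _ B' f v y (m.mf.1 a) hA hf, E.adj _ B' f v y (h1 a)
      (fun g w w' hg => by rw [← h3 _ _ _ hg, hA g w w' hg]) hf]

end ext

/-- spin zero -/
def rp0 : Rp where
  n := 1
  ρ _ := 1
  S _ _ := 0
  id := rfl
  mul _ _ _ _ := .inl (one_mul _).symm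
  der L w a b _ _ _ := by simpa using hasDerivAt_const (0 : ℝ) ((1 : Matrix (Fin 1) (Fin 1) ℂ) a b)

theorem desc_scal {Q : Theory D} {G : D → D} {τ : Ix → Ix → Fld D} (h : CFS Q G τ) {L : Fld D}
    {d : ℝ} (hL : Q.IsScalar L d) : DescS Q G τ false L :=
  (h.mp false rp0 d (fun _ => L) (fun _ => L) (fun a M f v hM hf => by
    have := hL.2.2 1 M 0 f v one_pos hM hf
    rw [Real.one_rpow] at this
    have e : ∀ (a : Fin 1) (w : D), ((1 : ℝ) : ℂ) • w =
        ∑ b : Fin 1, (1 : Matrix (Fin 1) (Fin 1) ℂ) b a • w := fun a w => by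
      rw [Fin.sum_univ_one, Subsingleton.elim a 0]
      simp
    exact this.trans (e a _)) fun _ => ⟨fun s f v hs hf => by
      rw [hL.2.2 s _ 0 f v hs H496.isLor_one hf, Complex.ofReal_cpow hs.le]
      push_cast
      rfl, hL.1, hL.2.1⟩).2 (0 : Fin 1)

theorem final (Q : Theory D) (G : D → D) (T : Ix → Ix → Fld D) (hT : Stress0 Q T)
    (A : (V → V) → D → D) (hA : ND.PCh Q T A) (hG : MfAll Q) (hF : FSS Q)
    (Γ : Completion D →L[ℂ] Completion D) (N : Set V → VonNeumannAlgebra (Completion D))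
    (hN : LNg Q G A Γ N) (hU : UVac Q) (hE : EBd Q) :
    ∃ T', Q.IsStress T' ∧ ND.PCh Q T' A ∧
    ∃ (D' : Submodule ℂ (Completion D)) (Q' : Theory D') (G' : D' → D') (e : Fld D → Fld D')
      (L : Fld D'), ExtG Q Γ Q' G' e ∧ Q'.IsStress (fun m n => e (T' m n)) ∧ Q'.IsScalar L 2 ∧
      (∀ f v, IsTest f → tr (fun m n => e (T' m n)) f v = (3 : ℂ) • L (box f) v) ∧
      ∀ Q'' : Theory D', IsEnl Q' Q'' → IsImpr Q'' (fun m n => e (T' m n))
        (improve (fun m n => e (T' m n)) L) ∧ ConfAct Q'' (improve (fun m n => e (T' m n)) L) ∧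
        (Gr Q'' G' → CFS Q'' G' (improve (fun m n => e (T' m n)) L) ∧
        ∀ B, Q'.fld B → ∃ (n : ℕ) (p : Fin n → Bool) (C : Fin n → Fld D'),
          (∀ i, DescS Q'' G' (improve (fun m n => e (T' m n)) L) (p i) (C i)) ∧
          ∀ f v, IsTest f → B f v = ∑ i, C i f v) := by
  let c : Cg D := ⟨Q, G, A, Γ, N, hN⟩
  have t := e0_thm c
  obtain ⟨T', a1, a2⟩ := (fsg_row t).st T hF hT hA
  obtain ⟨l, hl, D', Q', G', e, L, h1, h2, h3, h4, h5, h6⟩ :=
    fin_thm c a1 a2 ((fsg_row t).md hF hG) hU hE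
  refine ⟨T', a1, a2, D', Q', G', e, L, h1, h2, h3, h4, fun Q'' n => ?_⟩
  obtain ⟨h7, h8⟩ := scal_row D' Q' _ L h2 h3 h4 Q'' n
  refine ⟨h7, h8, fun g => ?_⟩
  have hT'' := H746.isStress_enl n h2
  have hL'' := scalar_enl n h3
  let M : D' →ₗ[ℂ] D' :=
    { toFun := G'
      map_add' := fun v w => ext_inner_right ℂ fun y => by simp only [g.herm, inner_add_left]
      map_smul' := fun z v => ext_inner_right ℂ fun y => by
        simp only [g.herm, inner_smul_left, RingHom.id_apply] }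
  obtain ⟨S, s1, s2, s3⟩ := hl.mix
  let k : CA.G.Cx D' := ⟨Q'', _, G', isT_of_impr h7 hT'',
    fun m n k l f g v hf hg h => sub_eq_zero.1 (h7.self m n k l f g v hf hg h), h7.cov,
    ⟨_, hT''.bose o o⟩, g.inv, g.herm, fun m n f v hf => by
      show _ = M _
      simp only [improve, map_add, map_sub, map_smul, map_sum, g.bose _ _ v (hT''.bose m n) hf,
        fun k l => g.bose _ _ v hL''.1 (Ap.test_pd k (Ap.test_pd l hf))]
      rfl, g.GU,
    fun C hC => by
      obtain ⟨C1, C2, a1, a2, e⟩ := g.split C hC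
      refine ⟨2, ![1, -1], ![C1, C2], fun j => ?_, fun k v hk => ?_⟩
      · fin_cases j
        exacts [Q''.bose_fld _ a1, a2.1]
      · rw [e k _ hk, g.bose C1 k v a1 hk, a2.2 k v hk, show G' _ = M _ from rfl, map_add, map_neg]
        simp [M, g.inv],
    g.mul, fun F w hF => by
      have hv : (Q''.vac : Completion D) = c.Om := by rw [n.vac]; exact h1.vac
      have b1 : ∀ f, IsTest f → (L f Q''.vac : Completion D) ∈ S := fun f hf => by
        rw [n.vac, h5 f hf]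
        exact s2 f hf
      have b2 : ((smt (improve (fun m n => e (T' m n)) L) F Q''.vac : D') : Completion D) ∈ S := by
        simp only [smt, improve, Submodule.coe_sum, Submodule.coe_add, Submodule.coe_sub,
          Submodule.coe_smul]
        refine S.sum_mem fun m _ => S.sum_mem fun n _ => ?_
        have hf := (hF m n).isTest
        refine S.sub_mem (S.add_mem ?_ (S.smul_mem _ (b1 _ (Ap.test_pd _ (Ap.test_pd _ hf)))))
          (S.smul_mem _ (S.sum_mem fun k _ => S.smul_mem _ (b1 _ (Ap.test_pd _ (Ap.test_pd _ hf)))))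
        rw [h1.agree _ _ _ Q.vac (Q.bose_fld _ (a1.bose m n)) hf hv]
        exact s1 m n _ hf
      have b3 := s3 _ b2 w
      rw [← hv, ← Submodule.coe_inner, ← Submodule.coe_inner] at b3
      refine b3.congr' (eventually_nhdsWithin_of_forall fun r hr => ?_)
      obtain ⟨p1, p2⟩ := CA.lsc_pos hr
      show inner ℂ _ (Ue _ _ _ _ _) = inner ℂ _ (Q''.U _ _ _ _)
      rw [← h1.U _ _ _ _ p1 p2, n.U]
      rfl⟩
  have cf : CFS Q'' G' (improve (fun m n => e (T' m n)) L) := (CA.G.cfs k g).1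
  refine ⟨cf, fun B hB => ?_⟩
  obtain ⟨m, C, hC, h⟩ := h6 B hB
  have key : ∀ i, ∃ p C', DescS Q'' G' (improve (fun m n => e (T' m n)) L) p C' ∧
      ∀ f v, IsTest f → C i f v = C' f v := fun i => by
    rcases hC i with h | ⟨p, C', a, b⟩
    · exact ⟨false, L, desc_scal cf hL'', fun _ _ _ => by rw [h]⟩
    · obtain ⟨C'', a1, a2⟩ := desc_cmp t h1 n cf a
      exact ⟨p, C'', a1, fun f v hf => (b f v hf).trans (a2 f v hf)⟩
  choose p C' b1 b2 using key
  exact ⟨m, p, C', b1, fun f v hf => (h f v).trans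
    (Finset.sum_congr rfl fun i _ => b2 i f v hf)⟩

end

end Vale.Agent.P352X.EG
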